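/-
Row 269, P1 Section 10.1, package BP-S10a (architect: helper230).  HOST-FREE analytic tools (Mathlib + Lib/CA1Top).
* Schwarz-Pick for maps of a disc into a half plane / a strip;
* the derivative of a function which is real on the real axis is real;
* a meromorphic function on a domain which vanishes near one point vanishes at every point of continuity;
* local injectivity of a holomorphic function with nonzero derivative;
* change of variables for an increasing circle diffeomorphism.
-/
import Claimed.Agent.R269.Lib.CA1Top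

set_option autoImplicit false

namespace Claimed.Agent.R269

open Complex Metric Set Filter Topology MeasureTheory
open scoped Real

/-- Schwarz-Pick at the centre, target `Im < b`. -/
theorem s10g_half_plane_deriv {g : ℂ → ℂ} {c : ℂ} {r b : ℝ} (hr : 0 < r)
    (hg : DifferentiableOn ℂ g (ball c r)) (hb : ∀ z ∈ ball c r, (g z).im < b) :
    r * ‖deriv g c‖ ≤ 2 * (b - (g c).im) := by
  set a : ℂ := g c with ha
  set a' : ℂ := ⟨a.re, 2 * b - a.im⟩ with ha'
  have hc : c ∈ ball c r := mem_ball_self hr
  have hab : a.im < b := hb c hc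
  have hne : ∀ ζ : ℂ, ζ.im < b → ζ - a' ≠ 0 := by
    intro ζ hζ h0
    have := congrArg Complex.im h0
    simp only [ha', Complex.sub_im, Complex.zero_im] at this
    linarith
  have hlt : ∀ ζ : ℂ, ζ.im < b → ‖(ζ - a) / (ζ - a')‖ < 1 := by
    intro ζ hζ
    rw [norm_div, div_lt_one (norm_pos_iff.2 (hne ζ hζ))]
    rw [← sq_lt_sq₀ (norm_nonneg _) (norm_nonneg _), Complex.sq_norm, Complex.sq_norm,
      Complex.normSq_apply, Complex.normSq_apply]
    simp only [ha', Complex.sub_re, Complex.sub_im]
    nlinarith [mul_pos (sub_pos.2 hab) (sub_pos.2 hζ)]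
  set F : ℂ → ℂ := fun z => (g z - a) / (g z - a') with hF
  have hFd : DifferentiableOn ℂ F (ball c r) := by
    intro z hz
    exact ((hg z hz).sub_const a).div ((hg z hz).sub_const a') (hne _ (hb z hz))
  have hFc : F c = 0 := by simp [hF, ha]
  have hmaps : MapsTo F (ball c r) (closedBall (F c) 1) := by
    intro z hz
    rw [hFc, mem_closedBall_zero_iff]
    exact (hlt _ (hb z hz)).le
  have h1 := Complex.norm_deriv_le_div_of_mapsTo_ball hFd hmaps hr
  have hgd : HasDerivAt g (deriv g c) c := (hg.differentiableAt (isOpen_ball.mem_nhds hc)).hasDerivAt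
  have hFder : HasDerivAt F (deriv g c / (a - a')) c := by
    have h2 := (hgd.sub_const a).div (hgd.sub_const a') (hne _ hab)
    have h3 : a - a' ≠ 0 := hne a hab
    have h4 : (deriv g c * (g c - a') - (g c - a) * deriv g c) / (g c - a') ^ 2 = deriv g c / (a - a') := by
      rw [← ha]
      field_simp
      ring
    rw [h4] at h2
    exact h2
  rw [hFder.deriv, norm_div] at h1
  have hnorm : ‖a - a'‖ = 2 * (b - a.im) := by
    have h4 : a - a' = ((2 * (a.im - b) : ℝ) : ℂ) * Complex.I := by
      apply Complex.ext <;> simp [ha'] <;> ring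
    rw [h4, norm_mul, Complex.norm_I, mul_one, Complex.norm_real, Real.norm_eq_abs,
      abs_of_nonpos (by linarith)]
    ring
  rw [hnorm] at h1
  have hpos : 0 < 2 * (b - a.im) := by linarith
  rw [div_le_div_iff₀ hpos hr] at h1
  linarith

/-- Schwarz-Pick at the centre, target the strip `|Im| < b`. -/
theorem s10g_strip_deriv {g : ℂ → ℂ} {c : ℂ} {r b : ℝ} (hr : 0 < r)
    (hg : DifferentiableOn ℂ g (ball c r)) (hb : ∀ z ∈ ball c r, |(g z).im| < b) :
    r * ‖deriv g c‖ ≤ 2 * (b - |(g c).im|) := by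
  have h1 := s10g_half_plane_deriv hr hg fun z hz => (abs_lt.1 (hb z hz)).2
  have h2 := s10g_half_plane_deriv (g := fun z => -g z) (b := b) hr hg.neg fun z hz => by
    have := (abs_lt.1 (hb z hz)).1
    simp only [Complex.neg_im]
    linarith
  have h3 : deriv (fun z => -g z) c = -deriv g c := deriv.fun_neg
  rw [h3, norm_neg] at h2
  simp only [Complex.neg_im] at h2
  rcases abs_cases (g c).im with ⟨h, _⟩ | ⟨h, _⟩ <;> rw [h] <;> linarith

/-- the complex derivative at a real point of a function which is real on the real axis is real. -/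
theorem s10g_deriv_im_eq_zero {g : ℂ → ℂ} {x : ℝ} (hg : DifferentiableAt ℂ g x)
    (hr : ∀ u : ℝ, (g u).im = 0) : (deriv g x).im = 0 := by
  have h1 : HasDerivAt (fun u : ℝ => g u) (deriv g x) x := hg.hasDerivAt.comp_ofReal
  have h2 : HasDerivAt (fun u : ℝ => (g u).im) (deriv g x).im x :=
    Complex.imCLM.hasFDerivAt.comp_hasDerivAt x h1
  have h3 : (fun u : ℝ => (g u).im) = fun _ => 0 := funext hr
  rw [h3] at h2
  exact h2.unique (hasDerivAt_const x 0)

/-- real derivative of the real part of a function which is holomorphic at a real point. -/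
theorem s10g_hasDerivAt_re {g : ℂ → ℂ} {x : ℝ} (hg : DifferentiableAt ℂ g x) :
    HasDerivAt (fun u : ℝ => (g u).re) (deriv g x).re x :=
  Complex.reCLM.hasFDerivAt.comp_hasDerivAt x hg.hasDerivAt.comp_ofReal

/-- identity principle in the form used for the slice: a meromorphic function on a domain which vanishes near one point vanishes at every
point of continuity. -/
theorem s10g_mero_zero {F : ℂ → ℂ} {U : Set ℂ} (hU : IsOpen U) (hc : IsPreconnected U) (hF : MeromorphicOn F U)
    {z₀ : ℂ} (h₀ : z₀ ∈ U) (h : ∀ᶠ z in 𝓝 z₀, F z = 0) {y : ℂ} (hy : y ∈ U) (hcont : ContinuousAt F y) :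
    F y = 0 := by
  have h1 : F =ᶠ[𝓝[≠] z₀] fun _ => (0 : ℂ) := h.filter_mono nhdsWithin_le_nhds
  have h2 := ca_mero_identity hF (fun z _ => MeromorphicAt.const (0 : ℂ) z) hU hc h₀ h1 y hy
  have h3 : Tendsto F (𝓝[≠] y) (𝓝 (F y)) := hcont.tendsto.mono_left nhdsWithin_le_nhds
  have h4 : Tendsto F (𝓝[≠] y) (𝓝 0) := tendsto_const_nhds.congr' h2.symm
  exact tendsto_nhds_unique h3 h4

/-- local injectivity. -/
theorem s10g_injOn_nhds {k : ℂ → ℂ} {a : ℂ} (hk : AnalyticAt ℂ k a) (hk' : deriv k a ≠ 0) :
    ∃ U ∈ 𝓝 a, InjOn k U := by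
  have h1 : HasStrictDerivAt k (deriv k a) a := hk.hasStrictDerivAt
  have h2 := h1.hasStrictFDerivAt_equiv hk'
  refine ⟨(h2.toOpenPartialHomeomorph k).source, ?_, ?_⟩
  · exact (h2.toOpenPartialHomeomorph k).open_source.mem_nhds h2.mem_toOpenPartialHomeomorph_source
  · exact (h2.toOpenPartialHomeomorph k).injOn

/-- change of variables for an increasing circle diffeomorphism. -/
theorem s10g_density {g g' : ℝ → ℝ} {m : ℝ} (hm : 0 < m) (hg : ∀ x, HasDerivAt g (g' x) x)
    (hg' : Continuous g') (hmg : ∀ x ∈ Icc (0 : ℝ) (2 * π), m ≤ g' x) (hper : g (2 * π) = g 0 + 2 * π) {V : ℝ → ℝ}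
    (hV : Continuous V) (h0 : ∀ x, 0 ≤ V x) (hVper : Function.Periodic V (2 * π)) :
    ∫ x in (0 : ℝ)..(2 * π), V (g x) ≤ m⁻¹ * ∫ x in (0 : ℝ)..(2 * π), V x := by
  have hgc : Continuous g := continuous_iff_continuousAt.2 fun x => (hg x).continuousAt
  have h1 : ∫ x in (0 : ℝ)..(2 * π), V (g x) * g' x = ∫ u in g 0..g (2 * π), V u :=
    intervalIntegral.integral_comp_mul_deriv (fun x _ => hg x) hg'.continuousOn hV
  have h2 : ∫ u in g 0..g (2 * π), V u = ∫ x in (0 : ℝ)..(2 * π), V x := by
    rw [hper, hVper.intervalIntegral_add_eq (g 0) 0, zero_add]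
  have h3 : ∫ x in (0 : ℝ)..(2 * π), V (g x) ≤ ∫ x in (0 : ℝ)..(2 * π), m⁻¹ * (V (g x) * g' x) := by
    apply intervalIntegral.integral_mono_on (by positivity)
    · exact (hV.comp hgc).intervalIntegrable _ _
    · exact (continuous_const.mul ((hV.comp hgc).mul hg')).intervalIntegrable _ _
    · intro x hx
      have h4 : V (g x) * m ≤ V (g x) * g' x := mul_le_mul_of_nonneg_left (hmg x hx) (h0 _)
      calc V (g x) = m⁻¹ * (V (g x) * m) := by field_simp
        _ ≤ m⁻¹ * (V (g x) * g' x) := mul_le_mul_of_nonneg_left h4 (by positivity)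
  rw [intervalIntegral.integral_const_mul, h1, h2] at h3
  exact h3

end Claimed.Agent.R269
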