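/-
Row 269, P1 Section 10.1: the odd periodic slice (definitions).  Owner: captain helper264.

`Slice` = a critical `Shape` together with a fixed odd `N ≥ 3`, `t₀ = 2π/N` inside the parameter disc.
All slice functions are functions of the complex phase `y` in the strip `|Im y| < h`, `h = h_X(t₀)`.
Indices are integers; the lifts satisfy `s (j+N) = s j + 2π`, `ψ (j+N) = ψ j + 2π`, and all
geometric quantities are `N`-periodic in `j`; matrices are indexed by `Fin N`.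
Values at poles are junk (division by zero); every statement is made off the exceptional set `Z`.
-/
import Claimed.Agent.R269.Shape

set_option autoImplicit false

namespace Claimed.Agent.R269

open Complex
open scoped Real ENNReal

/-- complex bilinear Euclidean product on `ℂ × ℂ`. -/
def dotC (u v : ℂ × ℂ) : ℂ := u.1 * v.1 + u.2 * v.2

/-- complexified normal `n_θ`. -/
noncomputable def nvecC (θ : ℂ) : ℂ × ℂ := (Complex.cos θ, Complex.sin θ)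

/-- complexified tangent `e_θ`. -/
noncomputable def evecC (θ : ℂ) : ℂ × ℂ := (-Complex.sin θ, Complex.cos θ)

/-- A fixed odd periodic slice of a shape with a finite wall. -/
structure Slice where
  Sh : Shape
  H_fin : Sh.H ≠ ⊤
  N : ℕ
  N_odd : Odd N
  N_ge : 3 ≤ N
  t₀_lt : 2 * π / N < Sh.ρ

namespace Slice

variable (Sl : Slice)

/-- `t₀ = 2π/N`. -/
noncomputable def t₀ : ℝ := 2 * π / Sl.N

/-- the half width `h = h_X(t₀)` of the phase strip. -/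
noncomputable def h : ℝ := (Sl.Sh.G.hX (Sl.t₀ : ℂ)).toReal

/-- the half width of the shape strip. -/
noncomputable def H : ℝ := Sl.Sh.Hr

/-- the phase strip. -/
def strip : Set ℂ := hstrip Sl.h

/-- `s_j(y) = 𝔰(y + j t₀, t₀)`. -/
noncomputable def s (j : ℤ) (y : ℂ) : ℂ := Sl.Sh.lift (y + j * (Sl.t₀ : ℂ), (Sl.t₀ : ℂ))

/-- `s_j'(y)`. -/
noncomputable def s' (j : ℤ) (y : ℂ) : ℂ := deriv (Sl.s j) y

/-- `ψ_j = φ(s_j)`. -/
noncomputable def ψ (j : ℤ) (y : ℂ) : ℂ := Sl.Sh.φ (Sl.s j y)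

/-- `f_j = f(s_j)`. -/
noncomputable def fj (j : ℤ) (y : ℂ) : ℂ := Sl.Sh.f (Sl.s j y)

/-- `X_j = Γ(s_j)`. -/
noncomputable def X (j : ℤ) (y : ℂ) : ℂ × ℂ := Sl.Sh.Γ (Sl.s j y)

/-- the edge angles: the solution of `θ_{j-1} + θ_j = 2 ψ_j`, `θ_{j+N} = θ_j + 2π`:
`θ_j = π + Σ_{m<N} (-1)^m ψ_{j-m}`. -/
noncomputable def θ (j : ℤ) (y : ℂ) : ℂ :=
  π + ∑ m ∈ Finset.range Sl.N, (-1 : ℂ) ^ m * Sl.ψ (j - m) y

/-- `d_j⁰ = θ_j - ψ_j`. -/
noncomputable def d (j : ℤ) (y : ℂ) : ℂ := Sl.θ j y - Sl.ψ j y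

/-- `sin d_j⁰`. -/
noncomputable def sd (j : ℤ) (y : ℂ) : ℂ := Complex.sin (Sl.d j y)

/-- directed chord length `ℓ_j = (X_{j+1} - X_j) · e_{θ_j}`. -/
noncomputable def ℓ (j : ℤ) (y : ℂ) : ℂ := dotC (Sl.X (j + 1) y - Sl.X j y) (evecC (Sl.θ j y))

/-- the support `H_j⁰ = X_j · n_{ψ_j}`. -/
noncomputable def Hs (j : ℤ) (y : ℂ) : ℂ := dotC (Sl.X j y) (nvecC (Sl.ψ j y))

/-- the offset `p_j = X_j · n_{θ_j}`. -/
noncomputable def pj (j : ℤ) (y : ℂ) : ℂ := dotC (Sl.X j y) (nvecC (Sl.θ j y))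

/-- the curvature term `𝒱_j = 2 f_j³ / (c sin d_j⁰)`. -/
noncomputable def V (j : ℤ) (y : ℂ) : ℂ := 2 * Sl.fj j y ^ 3 / (Sl.Sh.G.c * Sl.sd j y)

/-- `w_j = c sin d_j⁰ f_j⁻² s_j'`. -/
noncomputable def w (j : ℤ) (y : ℂ) : ℂ := Sl.Sh.G.c * Sl.sd j y * (Sl.fj j y)⁻¹ ^ 2 * Sl.s' j y

instance instNeZeroN : NeZero Sl.N := ⟨by have := Sl.N_ge; omega⟩

/-- the symmetric matrix `M₀`: `⟨M₀ z, z⟩ = Σ_j (z_j + z_{j+1})² / ℓ_j` (cyclic indices). -/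
noncomputable def M₀ (y : ℂ) : Matrix (Fin Sl.N) (Fin Sl.N) ℂ := fun i k =>
  (if i = k then (Sl.ℓ ((i : ℕ) : ℤ) y)⁻¹ + (Sl.ℓ (((i : ℕ) : ℤ) - 1) y)⁻¹ else 0)
    + (if k = i + 1 then (Sl.ℓ ((i : ℕ) : ℤ) y)⁻¹ else 0)
    + (if i = k + 1 then (Sl.ℓ ((k : ℕ) : ℤ) y)⁻¹ else 0)

/-- the Jacobi matrix `ℋ = M₀ - diag 𝒱`. -/
noncomputable def Hmat (y : ℂ) : Matrix (Fin Sl.N) (Fin Sl.N) ℂ :=
  Sl.M₀ y - Matrix.diagonal (fun i : Fin Sl.N => Sl.V ((i : ℕ) : ℤ) y)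

/-- the modified matrix `B_{I,F}`, written on all of `Fin N`: rows/columns outside `I ∪ F` are
replaced by those of the identity, so that determinant and inverse are those of the retained block.
`I` = truthful sites, `F` = flat sites (`F` disjoint from `I`). -/
noncomputable def Bmat (I F : Finset (Fin Sl.N)) (y : ℂ) : Matrix (Fin Sl.N) (Fin Sl.N) ℂ := fun i k =>
  if i ∈ I ∪ F ∧ k ∈ I ∪ F then
    Sl.M₀ y i k - (if i = k ∧ i ∈ I then Sl.V ((i : ℕ) : ℤ) y else 0)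
  else if i = k then 1 else 0

/-- shape depth `δ_j = H - |Im s_j|`. -/
noncomputable def δ (j : ℤ) (y : ℂ) : ℝ := Sl.H - |(Sl.s j y).im|

/-- logarithmic shape depth `k_j = -log δ_j`. -/
noncomputable def k (j : ℤ) (y : ℂ) : ℝ := -Real.log (Sl.δ j y)

/-- phase depth `r_y = h - |Im y|`. -/
noncomputable def ry (y : ℂ) : ℝ := Sl.h - |y.im|

/-- amplitude `a_j = log |f_j|`. -/
noncomputable def a (j : ℤ) (y : ℂ) : ℝ := Real.log ‖Sl.fj j y‖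

/-- the geometry size at one site. -/
noncomputable def geo1 (j : ℤ) (y : ℂ) : ℝ :=
  ‖Sl.ψ j y‖ + Real.log (1 + ‖Sl.X j y‖) + |Real.log ‖Sl.sd j y‖| + |Real.log ‖Sl.ℓ j y‖|

/-- `𝒢(y) = max_j (|ψ_j| + log(1+|X_j|) + |log|sin d_j⁰|| + |log|ℓ_j||)`, `0 ≤ j < N`. -/
noncomputable def geo (y : ℂ) : ℝ := ⨆ i : Fin Sl.N, Sl.geo1 ((i : ℕ) : ℤ) y

end Slice

end Claimed.Agent.R269
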