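/-
Row 269, P1 Section 10: the regular set of the slice and the bounded-observables predicate (owner: helper171).
-/
import Claimed.Agent.R269.S10.Defs

set_option autoImplicit false

namespace Claimed.Agent.R269

open Complex MeasureTheory
open scoped Real ENNReal

local notation "⟪" i "⟫" => ((Fin.val i : ℕ) : ℤ)

namespace Slice

variable (Sl : Slice)

/-- an admissible pair (truthful set, flat set): `I` proper, `F` disjoint from `I` -/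
def Adm (I F : Finset (Fin Sl.N)) : Prop := I ≠ Finset.univ ∧ Disjoint I F

/-- **The regular set** `U`: the phase strip minus the zeros of `f_j`, `sin d_j⁰`, `ℓ_j`, `det B_{I,F}`.  (The poles of `X_j`, `ℓ_j`, `B_{I,F}`
lie over zeros of the `f_j`, `ℓ_j`, `sin d_j⁰`.) -/
def reg : Set ℂ := {y | y ∈ Sl.strip ∧ (∀ i : Fin Sl.N, Sl.fj ⟪i⟫ y ≠ 0 ∧ Sl.sd ⟪i⟫ y ≠ 0 ∧ Sl.ℓ ⟪i⟫ y ≠ 0) ∧
  ∀ I F : Finset (Fin Sl.N), Sl.Adm I F → (Sl.Bmat I F y).det ≠ 0}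

/-- all sites at log depth `≤ B` and all logarithmic observables bounded by `B` -/
def Bdd (B : ℝ) (y : ℂ) : Prop :=
  (∀ i : Fin Sl.N, Sl.k ⟪i⟫ y ≤ B ∧ |Sl.a ⟪i⟫ y| ≤ B ∧ |Real.log ‖Sl.sd ⟪i⟫ y‖| ≤ B ∧ |Real.log ‖Sl.ℓ ⟪i⟫ y‖| ≤ B) ∧
  ∀ I F : Finset (Fin Sl.N), Sl.Adm I F → |Real.log ‖(Sl.Bmat I F y).det‖| ≤ B

/-- the angle budget (hypothesis of `Shape.last_site`, Stage3.lean) -/
def Budget : Prop := ∃ (ε C k₀ : ℝ), 0 < ε ∧ 1 ≤ k₀ ∧ Real.exp (-k₀) < Sl.Sh.Hr ∧ ∀ K, k₀ ≤ K →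
  ∫ k in k₀..K, Sl.Sh.μf k ^ 2 ≤ C * K ^ (2 - ε)

/-- the polynomial bounds (hypothesis of `Shape.last_site`, Stage3.lean) -/
def Poly : Prop := ∃ (C k₀ : ℝ), 1 ≤ k₀ ∧ ∀ k, k₀ ≤ k →
  Sl.Sh.μ k ≤ C * (1 + k) ∧ Real.exp (-k) * Sl.Sh.rowMax (Sl.Sh.Hr - Real.exp (-k)) ≤ C * (1 + k) ^ 2

/-- "`t₀ = 2π/N` is sufficiently small": nondegeneracy on the real collar.  OWNED BY BP-S10a (its writer may add fields; he proves
`exists_nice`). -/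
structure Nice : Prop where
  A_ne : Sl.Sh.G.A (Sl.t₀ : ℂ) ≠ 0
  real : ∀ (x : ℝ) (j : ℤ), (Sl.s j x).im = 0 ∧ 0 < (Sl.s' j x).re ∧ (Sl.s' j x).im = 0 ∧
    0 < (Sl.fj j x).re ∧ (Sl.fj j x).im = 0 ∧ 0 < (Sl.sd j x).re ∧ (Sl.sd j x).im = 0 ∧
    0 < (Sl.ℓ j x).re ∧ (Sl.ℓ j x).im = 0

/-- the standing hypotheses of Sections 10-11 -/
structure Hyp : Prop where
  nice : Sl.Nice
  crit : Sl.Sh.H ≠ ⊤ ∧ Sl.Sh.order = 1
  budget : Sl.Budget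
  poly : Sl.Poly

end Slice

end Claimed.Agent.R269
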