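/-
Row 269, P1 Section 10.1, package BP-S10a (architect: helper230).  GeoBasic: the holomorphic slice functions `s_j, ψ_j, f_j, θ_j, d_j⁰, sin d_j⁰`:
domains, holomorphy, periodicity in `j`, the angle system `θ_{j-1} + θ_j = 2 ψ_j`, elementary bounds.
No hypothesis on the slice (`Nice` is not used here).
-/
import Claimed.Agent.R269.S10.Reg
import Claimed.Agent.R269.S10.GeoTool
import Claimed.Agent.R269.S4.WidthBase
import Claimed.Agent.R269.S4.WidthBasic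

set_option autoImplicit false

namespace Claimed.Agent.R269

open Complex ComplexConjugate Metric Set Filter Topology
open scoped Real ENNReal

local notation "⟪" i "⟫" => ((Fin.val i : ℕ) : ℤ)

/-- a sequence with period `N` has all the periods `m N`. -/
theorem s10g_per_int {α : Type*} (Q : ℤ → α) (N : ℕ) (h : ∀ j, Q (j + N) = Q j) (j m : ℤ) :
    Q (j + m * N) = Q j := by
  induction m using Int.induction_on with
  | zero => simp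
  | succ k ih =>
    have : j + ((k : ℤ) + 1) * N = (j + k * N) + N := by ring
    rw [this, h, ih]
  | pred k ih =>
    have h1 := h (j + (-(k : ℤ) - 1) * N)
    have : j + (-(k : ℤ) - 1) * N + N = j + -(k : ℤ) * N := by ring
    rw [this, ih] at h1
    exact h1.symm

/-- every integer index is congruent to a site. -/
theorem s10g_exists_rep (N : ℕ) [NeZero N] (j : ℤ) : ∃ (i : Fin N) (m : ℤ), j = ⟪i⟫ + m * N := by
  have hN : (0 : ℤ) < N := by exact_mod_cast Nat.pos_of_ne_zero (NeZero.ne N)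
  have h0 : 0 ≤ j % N := Int.emod_nonneg _ hN.ne'
  have h1 : j % N < N := Int.emod_lt_of_pos _ hN
  refine ⟨⟨(j % N).toNat, by omega⟩, j / N, ?_⟩
  have h2 : (((j % N).toNat : ℕ) : ℤ) = j % N := Int.toNat_of_nonneg h0
  show j = (((j % N).toNat : ℕ) : ℤ) + j / N * N
  rw [h2]
  have := Int.emod_add_mul_ediv j N
  linarith [mul_comm (N : ℤ) (j / N)]

/-- telescoping of alternating sums. -/
theorem s10g_alt_sum (a : ℤ → ℂ) (j : ℤ) (n : ℕ) :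
    ∑ m ∈ Finset.range n, (-1 : ℂ) ^ m * a (j - m) + ∑ m ∈ Finset.range n, (-1 : ℂ) ^ m * a (j - 1 - m)
      = a j - (-1) ^ n * a (j - n) := by
  induction n with
  | zero => simp
  | succ n ih =>
    rw [Finset.sum_range_succ, Finset.sum_range_succ]
    have h1 : j - 1 - (n : ℤ) = j - ((n + 1 : ℕ) : ℤ) := by push_cast; ring
    rw [h1]
    have h2 : ∑ m ∈ Finset.range n, (-1 : ℂ) ^ m * a (j - m) + (-1) ^ n * a (j - n)
        + (∑ m ∈ Finset.range n, (-1 : ℂ) ^ m * a (j - 1 - m) + (-1) ^ n * a (j - ((n + 1 : ℕ) : ℤ)))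
        = (∑ m ∈ Finset.range n, (-1 : ℂ) ^ m * a (j - m) + ∑ m ∈ Finset.range n, (-1 : ℂ) ^ m * a (j - 1 - m))
          + (-1) ^ n * a (j - n) + (-1) ^ n * a (j - ((n + 1 : ℕ) : ℤ)) := by ring
    rw [h2, ih, pow_succ]
    ring

/-- the alternating sum of `n` ones, `n` odd. -/
theorem s10g_alt_one {n : ℕ} (hn : Odd n) : ∑ m ∈ Finset.range n, (-1 : ℂ) ^ m = 1 := by
  obtain ⟨k, rfl⟩ := hn
  induction k with
  | zero => simp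
  | succ k ih =>
    have : 2 * (k + 1) + 1 = (2 * k + 1) + 1 + 1 := by ring
    rw [this, Finset.sum_range_succ, Finset.sum_range_succ, ih, pow_succ, pow_succ, pow_mul]
    norm_num [pow_succ, pow_mul]

theorem s10g_hstrip_add_real {b : ℝ} {y : ℂ} (hy : y ∈ hstrip b) (x : ℝ) : y + x ∈ hstrip b := by
  have : (y + x).im = y.im := by simp
  show |(y + x).im| < b
  rw [this]; exact hy

theorem s10g_isPreconnected_hstrip (b : ℝ) : IsPreconnected (hstrip b) := (s4c_convex_hstrip b).isPreconnected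

theorem s10g_real_mem_hstrip {b : ℝ} (hb : 0 < b) (x : ℝ) : (x : ℂ) ∈ hstrip b := by
  show |((x : ℂ)).im| < b
  simpa using hb

theorem s10g_hstrip_mono {a b : ℝ} (h : a ≤ b) : hstrip a ⊆ hstrip b := fun _ hy => lt_of_lt_of_le hy h

namespace Slice

variable (Sl : Slice)

/-! ### the parameter and the widths -/

theorem s10g_N_pos : (0 : ℝ) < Sl.N := by
  have := Sl.N_ge
  exact_mod_cast (by omega : 0 < Sl.N)

theorem s10g_t₀_pos : 0 < Sl.t₀ := div_pos (by positivity) Sl.s10g_N_pos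

theorem s10g_t₀_mem : (Sl.t₀ : ℂ) ∈ ball (0 : ℂ) Sl.Sh.ρ := by
  rw [mem_ball_zero_iff, Complex.norm_real, Real.norm_eq_abs, abs_of_pos Sl.s10g_t₀_pos]
  exact Sl.t₀_lt

theorem s10g_t₀_mem' : (Sl.t₀ : ℂ) ∈ ball (0 : ℂ) Sl.Sh.G.r₁ :=
  ball_subset_ball Sl.Sh.ρ_le Sl.s10g_t₀_mem

theorem s10g_N_mul_t₀ : (Sl.N : ℂ) * (Sl.t₀ : ℂ) = 2 * π := by
  have h : (Sl.N : ℝ) * Sl.t₀ = 2 * π := by
    unfold Slice.t₀
    field_simp [Sl.s10g_N_pos.ne']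
  exact_mod_cast h

theorem s10g_hX_ne_top : Sl.Sh.G.hX (Sl.t₀ : ℂ) ≠ ⊤ :=
  ne_top_of_le_ne_top Sl.H_fin (Sl.Sh.hX_le _ Sl.s10g_t₀_mem)

theorem s10g_ofReal_h : ENNReal.ofReal Sl.h = Sl.Sh.G.hX (Sl.t₀ : ℂ) := ENNReal.ofReal_toReal Sl.s10g_hX_ne_top

theorem s10g_ofReal_H : ENNReal.ofReal Sl.H = Sl.Sh.G.Hs := ENNReal.ofReal_toReal Sl.H_fin

theorem s10g_le_h : 3 * Sl.Sh.G.s / 2 ≤ Sl.h := by
  have h1 := Sl.Sh.G.s4c_X0_base.le_width Sl.s10g_t₀_mem'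
  have h2 : ENNReal.ofReal (3 * Sl.Sh.G.s / 2) ≤ ENNReal.ofReal Sl.h := by rw [Sl.s10g_ofReal_h]; exact h1
  by_contra hlt
  rw [not_le] at hlt
  have hpos : 0 < 3 * Sl.Sh.G.s / 2 := by have := Sl.Sh.G.s4c_s_pos; linarith
  exact absurd ((ENNReal.ofReal_lt_ofReal_iff hpos).2 hlt) (not_lt.2 h2)

theorem s10g_h_pos : 0 < Sl.h := by have := Sl.s10g_le_h; have := Sl.Sh.G.s4c_s_pos; linarith

theorem s10g_h_le_H : Sl.h ≤ Sl.H :=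
  ENNReal.toReal_mono Sl.H_fin (Sl.Sh.hX_le _ Sl.s10g_t₀_mem)

theorem s10g_H_pos : 0 < Sl.H := Sl.s10g_h_pos.trans_le Sl.s10g_h_le_H

theorem s10g_estrip_eq : estrip Sl.Sh.G.Hs = hstrip Sl.H := by
  ext s
  show ENNReal.ofReal |s.im| < Sl.Sh.G.Hs ↔ |s.im| < Sl.H
  rw [← Sl.s10g_ofReal_H, ENNReal.ofReal_lt_ofReal_iff Sl.s10g_H_pos]

theorem s10g_isOpen_strip : IsOpen Sl.strip := s4c_isOpen_hstrip _

theorem s10g_isOpen_D : IsOpen (estrip Sl.Sh.G.Hs) := by rw [Sl.s10g_estrip_eq]; exact s4c_isOpen_hstrip _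

theorem s10g_isPreconnected_D : IsPreconnected (estrip Sl.Sh.G.Hs) := by
  rw [Sl.s10g_estrip_eq]; exact s10g_isPreconnected_hstrip _

theorem s10g_D_add_real {s : ℂ} (hs : s ∈ estrip Sl.Sh.G.Hs) (x : ℝ) : s + x ∈ estrip Sl.Sh.G.Hs := by
  rw [Sl.s10g_estrip_eq] at hs ⊢; exact s10g_hstrip_add_real hs x

/-- the base strip `|Im y| < s/4` lies in the phase strip. -/
theorem s10g_base_subset : hstrip (Sl.Sh.G.s / 4) ⊆ Sl.strip :=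
  s10g_hstrip_mono (by have := Sl.s10g_le_h; have := Sl.Sh.G.s4c_s_pos; linarith)

theorem s10g_base_mem_nhds (x : ℝ) : hstrip (Sl.Sh.G.s / 4) ∈ 𝓝 (x : ℂ) :=
  (s4c_isOpen_hstrip _).mem_nhds (s10g_real_mem_hstrip (by have := Sl.Sh.G.s4c_s_pos; linarith) x)

theorem s10g_real_mem_strip (x : ℝ) : (x : ℂ) ∈ Sl.strip := s10g_real_mem_hstrip Sl.s10g_h_pos x

theorem s10g_mem_tube {y : ℂ} (hy : y ∈ Sl.strip) : (y, (Sl.t₀ : ℂ)) ∈ Sl.Sh.G.tube Sl.Sh.ρ := by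
  have hy' : |y.im| < Sl.h := hy
  obtain ⟨h1, h2⟩ := abs_lt.1 hy'
  refine ⟨Sl.s10g_t₀_mem, ?_, ?_⟩
  · show ENNReal.ofReal y.im < Sl.Sh.G.hX (Sl.t₀ : ℂ)
    rw [← Sl.s10g_ofReal_h, ENNReal.ofReal_lt_ofReal_iff Sl.s10g_h_pos]; exact h2
  · show ENNReal.ofReal (-y.im) < Sl.Sh.G.hX (conj (Sl.t₀ : ℂ))
    rw [Complex.conj_ofReal, ← Sl.s10g_ofReal_h, ENNReal.ofReal_lt_ofReal_iff Sl.s10g_h_pos]; linarith

theorem s10g_shift_eq (j : ℤ) : (j : ℂ) * (Sl.t₀ : ℂ) = ((j * Sl.t₀ : ℝ) : ℂ) := by push_cast; ring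

theorem s10g_shift_mem (j : ℤ) {y : ℂ} (hy : y ∈ Sl.strip) : y + j * (Sl.t₀ : ℂ) ∈ Sl.strip := by
  rw [Sl.s10g_shift_eq]; exact s10g_hstrip_add_real hy _

/-! ### the one-variable lift `L = 𝔰(·, t₀)` -/

/-- the lift on the slice. -/
noncomputable def L (y : ℂ) : ℂ := Sl.Sh.lift (y, (Sl.t₀ : ℂ))

theorem s10g_s_eq (j : ℤ) (y : ℂ) : Sl.s j y = Sl.L (y + j * (Sl.t₀ : ℂ)) := rfl

theorem s10g_L_diff : DifferentiableOn ℂ Sl.L Sl.strip := by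
  have h1 : DifferentiableOn ℂ (fun y : ℂ => (y, (Sl.t₀ : ℂ))) Sl.strip :=
    (differentiable_id.prodMk (differentiable_const _)).differentiableOn
  exact Sl.Sh.lift_diff.comp h1 fun y hy => Sl.s10g_mem_tube hy

theorem s10g_L_mem {y : ℂ} (hy : y ∈ Sl.strip) : Sl.L y ∈ estrip Sl.Sh.G.Hs :=
  Sl.Sh.lift_mem _ (Sl.s10g_mem_tube hy)

theorem s10g_L_per {y : ℂ} (hy : y ∈ Sl.strip) : Sl.L (y + 2 * π) = Sl.L y + 2 * π :=
  Sl.Sh.lift_per _ (Sl.s10g_mem_tube hy)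

theorem s10g_L_conj {y : ℂ} (hy : y ∈ Sl.strip) : Sl.L (conj y) = conj (Sl.L y) := by
  have := Sl.Sh.lift_conj _ (Sl.s10g_mem_tube hy)
  simpa [L] using this

/-! ### the sites -/

theorem s10g_s_mem (j : ℤ) {y : ℂ} (hy : y ∈ Sl.strip) : Sl.s j y ∈ estrip Sl.Sh.G.Hs :=
  Sl.s10g_L_mem (Sl.s10g_shift_mem j hy)

theorem s10g_s_diff (j : ℤ) : DifferentiableOn ℂ (Sl.s j) Sl.strip := by
  have h1 : DifferentiableOn ℂ (fun y : ℂ => y + j * (Sl.t₀ : ℂ)) Sl.strip :=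
    (differentiable_id.add_const _).differentiableOn
  exact Sl.s10g_L_diff.comp h1 fun y hy => Sl.s10g_shift_mem j hy

theorem s10g_s_diffAt (j : ℤ) {y : ℂ} (hy : y ∈ Sl.strip) : DifferentiableAt ℂ (Sl.s j) y :=
  (Sl.s10g_s_diff j).differentiableAt (Sl.s10g_isOpen_strip.mem_nhds hy)

theorem s10g_s_hasDerivAt (j : ℤ) {y : ℂ} (hy : y ∈ Sl.strip) : HasDerivAt (Sl.s j) (Sl.s' j y) y :=
  (Sl.s10g_s_diffAt j hy).hasDerivAt

theorem s10g_s'_eq (j : ℤ) (y : ℂ) : Sl.s' j y = deriv Sl.L (y + j * (Sl.t₀ : ℂ)) := by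
  show deriv (fun y => Sl.L (y + j * (Sl.t₀ : ℂ))) y = _
  exact deriv_comp_add_const Sl.L _ y

theorem s10g_s_add_N (j : ℤ) {y : ℂ} (hy : y ∈ Sl.strip) : Sl.s (j + Sl.N) y = Sl.s j y + 2 * π := by
  rw [s10g_s_eq, s10g_s_eq, ← Sl.s10g_L_per (Sl.s10g_shift_mem j hy)]
  congr 1
  push_cast
  rw [add_mul, Sl.s10g_N_mul_t₀]
  ring

theorem s10g_s'_add_N (j : ℤ) {y : ℂ} (hy : y ∈ Sl.strip) : Sl.s' (j + Sl.N) y = Sl.s' j y := by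
  have h : Sl.s (j + Sl.N) =ᶠ[𝓝 y] fun z => Sl.s j z + 2 * π := by
    filter_upwards [Sl.s10g_isOpen_strip.mem_nhds hy] with z hz
    exact Sl.s10g_s_add_N j hz
  show deriv (Sl.s (j + Sl.N)) y = deriv (Sl.s j) y
  rw [h.deriv_eq, deriv_add_const]

theorem s10g_δ_pos (j : ℤ) {y : ℂ} (hy : y ∈ Sl.strip) : 0 < Sl.δ j y := by
  have h := Sl.s10g_s_mem j hy
  rw [Sl.s10g_estrip_eq] at h
  have h' : |(Sl.s j y).im| < Sl.H := h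
  unfold Slice.δ
  linarith

/-! ### the shape fields -/

theorem s10g_φ_diffAt {s : ℂ} (hs : s ∈ estrip Sl.Sh.G.Hs) : DifferentiableAt ℂ Sl.Sh.φ s :=
  Sl.Sh.φ_diff.differentiableAt (Sl.s10g_isOpen_D.mem_nhds hs)

theorem s10g_φ_hasDerivAt {s : ℂ} (hs : s ∈ estrip Sl.Sh.G.Hs) : HasDerivAt Sl.Sh.φ (Sl.Sh.f s) s :=
  (Sl.s10g_φ_diffAt hs).hasDerivAt

theorem s10g_f_diff : DifferentiableOn ℂ Sl.Sh.f (estrip Sl.Sh.G.Hs) :=
  Sl.Sh.φ_diff.deriv Sl.s10g_isOpen_D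

theorem s10g_f_per {s : ℂ} (hs : s ∈ estrip Sl.Sh.G.Hs) : Sl.Sh.f (s + 2 * π) = Sl.Sh.f s := by
  have h : (fun z => Sl.Sh.φ (z + 2 * π)) =ᶠ[𝓝 s] fun z => Sl.Sh.φ z + 2 * π := by
    filter_upwards [Sl.s10g_isOpen_D.mem_nhds hs] with z hz
    exact Sl.Sh.φ_per z hz
  have h1 := h.deriv_eq
  rw [deriv_comp_add_const, deriv_add_const] at h1
  exact h1

theorem s10g_ψ_diff (j : ℤ) : DifferentiableOn ℂ (Sl.ψ j) Sl.strip :=
  Sl.Sh.φ_diff.comp (Sl.s10g_s_diff j) fun _ hy => Sl.s10g_s_mem j hy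

theorem s10g_ψ_hasDerivAt (j : ℤ) {y : ℂ} (hy : y ∈ Sl.strip) :
    HasDerivAt (Sl.ψ j) (Sl.fj j y * Sl.s' j y) y :=
  (Sl.s10g_φ_hasDerivAt (Sl.s10g_s_mem j hy)).comp y (Sl.s10g_s_hasDerivAt j hy)

theorem s10g_fj_diff (j : ℤ) : DifferentiableOn ℂ (Sl.fj j) Sl.strip :=
  Sl.s10g_f_diff.comp (Sl.s10g_s_diff j) fun _ hy => Sl.s10g_s_mem j hy

theorem s10g_ψ_add_N (j : ℤ) {y : ℂ} (hy : y ∈ Sl.strip) : Sl.ψ (j + Sl.N) y = Sl.ψ j y + 2 * π := by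
  show Sl.Sh.φ (Sl.s (j + Sl.N) y) = Sl.Sh.φ (Sl.s j y) + 2 * π
  rw [Sl.s10g_s_add_N j hy, Sl.Sh.φ_per _ (Sl.s10g_s_mem j hy)]

theorem s10g_fj_add_N (j : ℤ) {y : ℂ} (hy : y ∈ Sl.strip) : Sl.fj (j + Sl.N) y = Sl.fj j y := by
  show Sl.Sh.f (Sl.s (j + Sl.N) y) = Sl.Sh.f (Sl.s j y)
  rw [Sl.s10g_s_add_N j hy, Sl.s10g_f_per (Sl.s10g_s_mem j hy)]

/-! ### the edge angles -/

theorem s10g_θ_diff (j : ℤ) : DifferentiableOn ℂ (Sl.θ j) Sl.strip := by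
  unfold Slice.θ
  exact (differentiableOn_const _).add
    (DifferentiableOn.fun_sum fun m _ => (Sl.s10g_ψ_diff (j - m)).const_mul _)

theorem s10g_d_diff (j : ℤ) : DifferentiableOn ℂ (Sl.d j) Sl.strip := (Sl.s10g_θ_diff j).sub (Sl.s10g_ψ_diff j)

theorem s10g_sd_diff (j : ℤ) : DifferentiableOn ℂ (Sl.sd j) Sl.strip := (Sl.s10g_d_diff j).csin

/-- the angle system (10.4). -/
theorem s10g_angle (j : ℤ) {y : ℂ} (hy : y ∈ Sl.strip) : Sl.θ (j - 1) y + Sl.θ j y = 2 * Sl.ψ j y := by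
  have h1 := s10g_alt_sum (fun i => Sl.ψ i y) j Sl.N
  have h2 : Sl.ψ (j - Sl.N) y = Sl.ψ j y - 2 * π := by
    have := Sl.s10g_ψ_add_N (j - Sl.N) hy
    rw [sub_add_cancel] at this
    rw [this]; ring
  simp only [Sl.N_odd.neg_one_pow, h2] at h1
  unfold Slice.θ
  linear_combination h1

theorem s10g_θ_add_N (j : ℤ) {y : ℂ} (hy : y ∈ Sl.strip) : Sl.θ (j + Sl.N) y = Sl.θ j y + 2 * π := by
  unfold Slice.θ
  have h1 : ∀ m : ℕ, Sl.ψ (j + Sl.N - m) y = Sl.ψ (j - m) y + 2 * π := by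
    intro m
    have : j + (Sl.N : ℤ) - m = (j - m) + Sl.N := by ring
    rw [this, Sl.s10g_ψ_add_N _ hy]
  simp only [h1, mul_add, Finset.sum_add_distrib, ← Finset.sum_mul, s10g_alt_one Sl.N_odd]
  ring

theorem s10g_d_add_N (j : ℤ) {y : ℂ} (hy : y ∈ Sl.strip) : Sl.d (j + Sl.N) y = Sl.d j y := by
  unfold Slice.d
  rw [Sl.s10g_θ_add_N j hy, Sl.s10g_ψ_add_N j hy]; ring

theorem s10g_sd_add_N (j : ℤ) {y : ℂ} (hy : y ∈ Sl.strip) : Sl.sd (j + Sl.N) y = Sl.sd j y := by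
  unfold Slice.sd
  rw [Sl.s10g_d_add_N j hy]

/-- `θ_j = ψ_j + d_j⁰`. -/
theorem s10g_θ_eq (j : ℤ) (y : ℂ) : Sl.θ j y = Sl.ψ j y + Sl.d j y := by unfold Slice.d; ring

/-- `θ_{j-1} = ψ_j - d_j⁰`. -/
theorem s10g_θ_pred (j : ℤ) {y : ℂ} (hy : y ∈ Sl.strip) : Sl.θ (j - 1) y = Sl.ψ j y - Sl.d j y := by
  have := Sl.s10g_angle j hy
  unfold Slice.d
  linear_combination this

/-- `θ_j = ψ_{j+1} - d_{j+1}⁰`. -/
theorem s10g_θ_succ (j : ℤ) {y : ℂ} (hy : y ∈ Sl.strip) : Sl.θ j y = Sl.ψ (j + 1) y - Sl.d (j + 1) y := by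
  have := Sl.s10g_θ_pred (j + 1) hy
  rwa [add_sub_cancel_right] at this

/-- differentiated angle system. -/
theorem s10g_deriv_angle (j : ℤ) {y : ℂ} (hy : y ∈ Sl.strip) :
    deriv (Sl.θ (j - 1)) y + deriv (Sl.θ j) y = 2 * (Sl.fj j y * Sl.s' j y) := by
  have hn := Sl.s10g_isOpen_strip.mem_nhds hy
  have h1 : (fun z => Sl.θ (j - 1) z + Sl.θ j z) =ᶠ[𝓝 y] fun z => 2 * Sl.ψ j z := by
    filter_upwards [hn] with z hz
    exact Sl.s10g_angle j hz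
  have h2 := h1.deriv_eq
  rw [deriv_fun_add ((Sl.s10g_θ_diff _).differentiableAt hn) ((Sl.s10g_θ_diff _).differentiableAt hn),
    deriv_const_mul _ ((Sl.s10g_ψ_diff _).differentiableAt hn), (Sl.s10g_ψ_hasDerivAt j hy).deriv] at h2
  exact h2

/-! ### reduction of integer indices to sites -/

theorem s10g_rep_sub (i : Fin Sl.N) {m : ℕ} (hm : m < Sl.N) :
    ∃ i' : Fin Sl.N, ⟪i⟫ - (m : ℤ) = ⟪i'⟫ ∨ ⟪i⟫ - (m : ℤ) = ⟪i'⟫ - Sl.N := by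
  by_cases h : m ≤ (i : ℕ)
  · exact ⟨⟨(i : ℕ) - m, by omega⟩, Or.inl (by show ((i : ℕ) : ℤ) - m = (((i : ℕ) - m : ℕ) : ℤ); omega)⟩
  · have hi := i.2
    exact ⟨⟨(i : ℕ) + Sl.N - m, by omega⟩,
      Or.inr (by show ((i : ℕ) : ℤ) - m = (((i : ℕ) + Sl.N - m : ℕ) : ℤ) - Sl.N; omega)⟩

theorem s10g_ψ_sub_N (j : ℤ) {y : ℂ} (hy : y ∈ Sl.strip) : Sl.ψ (j - Sl.N) y = Sl.ψ j y - 2 * π := by
  have := Sl.s10g_ψ_add_N (j - Sl.N) hy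
  rw [sub_add_cancel] at this
  rw [this]; ring

/-- the `ψ`'s entering `θ_i` are site values up to a real shift `0` or `-2π`. -/
theorem s10g_ψ_rep (i : Fin Sl.N) {m : ℕ} (hm : m < Sl.N) :
    ∃ (i' : Fin Sl.N) (a : ℝ), |a| ≤ 2 * π ∧ ∀ y ∈ Sl.strip, Sl.ψ (⟪i⟫ - (m : ℤ)) y = Sl.ψ ⟪i'⟫ y + a := by
  obtain ⟨i', h | h⟩ := Sl.s10g_rep_sub i hm
  · exact ⟨i', 0, by simp; positivity, fun y _ => by rw [h]; simp⟩
  · refine ⟨i', -(2 * π), by rw [abs_neg, abs_of_pos (by positivity)], fun y hy => ?_⟩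
    rw [h, Sl.s10g_ψ_sub_N _ hy]; push_cast; ring

/-! ### elementary bounds for the edge angles -/

theorem s10g_norm_neg_one_pow_mul (m : ℕ) (z : ℂ) : ‖(-1 : ℂ) ^ m * z‖ = ‖z‖ := by
  rw [norm_mul, norm_pow, norm_neg, norm_one, one_pow, one_mul]

theorem s10g_im_neg_one_pow_mul (m : ℕ) (z : ℂ) : |((-1 : ℂ) ^ m * z).im| = |z.im| := by
  rcases neg_one_pow_eq_or ℂ m with h | h <;> rw [h] <;> simp

theorem s10g_θ_le : ∃ C : ℝ, 0 < C ∧ ∀ y ∈ Sl.strip, ∀ B : ℝ, (∀ i : Fin Sl.N, ‖Sl.ψ ⟪i⟫ y‖ ≤ B) →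
    ∀ i : Fin Sl.N, ‖Sl.θ ⟪i⟫ y‖ ≤ C * (1 + B) ∧ ‖Sl.d ⟪i⟫ y‖ ≤ C * (1 + B) := by
  have hN := Sl.s10g_N_pos
  have hπ := Real.pi_pos
  refine ⟨π + Sl.N * (1 + 2 * π) + 1, by positivity, fun y hy B hB i => ?_⟩
  have hB0 : 0 ≤ B := (norm_nonneg _).trans (hB i)
  have h1 : ‖Sl.θ ⟪i⟫ y‖ ≤ π + Sl.N * (B + 2 * π) := by
    unfold Slice.θ
    refine (norm_add_le _ _).trans (add_le_add ?_ ?_)
    · rw [Complex.norm_real, Real.norm_eq_abs, abs_of_pos hπ]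
    · refine (norm_sum_le _ _).trans ?_
      have : ∀ m ∈ Finset.range Sl.N, ‖(-1 : ℂ) ^ m * Sl.ψ (⟪i⟫ - (m : ℤ)) y‖ ≤ B + 2 * π := by
        intro m hm
        obtain ⟨i', a, ha, h⟩ := Sl.s10g_ψ_rep i (Finset.mem_range.1 hm)
        rw [s10g_norm_neg_one_pow_mul, h y hy]
        refine (norm_add_le _ _).trans (add_le_add (hB i') ?_)
        rwa [Complex.norm_real, Real.norm_eq_abs]
      refine (Finset.sum_le_sum this).trans ?_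
      rw [Finset.sum_const, Finset.card_range, nsmul_eq_mul]
  have h2 : ‖Sl.d ⟪i⟫ y‖ ≤ π + Sl.N * (B + 2 * π) + B := by
    unfold Slice.d
    exact (norm_sub_le _ _).trans (add_le_add h1 (hB i))
  constructor
  · refine h1.trans ?_
    nlinarith [mul_nonneg hN.le hB0, mul_nonneg hπ.le hB0, mul_nonneg (mul_nonneg hN.le hπ.le) hB0]
  · refine h2.trans ?_
    nlinarith [mul_nonneg hN.le hB0, mul_nonneg hπ.le hB0, mul_nonneg (mul_nonneg hN.le hπ.le) hB0]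

theorem s10g_im_d_le {y : ℂ} (hy : y ∈ Sl.strip) (B : ℝ) (h : ∀ i : Fin Sl.N, |(Sl.ψ ⟪i⟫ y).im| ≤ B) (i : Fin Sl.N) :
    |(Sl.θ ⟪i⟫ y).im| ≤ Sl.N * B ∧ |(Sl.d ⟪i⟫ y).im| ≤ (Sl.N + 1) * B := by
  have h1 : |(Sl.θ ⟪i⟫ y).im| ≤ Sl.N * B := by
    unfold Slice.θ
    rw [Complex.add_im, Complex.ofReal_im, zero_add, Complex.im_sum]
    refine (Finset.abs_sum_le_sum_abs _ _).trans ?_
    have : ∀ m ∈ Finset.range Sl.N, |((-1 : ℂ) ^ m * Sl.ψ (⟪i⟫ - (m : ℤ)) y).im| ≤ B := by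
      intro m hm
      obtain ⟨i', a, _, h'⟩ := Sl.s10g_ψ_rep i (Finset.mem_range.1 hm)
      rw [s10g_im_neg_one_pow_mul, h' y hy, Complex.add_im, Complex.ofReal_im, add_zero]
      exact h i'
    refine (Finset.sum_le_sum this).trans ?_
    simp
  refine ⟨h1, ?_⟩
  unfold Slice.d
  rw [Complex.sub_im]
  refine (abs_sub _ _).trans ?_
  have := h i
  linarith

theorem s10g_d_sub_le {y y' : ℂ} (hy : y ∈ Sl.strip) (hy' : y' ∈ Sl.strip) (ε : ℝ)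
    (h : ∀ i : Fin Sl.N, ‖Sl.ψ ⟪i⟫ y - Sl.ψ ⟪i⟫ y'‖ ≤ ε) (i : Fin Sl.N) :
    ‖Sl.d ⟪i⟫ y - Sl.d ⟪i⟫ y'‖ ≤ (Sl.N + 1) * ε ∧ ‖Sl.θ ⟪i⟫ y - Sl.θ ⟪i⟫ y'‖ ≤ Sl.N * ε := by
  have h1 : ‖Sl.θ ⟪i⟫ y - Sl.θ ⟪i⟫ y'‖ ≤ Sl.N * ε := by
    unfold Slice.θ
    rw [add_sub_add_left_eq_sub, ← Finset.sum_sub_distrib]
    refine (norm_sum_le _ _).trans ?_
    have : ∀ m ∈ Finset.range Sl.N,
        ‖(-1 : ℂ) ^ m * Sl.ψ (⟪i⟫ - (m : ℤ)) y - (-1 : ℂ) ^ m * Sl.ψ (⟪i⟫ - (m : ℤ)) y'‖ ≤ ε := by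
      intro m hm
      obtain ⟨i', a, _, h'⟩ := Sl.s10g_ψ_rep i (Finset.mem_range.1 hm)
      rw [← mul_sub, s10g_norm_neg_one_pow_mul, h' y hy, h' y' hy', add_sub_add_right_eq_sub]
      exact h i'
    refine (Finset.sum_le_sum this).trans ?_
    simp
  refine ⟨?_, h1⟩
  unfold Slice.d
  have h2 : Sl.θ ⟪i⟫ y - Sl.ψ ⟪i⟫ y - (Sl.θ ⟪i⟫ y' - Sl.ψ ⟪i⟫ y')
      = (Sl.θ ⟪i⟫ y - Sl.θ ⟪i⟫ y') - (Sl.ψ ⟪i⟫ y - Sl.ψ ⟪i⟫ y') := by ring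
  rw [h2]
  refine (norm_sub_le _ _).trans ?_
  have := h i
  linarith

/-- Schwarz-Pick: `r_y |s_j'| ≤ 2 δ_j`. -/
theorem s10g_schwarz_pick (j : ℤ) {y : ℂ} (hy : y ∈ Sl.strip) : Sl.ry y * ‖Sl.s' j y‖ ≤ 2 * Sl.δ j y := by
  have hy' : |y.im| < Sl.h := hy
  have hr : 0 < Sl.ry y := by unfold Slice.ry; linarith
  have hsub : ball y (Sl.ry y) ⊆ Sl.strip := by
    intro z hz
    have h1 : |(z - y).im| ≤ ‖z - y‖ := Complex.abs_im_le_norm _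
    have h2 : ‖z - y‖ < Sl.ry y := by rwa [mem_ball_iff_norm] at hz
    have h3 : |z.im| ≤ |(z - y).im| + |y.im| := by
      have : z.im = (z - y).im + y.im := by simp
      rw [this]; exact abs_add_le _ _
    show |z.im| < Sl.h
    unfold Slice.ry at h2
    linarith
  exact s10g_strip_deriv hr ((Sl.s10g_s_diff j).mono hsub) fun z hz => by
    have := Sl.s10g_s_mem j (hsub hz)
    rw [Sl.s10g_estrip_eq] at this
    exact this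

end Slice

end Claimed.Agent.R269
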