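/-
Row 269, P1 Section 10.1, package BP-S10a (architect: helper230).  GeoCurve: the meromorphic slice functions `X_j, ℓ_j, H_j⁰, p_j` and the chord
defect `E_j = (X_{j+1} - X_j) · n_{θ_j}`:  regular sets `reg0 ⊇ reg1 ⊇ reg`, periodicity of `Γ`, derivatives, periodicity in `j`, meromorphy.
No hypothesis on the slice.
-/
import Claimed.Agent.R269.S10.GeoBasic

set_option autoImplicit false

namespace Claimed.Agent.R269

open Complex ComplexConjugate Metric Set Filter Topology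
open scoped Real ENNReal

local notation "⟪" i "⟫" => ((Fin.val i : ℕ) : ℤ)

/-! ### periodic sequences and cyclic indices -/

theorem s10g_per_mod {α : Type*} (Q : ℤ → α) (N : ℕ) (h : ∀ j, Q (j + N) = Q j) (a : ℕ) :
    Q ((a % N : ℕ) : ℤ) = Q (a : ℤ) := by
  have h1 : (a : ℤ) = ((a % N : ℕ) : ℤ) + ((a / N : ℕ) : ℤ) * N := by
    have := Nat.mod_add_div a N
    have h2 : ((a % N + N * (a / N) : ℕ) : ℤ) = (a : ℤ) := by rw [this]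
    push_cast at h2 ⊢
    linarith
  rw [h1, s10g_per_int Q N h]

theorem s10g_per_succ {α : Type*} (Q : ℤ → α) (N : ℕ) [NeZero N] (h2 : 2 ≤ N) (h : ∀ j, Q (j + N) = Q j)
    (i : Fin N) : Q ⟪i + 1⟫ = Q (⟪i⟫ + 1) := by
  have h1 : ((i + 1 : Fin N) : ℕ) = ((i : ℕ) + 1) % N := by
    rw [Fin.val_add]
    congr 2
    rw [Fin.val_one', Nat.mod_eq_of_lt h2]
  rw [h1, s10g_per_mod Q N h]
  push_cast
  rfl

theorem s10g_per_pred {α : Type*} (Q : ℤ → α) (N : ℕ) [NeZero N] (h2 : 2 ≤ N) (h : ∀ j, Q (j + N) = Q j)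
    (i : Fin N) : Q ⟪i - 1⟫ = Q (⟪i⟫ - 1) := by
  have h1 : ((i - 1 : Fin N) : ℕ) = (N - 1 + (i : ℕ)) % N := by
    rw [Fin.val_sub]
    congr 3
    rw [Fin.val_one', Nat.mod_eq_of_lt h2]
  rw [h1, s10g_per_mod Q N h, ← h (⟪i⟫ - 1)]
  congr 1
  have : 1 ≤ N := by omega
  push_cast [Nat.cast_sub this]
  ring

/-- a property of the sites which is `N`-periodic holds for all integer indices. -/
theorem s10g_forall_int {N : ℕ} [NeZero N] {P : ℤ → Prop} (h : ∀ j, P (j + N) ↔ P j) (h0 : ∀ i : Fin N, P ⟪i⟫)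
    (j : ℤ) : P j := by
  obtain ⟨i, m, rfl⟩ := s10g_exists_rep N j
  have := s10g_per_int P N (fun j => propext (h j)) ⟪i⟫ m
  rw [this]; exact h0 i

/-! ### trigonometry of `n_θ`, `e_θ` -/

theorem s10g_dot_e_n (a b : ℂ) : dotC (evecC a) (nvecC b) = Complex.sin (b - a) := by
  simp only [dotC, evecC, nvecC, Complex.sin_sub]; ring

theorem s10g_dot_n_e (a b : ℂ) : dotC (nvecC a) (evecC b) = Complex.sin (a - b) := by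
  simp only [dotC, evecC, nvecC, Complex.sin_sub]; ring

theorem s10g_dot_n_n (a b : ℂ) : dotC (nvecC a) (nvecC b) = Complex.cos (a - b) := by
  simp only [dotC, nvecC, Complex.cos_sub]

theorem s10g_dot_e_e (a b : ℂ) : dotC (evecC a) (evecC b) = Complex.cos (a - b) := by
  simp only [dotC, evecC, Complex.cos_sub]; ring

theorem s10g_nvec_add (a : ℂ) : nvecC (a + 2 * π) = nvecC a := by
  simp only [nvecC, Complex.cos_add_two_pi, Complex.sin_add_two_pi]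

theorem s10g_evec_add (a : ℂ) : evecC (a + 2 * π) = evecC a := by
  simp only [evecC, Complex.cos_add_two_pi, Complex.sin_add_two_pi]

theorem s10g_dot_sub (u v n : ℂ × ℂ) : dotC (u - v) n = dotC u n - dotC v n := by
  simp only [dotC, Prod.fst_sub, Prod.snd_sub]; ring

theorem s10g_dot_smul (a : ℂ) (u n : ℂ × ℂ) : dotC (a • u) n = a * dotC u n := by
  simp only [dotC, Prod.smul_fst, Prod.smul_snd, smul_eq_mul]; ring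

/-- decomposition of a vector in the frame `n_ψ, e_ψ`. -/
theorem s10g_frame (u : ℂ × ℂ) (ψ : ℂ) : u = dotC u (nvecC ψ) • nvecC ψ + dotC u (evecC ψ) • evecC ψ := by
  have h := Complex.sin_sq_add_cos_sq ψ
  apply Prod.ext
  · simp only [dotC, nvecC, evecC, Prod.fst_add, Prod.smul_fst, smul_eq_mul]
    linear_combination (-u.1) * h
  · simp only [dotC, nvecC, evecC, Prod.snd_add, Prod.smul_snd, smul_eq_mul]
    linear_combination (-u.2) * h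

/-- derivative of `U · n_θ`. -/
theorem s10g_hasDerivAt_dot_n {U₁ U₂ θ : ℂ → ℂ} {u₁ u₂ θ' y : ℂ} (h₁ : HasDerivAt U₁ u₁ y) (h₂ : HasDerivAt U₂ u₂ y)
    (hθ : HasDerivAt θ θ' y) :
    HasDerivAt (fun z => dotC (U₁ z, U₂ z) (nvecC (θ z)))
      (dotC (u₁, u₂) (nvecC (θ y)) + dotC (U₁ y, U₂ y) (evecC (θ y)) * θ') y := by
  have h := (h₁.mul hθ.ccos).add (h₂.mul hθ.csin)
  refine h.congr_deriv ?_
  simp only [dotC, nvecC, evecC]; ring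

/-- derivative of `U · e_θ`. -/
theorem s10g_hasDerivAt_dot_e {U₁ U₂ θ : ℂ → ℂ} {u₁ u₂ θ' y : ℂ} (h₁ : HasDerivAt U₁ u₁ y) (h₂ : HasDerivAt U₂ u₂ y)
    (hθ : HasDerivAt θ θ' y) :
    HasDerivAt (fun z => dotC (U₁ z, U₂ z) (evecC (θ z)))
      (dotC (u₁, u₂) (evecC (θ y)) - dotC (U₁ y, U₂ y) (nvecC (θ y)) * θ') y := by
  have h := (h₁.mul hθ.csin.neg).add (h₂.mul hθ.ccos)
  refine h.congr_deriv ?_
  simp only [dotC, nvecC, evecC, Pi.neg_apply]; ring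

namespace Slice

variable (Sl : Slice)

/-! ### the regular sets -/

/-- the phase strip minus the zeros of the `f_j`. -/
def reg0 : Set ℂ := {y | y ∈ Sl.strip ∧ ∀ i : Fin Sl.N, Sl.fj ⟪i⟫ y ≠ 0}

/-- the phase strip minus the zeros of `f_j`, `sin d_j⁰`, `ℓ_j`. -/
def reg1 : Set ℂ := {y | y ∈ Sl.strip ∧ ∀ i : Fin Sl.N, Sl.fj ⟪i⟫ y ≠ 0 ∧ Sl.sd ⟪i⟫ y ≠ 0 ∧ Sl.ℓ ⟪i⟫ y ≠ 0}

/-- the chord defect `E_j = (X_{j+1} - X_j) · n_{θ_j}` (it vanishes identically: GeoChord). -/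
noncomputable def E (j : ℤ) (y : ℂ) : ℂ := dotC (Sl.X (j + 1) y - Sl.X j y) (nvecC (Sl.θ j y))

theorem s10g_reg_subset_reg1 : Sl.reg ⊆ Sl.reg1 := fun _ hy => ⟨hy.1, hy.2.1⟩

theorem s10g_reg1_subset_reg0 : Sl.reg1 ⊆ Sl.reg0 := fun _ hy => ⟨hy.1, fun i => (hy.2 i).1⟩

theorem s10g_reg0_subset : Sl.reg0 ⊆ Sl.strip := fun _ hy => hy.1

theorem s10g_two_le_N : 2 ≤ Sl.N := by have := Sl.N_ge; omega

theorem s10g_fj_ne {y : ℂ} (hy : y ∈ Sl.reg0) (j : ℤ) : Sl.fj j y ≠ 0 :=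
  s10g_forall_int (P := fun j => Sl.fj j y ≠ 0) (fun j => by rw [Sl.s10g_fj_add_N j hy.1]) hy.2 j

theorem s10g_isOpen_reg0 : IsOpen Sl.reg0 := by
  have h : Sl.reg0 = ⋂ i : Fin Sl.N, (Sl.strip ∩ Sl.fj ⟪i⟫ ⁻¹' {0}ᶜ) := by
    ext y
    simp only [reg0, mem_ofPred_eq, mem_iInter, mem_inter_iff, mem_preimage, mem_compl_iff, mem_singleton_iff]
    constructor
    · exact fun h i => ⟨h.1, h.2 i⟩
    · exact fun h => ⟨(h ⟨0, Nat.pos_of_ne_zero (NeZero.ne _)⟩).1, fun i => (h i).2⟩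
  rw [h]
  exact isOpen_iInter_of_finite fun i =>
    (Sl.s10g_fj_diff ⟪i⟫).continuousOn.isOpen_inter_preimage Sl.s10g_isOpen_strip isOpen_compl_singleton

/-! ### the curve `Γ` -/

theorem s10g_Γ_hasDerivAt₁ {s : ℂ} (hs : s ∈ estrip Sl.Sh.G.Hs) (hf : Sl.Sh.f s ≠ 0) :
    HasDerivAt (fun z => (Sl.Sh.Γ z).1) (Sl.Sh.G.c * (evecC (Sl.Sh.φ s)).1 * (Sl.Sh.f s)⁻¹ ^ 2) s := by
  have h := (ContinuousLinearMap.fst ℂ ℂ ℂ).hasFDerivAt.comp_hasDerivAt s (Sl.Sh.Γ_deriv s hs hf)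
  refine h.congr_deriv ?_
  simp only [evecC, ContinuousLinearMap.coe_fst', Prod.smul_fst, smul_eq_mul, Shape.f]
  field_simp

theorem s10g_Γ_hasDerivAt₂ {s : ℂ} (hs : s ∈ estrip Sl.Sh.G.Hs) (hf : Sl.Sh.f s ≠ 0) :
    HasDerivAt (fun z => (Sl.Sh.Γ z).2) (Sl.Sh.G.c * (evecC (Sl.Sh.φ s)).2 * (Sl.Sh.f s)⁻¹ ^ 2) s := by
  have h := (ContinuousLinearMap.snd ℂ ℂ ℂ).hasFDerivAt.comp_hasDerivAt s (Sl.Sh.Γ_deriv s hs hf)
  refine h.congr_deriv ?_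
  simp only [evecC, ContinuousLinearMap.coe_snd', Prod.smul_snd, smul_eq_mul, Shape.f]
  field_simp

/-- `Γ` is `2π`-periodic near the real axis. -/
theorem s10g_Γ_per_base {s : ℂ} (hs : s ∈ hstrip (Sl.Sh.G.s / 2)) : Sl.Sh.Γ (s + 2 * π) = Sl.Sh.Γ s := by
  have hs' : s + 2 * π ∈ hstrip (Sl.Sh.G.s / 2) := by
    have := s10g_hstrip_add_real hs (2 * π)
    push_cast at this
    exact this
  rw [Sl.Sh.Γ_base _ hs', Sl.Sh.Γ_base _ hs]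
  have hini : ((s, 0) : ℂ × ℂ) ∈ Sl.Sh.G.ini :=
    ⟨s10g_hstrip_mono (by have := Sl.Sh.G.s4c_s_pos; linarith) hs, mem_ball_self Sl.Sh.G.r₁_pos⟩
  show Sl.Sh.G.X0 (s + 2 * π, 0) = Sl.Sh.G.X0 (s, 0)
  exact Sl.Sh.G.s4c_X0_base.per (s, 0) hini

/-- `Γ` is `2π`-periodic off the zeros of `f`. -/
theorem s10g_Γ_per {s : ℂ} (hs : s ∈ estrip Sl.Sh.G.Hs) (hf : Sl.Sh.f s ≠ 0) : Sl.Sh.Γ (s + 2 * π) = Sl.Sh.Γ s := by
  have hs' : s + 2 * π ∈ estrip Sl.Sh.G.Hs := by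
    have := Sl.s10g_D_add_real hs (2 * π)
    push_cast at this
    exact this
  have hf' : Sl.Sh.f (s + 2 * π) ≠ 0 := by rwa [Sl.s10g_f_per hs]
  have hshift : ∀ z : ℂ, AnalyticAt ℂ (fun w : ℂ => w + 2 * π) z := fun z => by fun_prop
  have hmem : ∀ z ∈ estrip Sl.Sh.G.Hs, z + 2 * π ∈ estrip Sl.Sh.G.Hs := by
    intro z hz
    have := Sl.s10g_D_add_real hz (2 * π)
    push_cast at this
    exact this
  have h0 : (0 : ℂ) ∈ estrip Sl.Sh.G.Hs := by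
    rw [Sl.s10g_estrip_eq]
    exact_mod_cast s10g_real_mem_hstrip Sl.s10g_H_pos 0
  have hnear : ∀ᶠ z in 𝓝 (0 : ℂ), Sl.Sh.Γ (z + 2 * π) = Sl.Sh.Γ z := by
    have : hstrip (Sl.Sh.G.s / 2) ∈ 𝓝 (0 : ℂ) := by
      refine (s4c_isOpen_hstrip _).mem_nhds ?_
      exact_mod_cast s10g_real_mem_hstrip (by have := Sl.Sh.G.s4c_s_pos; linarith) 0
    filter_upwards [this] with z hz
    exact Sl.s10g_Γ_per_base hz
  have hsh : HasDerivAt (fun w : ℂ => w + 2 * π) 1 s := (hasDerivAt_id s).add_const _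
  apply Prod.ext
  · have hm : MeromorphicOn (fun z => (Sl.Sh.Γ (z + 2 * π)).1 - (Sl.Sh.Γ z).1) (estrip Sl.Sh.G.Hs) := fun z hz =>
      ((Sl.Sh.Γ_mero.1 _ (hmem z hz)).comp_analyticAt (g := fun w : ℂ => w + 2 * π) (hshift z)).sub (Sl.Sh.Γ_mero.1 z hz)
    have hc : ContinuousAt (fun z => (Sl.Sh.Γ (z + 2 * π)).1 - (Sl.Sh.Γ z).1) s :=
      (ContinuousAt.comp (f := fun w : ℂ => w + 2 * π) (g := fun z => (Sl.Sh.Γ z).1)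
        (Sl.s10g_Γ_hasDerivAt₁ hs' hf').continuousAt hsh.continuousAt).sub (Sl.s10g_Γ_hasDerivAt₁ hs hf).continuousAt
    exact sub_eq_zero.1 (s10g_mero_zero Sl.s10g_isOpen_D Sl.s10g_isPreconnected_D hm h0
      (hnear.mono fun z hz => by simp only [hz, sub_self]) hs hc)
  · have hm : MeromorphicOn (fun z => (Sl.Sh.Γ (z + 2 * π)).2 - (Sl.Sh.Γ z).2) (estrip Sl.Sh.G.Hs) := fun z hz =>
      ((Sl.Sh.Γ_mero.2 _ (hmem z hz)).comp_analyticAt (g := fun w : ℂ => w + 2 * π) (hshift z)).sub (Sl.Sh.Γ_mero.2 z hz)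
    have hc : ContinuousAt (fun z => (Sl.Sh.Γ (z + 2 * π)).2 - (Sl.Sh.Γ z).2) s :=
      (ContinuousAt.comp (f := fun w : ℂ => w + 2 * π) (g := fun z => (Sl.Sh.Γ z).2)
        (Sl.s10g_Γ_hasDerivAt₂ hs' hf').continuousAt hsh.continuousAt).sub (Sl.s10g_Γ_hasDerivAt₂ hs hf).continuousAt
    exact sub_eq_zero.1 (s10g_mero_zero Sl.s10g_isOpen_D Sl.s10g_isPreconnected_D hm h0
      (hnear.mono fun z hz => by simp only [hz, sub_self]) hs hc)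

/-! ### the positions -/

/-- the velocity factor `c f_j⁻² s_j'`. -/
noncomputable def vel (j : ℤ) (y : ℂ) : ℂ := Sl.Sh.G.c * (Sl.fj j y)⁻¹ ^ 2 * Sl.s' j y

theorem s10g_X_hasDerivAt₁ (j : ℤ) {y : ℂ} (hy : y ∈ Sl.reg0) :
    HasDerivAt (fun z => (Sl.X j z).1) (Sl.vel j y * (evecC (Sl.ψ j y)).1) y := by
  have h := (Sl.s10g_Γ_hasDerivAt₁ (Sl.s10g_s_mem j hy.1) (Sl.s10g_fj_ne hy j)).comp y (Sl.s10g_s_hasDerivAt j hy.1)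
  refine h.congr_deriv ?_
  simp only [vel, Slice.fj, Slice.ψ]; ring

theorem s10g_X_hasDerivAt₂ (j : ℤ) {y : ℂ} (hy : y ∈ Sl.reg0) :
    HasDerivAt (fun z => (Sl.X j z).2) (Sl.vel j y * (evecC (Sl.ψ j y)).2) y := by
  have h := (Sl.s10g_Γ_hasDerivAt₂ (Sl.s10g_s_mem j hy.1) (Sl.s10g_fj_ne hy j)).comp y (Sl.s10g_s_hasDerivAt j hy.1)
  refine h.congr_deriv ?_
  simp only [vel, Slice.fj, Slice.ψ]; ring

theorem s10g_X_add_N (j : ℤ) {y : ℂ} (hy : y ∈ Sl.reg0) : Sl.X (j + Sl.N) y = Sl.X j y := by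
  show Sl.Sh.Γ (Sl.s (j + Sl.N) y) = Sl.Sh.Γ (Sl.s j y)
  rw [Sl.s10g_s_add_N j hy.1]
  exact Sl.s10g_Γ_per (Sl.s10g_s_mem j hy.1) (Sl.s10g_fj_ne hy j)

theorem s10g_s_analyticAt (j : ℤ) {y : ℂ} (hy : y ∈ Sl.strip) : AnalyticAt ℂ (Sl.s j) y :=
  (Sl.s10g_s_diff j).analyticAt (Sl.s10g_isOpen_strip.mem_nhds hy)

theorem s10g_X_mero₁ (j : ℤ) : MeromorphicOn (fun z => (Sl.X j z).1) Sl.strip := fun _ hy =>
  (Sl.Sh.Γ_mero.1 _ (Sl.s10g_s_mem j hy)).comp_analyticAt (Sl.s10g_s_analyticAt j hy)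

theorem s10g_X_mero₂ (j : ℤ) : MeromorphicOn (fun z => (Sl.X j z).2) Sl.strip := fun _ hy =>
  (Sl.Sh.Γ_mero.2 _ (Sl.s10g_s_mem j hy)).comp_analyticAt (Sl.s10g_s_analyticAt j hy)

theorem s10g_θ_hasDerivAt (j : ℤ) {y : ℂ} (hy : y ∈ Sl.strip) : HasDerivAt (Sl.θ j) (deriv (Sl.θ j) y) y :=
  ((Sl.s10g_θ_diff j).differentiableAt (Sl.s10g_isOpen_strip.mem_nhds hy)).hasDerivAt

theorem s10g_θ_analyticAt (j : ℤ) {y : ℂ} (hy : y ∈ Sl.strip) : AnalyticAt ℂ (Sl.θ j) y :=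
  (Sl.s10g_θ_diff j).analyticAt (Sl.s10g_isOpen_strip.mem_nhds hy)

theorem s10g_ψ_analyticAt (j : ℤ) {y : ℂ} (hy : y ∈ Sl.strip) : AnalyticAt ℂ (Sl.ψ j) y :=
  (Sl.s10g_ψ_diff j).analyticAt (Sl.s10g_isOpen_strip.mem_nhds hy)

/-! ### periodicity in `j` of the derived quantities -/

theorem s10g_vel_add_N (j : ℤ) {y : ℂ} (hy : y ∈ Sl.strip) : Sl.vel (j + Sl.N) y = Sl.vel j y := by
  unfold vel
  rw [Sl.s10g_fj_add_N j hy, Sl.s10g_s'_add_N j hy]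

theorem s10g_w_eq (j : ℤ) (y : ℂ) : Sl.w j y = Sl.vel j y * Sl.sd j y := by
  unfold Slice.w vel; ring

theorem s10g_w_add_N (j : ℤ) {y : ℂ} (hy : y ∈ Sl.strip) : Sl.w (j + Sl.N) y = Sl.w j y := by
  rw [s10g_w_eq, s10g_w_eq, Sl.s10g_vel_add_N j hy, Sl.s10g_sd_add_N j hy]

theorem s10g_V_add_N (j : ℤ) {y : ℂ} (hy : y ∈ Sl.strip) : Sl.V (j + Sl.N) y = Sl.V j y := by
  unfold Slice.V
  rw [Sl.s10g_fj_add_N j hy, Sl.s10g_sd_add_N j hy]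

theorem s10g_ℓ_add_N (j : ℤ) {y : ℂ} (hy : y ∈ Sl.reg0) : Sl.ℓ (j + Sl.N) y = Sl.ℓ j y := by
  unfold Slice.ℓ
  have h : j + (Sl.N : ℤ) + 1 = (j + 1) + Sl.N := by ring
  rw [h, Sl.s10g_X_add_N _ hy, Sl.s10g_X_add_N _ hy, Sl.s10g_θ_add_N j hy.1, s10g_evec_add]

theorem s10g_Hs_add_N (j : ℤ) {y : ℂ} (hy : y ∈ Sl.reg0) : Sl.Hs (j + Sl.N) y = Sl.Hs j y := by
  unfold Slice.Hs
  rw [Sl.s10g_X_add_N _ hy, Sl.s10g_ψ_add_N j hy.1, s10g_nvec_add]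

theorem s10g_pj_add_N (j : ℤ) {y : ℂ} (hy : y ∈ Sl.reg0) : Sl.pj (j + Sl.N) y = Sl.pj j y := by
  unfold Slice.pj
  rw [Sl.s10g_X_add_N _ hy, Sl.s10g_θ_add_N j hy.1, s10g_nvec_add]

theorem s10g_X_succ (i : Fin Sl.N) {y : ℂ} (hy : y ∈ Sl.reg0) : Sl.X (⟪i⟫ + 1) y = Sl.X ⟪i + 1⟫ y :=
  (s10g_per_succ (fun j => Sl.X j y) Sl.N Sl.s10g_two_le_N (fun j => Sl.s10g_X_add_N j hy) i).symm

theorem s10g_ℓ_pred (i : Fin Sl.N) {y : ℂ} (hy : y ∈ Sl.reg0) : Sl.ℓ (⟪i⟫ - 1) y = Sl.ℓ ⟪i - 1⟫ y :=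
  (s10g_per_pred (fun j => Sl.ℓ j y) Sl.N Sl.s10g_two_le_N (fun j => Sl.s10g_ℓ_add_N j hy) i).symm

theorem s10g_sd_ne {y : ℂ} (hy : y ∈ Sl.reg1) (j : ℤ) : Sl.sd j y ≠ 0 :=
  s10g_forall_int (P := fun j => Sl.sd j y ≠ 0) (fun j => by rw [Sl.s10g_sd_add_N j hy.1]) (fun i => (hy.2 i).2.1) j

theorem s10g_ℓ_ne {y : ℂ} (hy : y ∈ Sl.reg1) (j : ℤ) : Sl.ℓ j y ≠ 0 :=
  s10g_forall_int (P := fun j => Sl.ℓ j y ≠ 0)
    (fun j => by rw [Sl.s10g_ℓ_add_N j (Sl.s10g_reg1_subset_reg0 hy)]) (fun i => (hy.2 i).2.2) j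

/-! ### derivatives of `ℓ_j`, `H_j⁰`, `E_j` -/

theorem s10g_ℓ_hasDerivAt (j : ℤ) {y : ℂ} (hy : y ∈ Sl.reg0) : ∃ ℓ' : ℂ, HasDerivAt (Sl.ℓ j) ℓ' y :=
  ⟨_, s10g_hasDerivAt_dot_e ((Sl.s10g_X_hasDerivAt₁ (j + 1) hy).sub (Sl.s10g_X_hasDerivAt₁ j hy))
    ((Sl.s10g_X_hasDerivAt₂ (j + 1) hy).sub (Sl.s10g_X_hasDerivAt₂ j hy)) (Sl.s10g_θ_hasDerivAt j hy.1)⟩

theorem s10g_ℓ_diff (j : ℤ) : DifferentiableOn ℂ (Sl.ℓ j) Sl.reg0 := fun _ hy =>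
  (Sl.s10g_ℓ_hasDerivAt j hy).choose_spec.differentiableAt.differentiableWithinAt

/-- `dH_j⁰ = (X_j · e_{ψ_j}) dψ_j`. -/
theorem s10g_Hs_hasDerivAt (j : ℤ) {y : ℂ} (hy : y ∈ Sl.reg0) :
    HasDerivAt (Sl.Hs j) (dotC (Sl.X j y) (evecC (Sl.ψ j y)) * Sl.fj j y * Sl.s' j y) y := by
  have h := s10g_hasDerivAt_dot_n (Sl.s10g_X_hasDerivAt₁ j hy) (Sl.s10g_X_hasDerivAt₂ j hy)
    (Sl.s10g_ψ_hasDerivAt j hy.1)
  refine h.congr_deriv ?_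
  have h1 : dotC (Sl.vel j y * (evecC (Sl.ψ j y)).1, Sl.vel j y * (evecC (Sl.ψ j y)).2) (nvecC (Sl.ψ j y)) = 0 := by
    simp only [dotC, evecC, nvecC]; ring
  rw [h1]
  ring

/-- `E_j' = -(w_j + w_{j+1}) + ℓ_j θ_j'`. -/
theorem s10g_E_hasDerivAt (j : ℤ) {y : ℂ} (hy : y ∈ Sl.reg0) :
    HasDerivAt (Sl.E j) (-(Sl.w j y + Sl.w (j + 1) y) + Sl.ℓ j y * deriv (Sl.θ j) y) y := by
  have h := s10g_hasDerivAt_dot_n ((Sl.s10g_X_hasDerivAt₁ (j + 1) hy).sub (Sl.s10g_X_hasDerivAt₁ j hy))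
    ((Sl.s10g_X_hasDerivAt₂ (j + 1) hy).sub (Sl.s10g_X_hasDerivAt₂ j hy)) (Sl.s10g_θ_hasDerivAt j hy.1)
  refine h.congr_deriv ?_
  have h1 : dotC (Sl.vel (j + 1) y * (evecC (Sl.ψ (j + 1) y)).1 - Sl.vel j y * (evecC (Sl.ψ j y)).1,
      Sl.vel (j + 1) y * (evecC (Sl.ψ (j + 1) y)).2 - Sl.vel j y * (evecC (Sl.ψ j y)).2) (nvecC (Sl.θ j y))
      = Sl.vel (j + 1) y * dotC (evecC (Sl.ψ (j + 1) y)) (nvecC (Sl.θ j y))
        - Sl.vel j y * dotC (evecC (Sl.ψ j y)) (nvecC (Sl.θ j y)) := by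
    simp only [dotC]; ring
  have h2 : Sl.θ j y - Sl.ψ (j + 1) y = -Sl.d (j + 1) y := by rw [Sl.s10g_θ_succ j hy.1]; ring
  rw [h1, s10g_dot_e_n, s10g_dot_e_n, h2, Complex.sin_neg, s10g_w_eq, s10g_w_eq]
  unfold Slice.sd Slice.d Slice.ℓ
  simp only [Prod.fst_sub, Prod.snd_sub, dotC, Pi.sub_apply]
  ring

theorem s10g_E_mero (j : ℤ) : MeromorphicOn (Sl.E j) Sl.strip := by
  intro y hy
  have h1 : MeromorphicAt (fun z => Complex.cos (Sl.θ j z)) y := ((Sl.s10g_θ_diff j).ccos.analyticAt (Sl.s10g_isOpen_strip.mem_nhds hy)).meromorphicAt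
  have h2 : MeromorphicAt (fun z => Complex.sin (Sl.θ j z)) y := ((Sl.s10g_θ_diff j).csin.analyticAt (Sl.s10g_isOpen_strip.mem_nhds hy)).meromorphicAt
  exact (((Sl.s10g_X_mero₁ (j + 1) y hy).sub (Sl.s10g_X_mero₁ j y hy)).mul h1).add
    (((Sl.s10g_X_mero₂ (j + 1) y hy).sub (Sl.s10g_X_mero₂ j y hy)).mul h2)

theorem s10g_ℓ_mero (j : ℤ) : MeromorphicOn (Sl.ℓ j) Sl.strip := by
  intro y hy
  have h1 : MeromorphicAt (fun z => Complex.cos (Sl.θ j z)) y := ((Sl.s10g_θ_diff j).ccos.analyticAt (Sl.s10g_isOpen_strip.mem_nhds hy)).meromorphicAt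
  have h2 : MeromorphicAt (fun z => -Complex.sin (Sl.θ j z)) y := ((Sl.s10g_θ_diff j).csin.neg.analyticAt (Sl.s10g_isOpen_strip.mem_nhds hy)).meromorphicAt
  exact (((Sl.s10g_X_mero₁ (j + 1) y hy).sub (Sl.s10g_X_mero₁ j y hy)).mul h2).add
    (((Sl.s10g_X_mero₂ (j + 1) y hy).sub (Sl.s10g_X_mero₂ j y hy)).mul h1)

end Slice

end Claimed.Agent.R269
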