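/-
Row 269, P1 Section 10.1, package BP-S10a (architect: helper230).  GeoCollar: THE DICTIONARY on the base domain `|Im y| < s/4`, `|t| < ρ`
between the shape data (`φ`, `lift`, `Γ`) and the line coordinates (`Θ`, `p`) of `Glance`:
  `φ (lift (y,t)) = (Θ(y - t/2,t) + Θ(y + t/2,t)) / 2`                      (`Shape.s10g_dict`)
  `X0(y,t) · n_{Θ(y ∓ t/2,t)} = p(y ∓ t/2,t)`                                (`Glance.s10g_X0_dot_in/out`)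
and on the slice:  `θ_j(y) = Θ(y + (j + 1/2) t₀, t₀)`,  `X_j(y) = X0(y + j t₀, t₀)`,  `E_j = 0`.
-/
import Claimed.Agent.R269.S10.GeoCurve

set_option autoImplicit false

namespace Claimed.Agent.R269

open Complex ComplexConjugate Metric Set Filter Topology
open scoped Real ENNReal

local notation "⟪" i "⟫" => ((Fin.val i : ℕ) : ℤ)

/-- `suppPt h ψ = h(ψ) n_ψ + h'(ψ) e_ψ`, paired with a normal vector. -/
theorem s10g_suppPt_dot_n (h : ℂ → ℂ) (ψ β : ℂ) :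
    dotC (suppPt h ψ) (nvecC β) = h ψ * Complex.cos (ψ - β) - deriv h ψ * Complex.sin (ψ - β) := by
  simp only [dotC, suppPt, nvecC, Complex.cos_sub, Complex.sin_sub]; ring

/-- `suppPt h ψ`, paired with a tangent vector. -/
theorem s10g_suppPt_dot_e (h : ℂ → ℂ) (ψ β : ℂ) :
    dotC (suppPt h ψ) (evecC β) = h ψ * Complex.sin (ψ - β) + deriv h ψ * Complex.cos (ψ - β) := by
  simp only [dotC, suppPt, evecC, Complex.cos_sub, Complex.sin_sub]; ring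

namespace Glance

variable (G : Glance)

/-- the impact `X0(y,t)` lies on the incoming line. -/
theorem s10g_X0_dot_in {y t : ℂ} (hy : y - t / 2 ∈ hstrip G.s) (ht : t ∈ ball (0 : ℂ) G.r₁) :
    dotC (G.X0 (y, t)) (nvecC (G.Θ (y - t / 2) t)) = G.p (y - t / 2) t := by
  have h := G.refl_in _ hy t ht
  have e : y - t / 2 + t = y + t / 2 := by ring
  rw [e] at h
  rw [h, X0, s10g_suppPt_dot_n, pInC]
  congr 3 <;> ring

/-- the impact `X0(y,t)` lies on the outgoing line. -/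
theorem s10g_X0_dot_out {y t : ℂ} (hy : y - t / 2 ∈ hstrip G.s) (ht : t ∈ ball (0 : ℂ) G.r₁) :
    dotC (G.X0 (y, t)) (nvecC (G.Θ (y + t / 2) t)) = G.p (y + t / 2) t := by
  have h := G.refl_out _ hy t ht
  have e : y - t / 2 + t = y + t / 2 := by ring
  rw [e] at h
  rw [h, X0, s10g_suppPt_dot_n, pOutC]
  have e2 : (G.Θ (y - t / 2) t + G.Θ (y + t / 2) t) / 2 - G.Θ (y + t / 2) t
      = -((G.Θ (y + t / 2) t - G.Θ (y - t / 2) t) / 2) := by ring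
  simp only [e2, Complex.cos_neg, Complex.sin_neg]
  ring

theorem s10g_ψm_zero (y : ℂ) : G.ψm (y, 0) = G.Θ y 0 := by simp [ψm]

theorem s10g_Θ_real (x t : ℝ) (ht : (t : ℂ) ∈ ball (0 : ℂ) G.r₁) : (G.Θ x t).im = 0 := by
  have hx : (x : ℂ) ∈ hstrip (2 * G.s) := s10g_real_mem_hstrip (by have := G.s4c_s_pos; linarith) x
  have h := G.Θ_conj x hx t ht
  rw [Complex.conj_ofReal, Complex.conj_ofReal] at h
  exact Complex.conj_eq_iff_im.1 h.symm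

end Glance

namespace Shape

variable (Sh : Shape)

/-- the base domain. -/
def baseD : Set (ℂ × ℂ) := hstrip (Sh.G.s / 4) ×ˢ ball (0 : ℂ) Sh.ρ

theorem s10g_isOpen_baseD : IsOpen Sh.baseD := (s4c_isOpen_hstrip _).prod isOpen_ball

theorem s10g_isPreconnected_baseD : IsPreconnected Sh.baseD :=
  ((s4c_convex_hstrip _).prod (convex_ball _ _)).isPreconnected

theorem s10g_baseD_subset_ini : Sh.baseD ⊆ Sh.G.ini := fun _ hz =>
  ⟨s10g_hstrip_mono (by have := Sh.G.s4c_s_pos; linarith) hz.1, ball_subset_ball Sh.ρ_le hz.2⟩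

theorem s10g_baseD_subset_tube : Sh.baseD ⊆ Sh.G.tube Sh.ρ := by
  intro z hz
  have hs := Sh.G.s4c_s_pos
  have h1 : |z.1.im| < Sh.G.s / 4 := hz.1
  obtain ⟨h2, h3⟩ := abs_lt.1 h1
  have hc : conj z.2 ∈ ball (0 : ℂ) Sh.G.r₁ := by
    have := ball_subset_ball Sh.ρ_le hz.2
    rw [mem_ball_zero_iff] at this ⊢
    rwa [RCLike.norm_conj]
  have hpos : 0 < 3 * Sh.G.s / 2 := by linarith
  refine ⟨hz.2, ?_, ?_⟩
  · exact lt_of_lt_of_le ((ENNReal.ofReal_lt_ofReal_iff hpos).2 (by linarith))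
      (Sh.G.s4c_X0_base.le_width (ball_subset_ball Sh.ρ_le hz.2))
  · exact lt_of_lt_of_le ((ENNReal.ofReal_lt_ofReal_iff hpos).2 (by linarith)) (Sh.G.s4c_X0_base.le_width hc)

theorem s10g_lift_diff_base : DifferentiableOn ℂ Sh.lift Sh.baseD := Sh.lift_diff.mono Sh.s10g_baseD_subset_tube

theorem s10g_hstrip_subset_D : hstrip (Sh.G.s / 2) ⊆ estrip Sh.G.Hs := by
  intro y hy
  have hs := Sh.G.s4c_s_pos
  have h1 : |y.im| < Sh.G.s / 2 := hy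
  have hpos : 0 < 3 * Sh.G.s / 2 := by linarith
  exact lt_of_lt_of_le ((ENNReal.ofReal_lt_ofReal_iff hpos).2 (by linarith))
    (Sh.G.s4c_X0_base.le_width (mem_ball_self Sh.G.r₁_pos))

/-- the two normal angles have the same support point. -/
theorem s10g_suppPt_eq {z : ℂ × ℂ} (hz : z ∈ Sh.baseD) :
    suppPt Sh.G.hc (Sh.φ (Sh.lift z)) = suppPt Sh.G.hc (Sh.G.ψm z) := by
  obtain ⟨h1, h2⟩ := Sh.lift_base z hz
  have h3 : Sh.G.Γ0 (Sh.lift z) = suppPt Sh.G.hc (Sh.G.ψm (Sh.lift z, 0)) := rfl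
  rw [Sh.G.s10g_ψm_zero, ← Sh.φ_base _ h1] at h3
  rw [← h3, ← h2]
  rfl

/-- **The dictionary**: the normal angle at the impact is the mean of the two line angles. -/
theorem s10g_dict {z : ℂ × ℂ} (hz : z ∈ Sh.baseD) : Sh.φ (Sh.lift z) = Sh.G.ψm z := by
  have hs := Sh.G.s4c_s_pos
  have h00 : ((0, 0) : ℂ × ℂ) ∈ Sh.baseD :=
    ⟨by exact_mod_cast s10g_real_mem_hstrip (by linarith : 0 < Sh.G.s / 4) 0, mem_ball_self Sh.ρ_pos⟩
  have hD1 : DifferentiableOn ℂ (fun z => Sh.φ (Sh.lift z)) Sh.baseD :=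
    Sh.φ_diff.comp Sh.s10g_lift_diff_base fun z hz => Sh.lift_mem z (Sh.s10g_baseD_subset_tube hz)
  have hD2 : DifferentiableOn ℂ Sh.G.ψm Sh.baseD :=
    (Sh.G.s4c_ψm_analytic.mono Sh.s10g_baseD_subset_ini).differentiableOn
  refine SCV.eqOn_of_differentiableOn Sh.s10g_isOpen_baseD Sh.s10g_isPreconnected_baseD hD1 hD2 h00 ?_ hz
  -- the common value at the origin
  set a : ℂ := Sh.G.Θ 0 0 with ha
  have ha_im : a.im = 0 := by
    have h0 : (((0 : ℝ) : ℂ)) ∈ ball (0 : ℂ) Sh.G.r₁ := by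
      rw [Complex.ofReal_zero]; exact mem_ball_self Sh.G.r₁_pos
    have := Sh.G.s10g_Θ_real 0 0 h0
    simpa using this
  have ha_re : ((a.re : ℝ) : ℂ) = a := Complex.ext (by simp) (by simp [ha_im])
  have haσ : a ∈ hstrip Sh.G.σ := by rw [← ha_re]; exact s10g_real_mem_hstrip Sh.G.σ_pos _
  have h0D : (0 : ℂ) ∈ estrip Sh.G.Hs :=
    Sh.s10g_hstrip_subset_D (by exact_mod_cast s10g_real_mem_hstrip (by linarith : 0 < Sh.G.s / 2) 0)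
  have hv1 : Sh.φ (Sh.lift (0, 0)) = a := by
    rw [Sh.lift_zero 0 h0D, Sh.φ_base 0 (by exact_mod_cast s10g_real_mem_hstrip (by linarith : 0 < Sh.G.s / 2) 0)]
  have hv2 : Sh.G.ψm (0, 0) = a := Sh.G.s10g_ψm_zero 0
  -- the scalar function `k = suppPt · e_a` is locally injective at `a`
  set k : ℂ → ℂ := fun ψ => dotC (suppPt Sh.G.hc ψ) (evecC a) with hk
  have hnσ : hstrip Sh.G.σ ∈ 𝓝 a := (s4c_isOpen_hstrip _).mem_nhds haσ
  have hh : HasDerivAt Sh.G.hc (deriv Sh.G.hc a) a := (Sh.G.hc_diff.differentiableAt hnσ).hasDerivAt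
  have hh' : HasDerivAt (deriv Sh.G.hc) (deriv (deriv Sh.G.hc) a) a :=
    ((Sh.G.hc_diff.deriv (s4c_isOpen_hstrip _)).differentiableAt hnσ).hasDerivAt
  have hkd : DifferentiableOn ℂ k (hstrip Sh.G.σ) := by
    have e : k = fun ψ => Sh.G.hc ψ * Complex.sin (ψ - a) + deriv Sh.G.hc ψ * Complex.cos (ψ - a) :=
      funext fun ψ => s10g_suppPt_dot_e _ _ _
    rw [e]
    exact (Sh.G.hc_diff.mul ((differentiable_id.sub_const a).csin).differentiableOn).add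
      ((Sh.G.hc_diff.deriv (s4c_isOpen_hstrip _)).mul ((differentiable_id.sub_const a).ccos).differentiableOn)
  have hka : AnalyticAt ℂ k a := hkd.analyticAt hnσ
  have hk' : deriv k a ≠ 0 := by
    have e : k = fun ψ => Sh.G.hc ψ * Complex.sin (ψ - a) + deriv Sh.G.hc ψ * Complex.cos (ψ - a) :=
      funext fun ψ => s10g_suppPt_dot_e _ _ _
    have hsub : HasDerivAt (fun ψ : ℂ => ψ - a) 1 a := (hasDerivAt_id a).sub_const a
    have h1 := (hh.mul hsub.csin).add (hh'.mul hsub.ccos)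
    have h2 : deriv k a = Sh.G.hc a + deriv (deriv Sh.G.hc) a := by
      rw [e]
      refine (h1.congr_deriv ?_).deriv
      simp
    rw [h2]
    intro h0
    have h3 := Sh.G.rad_pos a.re
    rw [ha_re, h0] at h3
    simp at h3
  obtain ⟨U, hU, hinj⟩ := s10g_injOn_nhds hka hk'
  have hn : Sh.baseD ∈ 𝓝 ((0, 0) : ℂ × ℂ) := Sh.s10g_isOpen_baseD.mem_nhds h00
  have hc1 : ContinuousAt (fun z => Sh.φ (Sh.lift z)) (0, 0) := (hD1.differentiableAt hn).continuousAt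
  have hc2 : ContinuousAt Sh.G.ψm (0, 0) := (hD2.differentiableAt hn).continuousAt
  have e1 : ∀ᶠ z in 𝓝 ((0, 0) : ℂ × ℂ), Sh.φ (Sh.lift z) ∈ U := hc1 (by show U ∈ 𝓝 (Sh.φ (Sh.lift (0, 0))); rw [hv1]; exact hU)
  have e2 : ∀ᶠ z in 𝓝 ((0, 0) : ℂ × ℂ), Sh.G.ψm z ∈ U := hc2 (by rw [hv2]; exact hU)
  filter_upwards [e1, e2, hn] with z h1 h2 h3
  apply hinj h1 h2
  show dotC (suppPt Sh.G.hc (Sh.φ (Sh.lift z))) (evecC a) = dotC (suppPt Sh.G.hc (Sh.G.ψm z)) (evecC a)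
  rw [Sh.s10g_suppPt_eq h3]

/-- on the base domain the position is the impact. -/
theorem s10g_Γ_lift {z : ℂ × ℂ} (hz : z ∈ Sh.baseD) : Sh.Γ (Sh.lift z) = Sh.G.X0 z := by
  obtain ⟨h1, h2⟩ := Sh.lift_base z hz
  rw [Sh.Γ_base _ h1, h2]

end Shape

namespace Slice

variable (Sl : Slice)

/-- the base strip. -/
def base : Set ℂ := hstrip (Sl.Sh.G.s / 4)

theorem s10g_base_baseD (j : ℤ) {y : ℂ} (hy : y ∈ Sl.base) : (y + j * (Sl.t₀ : ℂ), (Sl.t₀ : ℂ)) ∈ Sl.Sh.baseD := by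
  refine ⟨?_, Sl.s10g_t₀_mem⟩
  rw [Sl.s10g_shift_eq]
  exact s10g_hstrip_add_real hy _

theorem s10g_ψ_base (j : ℤ) {y : ℂ} (hy : y ∈ Sl.base) : Sl.ψ j y = Sl.Sh.G.ψm (y + j * (Sl.t₀ : ℂ), (Sl.t₀ : ℂ)) :=
  Sl.Sh.s10g_dict (Sl.s10g_base_baseD j hy)

theorem s10g_X_base (j : ℤ) {y : ℂ} (hy : y ∈ Sl.base) : Sl.X j y = Sl.Sh.G.X0 (y + j * (Sl.t₀ : ℂ), (Sl.t₀ : ℂ)) :=
  Sl.Sh.s10g_Γ_lift (Sl.s10g_base_baseD j hy)

/-- the line angle of the edge `j`. -/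
noncomputable def Θe (j : ℤ) (y : ℂ) : ℂ := Sl.Sh.G.Θ (y + j * (Sl.t₀ : ℂ) + (Sl.t₀ : ℂ) / 2) (Sl.t₀ : ℂ)

/-- the offset of the edge `j`. -/
noncomputable def pe (j : ℤ) (y : ℂ) : ℂ := Sl.Sh.G.p (y + j * (Sl.t₀ : ℂ) + (Sl.t₀ : ℂ) / 2) (Sl.t₀ : ℂ)

theorem s10g_edge_mem (j : ℤ) {y : ℂ} (hy : y ∈ Sl.base) :
    y + j * (Sl.t₀ : ℂ) + (Sl.t₀ : ℂ) / 2 ∈ hstrip (Sl.Sh.G.s / 4) := by
  have e : y + j * (Sl.t₀ : ℂ) + (Sl.t₀ : ℂ) / 2 = y + ((j * Sl.t₀ + Sl.t₀ / 2 : ℝ) : ℂ) := by push_cast; ring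
  rw [e]
  exact s10g_hstrip_add_real hy _

theorem s10g_ψ_base' (j : ℤ) {y : ℂ} (hy : y ∈ Sl.base) : Sl.ψ j y = (Sl.Θe (j - 1) y + Sl.Θe j y) / 2 := by
  rw [Sl.s10g_ψ_base j hy]
  unfold Glance.ψm Θe
  have e : y + ((j - 1 : ℤ) : ℂ) * (Sl.t₀ : ℂ) + (Sl.t₀ : ℂ) / 2 = y + j * (Sl.t₀ : ℂ) - (Sl.t₀ : ℂ) / 2 := by
    push_cast; ring
  rw [e]

theorem s10g_Θe_sub_N (j : ℤ) {y : ℂ} (hy : y ∈ Sl.base) : Sl.Θe (j - Sl.N) y = Sl.Θe j y - 2 * π := by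
  have hs := Sl.Sh.G.s4c_s_pos
  have h1 := Sl.s10g_edge_mem (j - Sl.N) hy
  have h2 := Sl.Sh.G.Θ_per _ (s10g_hstrip_mono (by linarith) h1) _ Sl.s10g_t₀_mem'
  have e : y + ((j - Sl.N : ℤ) : ℂ) * (Sl.t₀ : ℂ) + (Sl.t₀ : ℂ) / 2 + 2 * π = y + j * (Sl.t₀ : ℂ) + (Sl.t₀ : ℂ) / 2 := by
    push_cast
    rw [sub_mul, Sl.s10g_N_mul_t₀]
    ring
  rw [e] at h2
  unfold Θe
  rw [h2]; ring

/-- **the edge angles are the line angles.** -/
theorem s10g_θ_base (j : ℤ) {y : ℂ} (hy : y ∈ Sl.base) : Sl.θ j y = Sl.Θe j y := by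
  have h1 := s10g_alt_sum (fun i => Sl.Θe i y / 2) j Sl.N
  have h2 : ∀ m : ℕ, (-1 : ℂ) ^ m * Sl.ψ (j - m) y
      = (-1 : ℂ) ^ m * (Sl.Θe (j - m) y / 2) + (-1 : ℂ) ^ m * (Sl.Θe (j - 1 - m) y / 2) := by
    intro m
    rw [Sl.s10g_ψ_base' _ hy]
    have : j - (m : ℤ) - 1 = j - 1 - m := by ring
    rw [this]; ring
  unfold Slice.θ
  simp only [h2, Finset.sum_add_distrib]
  rw [h1, Sl.N_odd.neg_one_pow, Sl.s10g_Θe_sub_N j hy]
  ring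

theorem s10g_X_dot_θ (j : ℤ) {y : ℂ} (hy : y ∈ Sl.base) : dotC (Sl.X j y) (nvecC (Sl.θ j y)) = Sl.pe j y := by
  have hs := Sl.Sh.G.s4c_s_pos
  rw [Sl.s10g_X_base j hy, Sl.s10g_θ_base j hy]
  refine Sl.Sh.G.s10g_X0_dot_out ?_ Sl.s10g_t₀_mem'
  have h1 := Sl.s10g_edge_mem (j - 1) hy
  have e : y + ((j - 1 : ℤ) : ℂ) * (Sl.t₀ : ℂ) + (Sl.t₀ : ℂ) / 2 = y + j * (Sl.t₀ : ℂ) - (Sl.t₀ : ℂ) / 2 := by
    push_cast; ring
  rw [e] at h1
  exact s10g_hstrip_mono (by linarith) h1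

theorem s10g_X_succ_dot_θ (j : ℤ) {y : ℂ} (hy : y ∈ Sl.base) :
    dotC (Sl.X (j + 1) y) (nvecC (Sl.θ j y)) = Sl.pe j y := by
  have hs := Sl.Sh.G.s4c_s_pos
  rw [Sl.s10g_X_base (j + 1) hy, Sl.s10g_θ_base j hy]
  have e : y + j * (Sl.t₀ : ℂ) + (Sl.t₀ : ℂ) / 2 = y + ((j + 1 : ℤ) : ℂ) * (Sl.t₀ : ℂ) - (Sl.t₀ : ℂ) / 2 := by
    push_cast; ring
  unfold Θe pe
  rw [e]
  refine Sl.Sh.G.s10g_X0_dot_in ?_ Sl.s10g_t₀_mem'
  rw [← e]
  exact s10g_hstrip_mono (by linarith) (Sl.s10g_edge_mem j hy)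

/-- the chord defect vanishes on the base strip. -/
theorem s10g_E_base (j : ℤ) {y : ℂ} (hy : y ∈ Sl.base) : Sl.E j y = 0 := by
  unfold E
  rw [s10g_dot_sub, Sl.s10g_X_succ_dot_θ j hy, Sl.s10g_X_dot_θ j hy, sub_self]

end Slice

end Claimed.Agent.R269
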