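/-
Row 269, P1 Section 10.1, package BP-S10a (architect: helper230).  HOST-FREE linear algebra of the odd cycle (Mathlib only).

`cycM b`        the symmetric matrix of the form `Σ_j b_j (z_j + z_{j+1})²` on the cycle `Fin N` (`b_j = 1/ℓ_j`; edge `j` joins `j`, `j+1`);
`cycB b V I F`  the modified matrix `B_{I,F}` of P1 (10.13), written on all of `Fin N` (identity outside `I ∪ F`).

The two theorems on these matrices are the leaves LF-S10g-lin1 (S10/GeoLin1.lean) and LF-S10g-lin2 (S10/GeoLin2.lean).
-/
import Mathlib

set_option autoImplicit false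

namespace Claimed.Agent.R269

open Finset

section defs

variable {R : Type*} [CommRing R] {N : ℕ} [NeZero N]

/-- the matrix of the quadratic form `Σ_j b_j (z_j + z_{j+1})²` on the cycle. -/
def cycM (b : Fin N → R) : Matrix (Fin N) (Fin N) R := fun i k =>
  (if i = k then b i + b (i - 1) else 0) + (if k = i + 1 then b i else 0) + (if i = k + 1 then b k else 0)

/-- the modified matrix `B_{I,F}`: truthful sites `I`, flat sites `F`, identity elsewhere. -/
def cycB (b V : Fin N → R) (I F : Finset (Fin N)) : Matrix (Fin N) (Fin N) R := fun i k =>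
  if i ∈ I ∪ F ∧ k ∈ I ∪ F then cycM b i k - (if i = k ∧ i ∈ I then V i else 0)
  else if i = k then 1 else 0

theorem cycM_map {S : Type*} [CommRing S] (f : R →+* S) (b : Fin N → R) :
    (cycM b).map f = cycM (fun i => f (b i)) := by
  ext i k
  simp only [Matrix.map_apply, cycM, map_add]
  congr 1
  · congr 1
    · split_ifs <;> simp
    · split_ifs <;> simp
  · split_ifs <;> simp

theorem cycB_map {S : Type*} [CommRing S] (f : R →+* S) (b V : Fin N → R) (I F : Finset (Fin N)) :
    (cycB b V I F).map f = cycB (fun i => f (b i)) (fun i => f (V i)) I F := by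
  ext i k
  have h := congrFun (congrFun (cycM_map f b) i) k
  simp only [Matrix.map_apply] at h
  simp only [Matrix.map_apply, cycB]
  split_ifs <;> simp [h]

/-- `(M z)_i = b_{i-1} (z_{i-1} + z_i) + b_i (z_i + z_{i+1})`. -/
theorem cycM_mulVec (b z : Fin N → R) (i : Fin N) :
    (cycM b).mulVec z i = b (i - 1) * (z (i - 1) + z i) + b i * (z i + z (i + 1)) := by
  have h3 : ∀ k : Fin N, (if i = k + 1 then b k else 0) * z k = if k = i - 1 then b (i - 1) * z (i - 1) else 0 := by
    intro k
    by_cases h : k = i - 1
    · subst h; simp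
    · have : ¬ i = k + 1 := fun h' => h (by rw [h']; simp)
      simp [h, this]
  simp only [Matrix.mulVec, dotProduct, cycM, add_mul, Finset.sum_add_distrib, h3, ite_mul, zero_mul,
    Finset.sum_ite_eq, Finset.sum_ite_eq', Finset.mem_univ, if_true]
  ring

end defs

end Claimed.Agent.R269
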