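/-
Row 269, P1 Section 10.1, package BP-S10a (architect: helper230).  GeoChord: the chord identity `X_{j+1} - X_j = ℓ_j e_{θ_j}` off the zeros of the
`f_j` (continuation from the base strip), and its consequences, all proved DIRECTLY in the complex domain:
  `ℓ_j θ_j' = w_j + w_{j+1}`,  `2 f_j s_j' = (M₀ w)_j`,  `ℋ w = 0`  (P1 (10.12); no second variation),
  the offset system (10.6) and `p_j = Σ_m (-1)^m H⁰_{j-m} cos d⁰_{j-m}`.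
-/
import Claimed.Agent.R269.S10.GeoCollar
import Claimed.Agent.R269.S10.GeoLin

set_option autoImplicit false

namespace Claimed.Agent.R269

open Complex ComplexConjugate Metric Set Filter Topology
open scoped Real ENNReal

local notation "⟪" i "⟫" => ((Fin.val i : ℕ) : ℤ)

namespace Slice

variable (Sl : Slice)

theorem s10g_zero_mem_strip : (0 : ℂ) ∈ Sl.strip := by exact_mod_cast Sl.s10g_real_mem_strip 0

theorem s10g_base_mem_nhds_zero : Sl.base ∈ 𝓝 (0 : ℂ) := by exact_mod_cast Sl.s10g_base_mem_nhds 0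

/-- continuation principle on the slice. -/
theorem s10g_continuation {F : ℂ → ℂ} (hF : MeromorphicOn F Sl.strip) (h0 : ∀ y ∈ Sl.base, F y = 0) {y : ℂ}
    (hy : y ∈ Sl.strip) (hc : ContinuousAt F y) : F y = 0 :=
  s10g_mero_zero Sl.s10g_isOpen_strip (s10g_isPreconnected_hstrip _) hF Sl.s10g_zero_mem_strip
    (Filter.mem_of_superset Sl.s10g_base_mem_nhds_zero h0) hy hc

/-- **the chord defect vanishes.** -/
theorem s10g_E_zero (j : ℤ) {y : ℂ} (hy : y ∈ Sl.reg0) : Sl.E j y = 0 :=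
  Sl.s10g_continuation (Sl.s10g_E_mero j) (fun _ h => Sl.s10g_E_base j h) hy.1 (Sl.s10g_E_hasDerivAt j hy).continuousAt

/-- **the chord identity** (10.5). -/
theorem s10g_chord (j : ℤ) {y : ℂ} (hy : y ∈ Sl.reg0) : Sl.X (j + 1) y - Sl.X j y = Sl.ℓ j y • evecC (Sl.θ j y) := by
  have h := s10g_frame (Sl.X (j + 1) y - Sl.X j y) (Sl.θ j y)
  have h0 : dotC (Sl.X (j + 1) y - Sl.X j y) (nvecC (Sl.θ j y)) = 0 := Sl.s10g_E_zero j hy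
  rw [h0, zero_smul, zero_add] at h
  exact h

/-- both end points of the edge `j` have the offset `p_j`. -/
theorem s10g_pj_succ (j : ℤ) {y : ℂ} (hy : y ∈ Sl.reg0) : dotC (Sl.X (j + 1) y) (nvecC (Sl.θ j y)) = Sl.pj j y := by
  have h0 : dotC (Sl.X (j + 1) y - Sl.X j y) (nvecC (Sl.θ j y)) = 0 := Sl.s10g_E_zero j hy
  rw [s10g_dot_sub, sub_eq_zero] at h0
  exact h0

/-- `ℓ_j θ_j' = w_j + w_{j+1}`. -/
theorem s10g_ℓ_mul_deriv_θ (j : ℤ) {y : ℂ} (hy : y ∈ Sl.reg0) :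
    Sl.ℓ j y * deriv (Sl.θ j) y = Sl.w j y + Sl.w (j + 1) y := by
  have h1 : Sl.E j =ᶠ[𝓝 y] fun _ => (0 : ℂ) := by
    filter_upwards [Sl.s10g_isOpen_reg0.mem_nhds hy] with z hz
    exact Sl.s10g_E_zero j hz
  have h2 : HasDerivAt (Sl.E j) 0 y := (hasDerivAt_const y (0 : ℂ)).congr_of_eventuallyEq h1
  have h3 := (Sl.s10g_E_hasDerivAt j hy).unique h2
  linear_combination h3

/-- the Jacobi recurrence with integer indices: `(w_{j-1} + w_j)/ℓ_{j-1} + (w_j + w_{j+1})/ℓ_j = 2 f_j s_j'`. -/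
theorem s10g_jacobi (j : ℤ) {y : ℂ} (hy : y ∈ Sl.reg1) :
    (Sl.ℓ (j - 1) y)⁻¹ * (Sl.w (j - 1) y + Sl.w j y) + (Sl.ℓ j y)⁻¹ * (Sl.w j y + Sl.w (j + 1) y)
      = 2 * Sl.fj j y * Sl.s' j y := by
  have hy0 := Sl.s10g_reg1_subset_reg0 hy
  have h1 := Sl.s10g_ℓ_mul_deriv_θ (j - 1) hy0
  have h2 := Sl.s10g_ℓ_mul_deriv_θ j hy0
  rw [sub_add_cancel] at h1
  have h3 := Sl.s10g_deriv_angle j hy.1
  have n1 := Sl.s10g_ℓ_ne hy (j - 1)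
  have n2 := Sl.s10g_ℓ_ne hy j
  rw [← h1, ← h2, inv_mul_cancel_left₀ n1, inv_mul_cancel_left₀ n2, h3]
  ring

/-- `𝒱_j w_j = 2 f_j s_j'`. -/
theorem s10g_V_mul_w (j : ℤ) {y : ℂ} (hy : y ∈ Sl.reg1) : Sl.V j y * Sl.w j y = 2 * Sl.fj j y * Sl.s' j y := by
  have n1 := Sl.s10g_fj_ne (Sl.s10g_reg1_subset_reg0 hy) j
  have n2 := Sl.s10g_sd_ne hy j
  have n3 : (Sl.Sh.G.c : ℂ) ≠ 0 := by exact_mod_cast Sl.Sh.G.c_pos.ne'
  unfold Slice.V Slice.w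
  field_simp

/-! ### the matrices -/

theorem s10g_M₀_eq {y : ℂ} (hy : y ∈ Sl.reg0) : Sl.M₀ y = cycM (fun i : Fin Sl.N => (Sl.ℓ ⟪i⟫ y)⁻¹) := by
  ext i k
  simp only [Slice.M₀, cycM, Sl.s10g_ℓ_pred i hy]

theorem s10g_Bmat_eq {y : ℂ} (hy : y ∈ Sl.reg0) (I F : Finset (Fin Sl.N)) :
    Sl.Bmat I F y = cycB (fun i : Fin Sl.N => (Sl.ℓ ⟪i⟫ y)⁻¹) (fun i : Fin Sl.N => Sl.V ⟪i⟫ y) I F := by
  ext i k
  simp only [Slice.Bmat, cycB, Sl.s10g_M₀_eq hy]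

theorem s10g_w_succ (i : Fin Sl.N) {y : ℂ} (hy : y ∈ Sl.strip) : Sl.w ⟪i + 1⟫ y = Sl.w (⟪i⟫ + 1) y :=
  s10g_per_succ (fun j => Sl.w j y) Sl.N Sl.s10g_two_le_N (fun j => Sl.s10g_w_add_N j hy) i

theorem s10g_w_pred (i : Fin Sl.N) {y : ℂ} (hy : y ∈ Sl.strip) : Sl.w ⟪i - 1⟫ y = Sl.w (⟪i⟫ - 1) y :=
  s10g_per_pred (fun j => Sl.w j y) Sl.N Sl.s10g_two_le_N (fun j => Sl.s10g_w_add_N j hy) i

/-- `2 f_j s_j' = (M₀ w)_j` (10.12). -/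
theorem s10g_M₀_w {y : ℂ} (hy : y ∈ Sl.reg1) (i : Fin Sl.N) :
    2 * Sl.fj ⟪i⟫ y * Sl.s' ⟪i⟫ y = (Sl.M₀ y).mulVec (fun i => Sl.w ⟪i⟫ y) i := by
  have hy0 := Sl.s10g_reg1_subset_reg0 hy
  rw [Sl.s10g_M₀_eq hy0, cycM_mulVec, Sl.s10g_w_succ i hy.1, Sl.s10g_w_pred i hy.1, ← Sl.s10g_ℓ_pred i hy0]
  exact (Sl.s10g_jacobi ⟪i⟫ hy).symm

/-- `ℋ w = 0` (10.12). -/
theorem s10g_Hmat_w {y : ℂ} (hy : y ∈ Sl.reg1) : (Sl.Hmat y).mulVec (fun i => Sl.w ⟪i⟫ y) = 0 := by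
  funext i
  rw [Slice.Hmat, Matrix.sub_mulVec, Pi.sub_apply, ← Sl.s10g_M₀_w hy i, Matrix.mulVec_diagonal,
    Sl.s10g_V_mul_w ⟪i⟫ hy]
  simp

/-! ### the offset system -/

theorem s10g_nvec_add_sub (ψ d : ℂ) : nvecC (ψ - d) + nvecC (ψ + d) = (2 * Complex.cos d) • nvecC ψ := by
  apply Prod.ext
  · simp only [nvecC, Prod.fst_add, Prod.smul_fst, smul_eq_mul, Complex.cos_add, Complex.cos_sub]; ring
  · simp only [nvecC, Prod.snd_add, Prod.smul_snd, smul_eq_mul, Complex.sin_add, Complex.sin_sub]; ring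

theorem s10g_nvec_sub_sub (ψ d : ℂ) : nvecC (ψ + d) - nvecC (ψ - d) = (2 * Complex.sin d) • evecC ψ := by
  apply Prod.ext
  · simp only [nvecC, evecC, Prod.fst_sub, Prod.smul_fst, smul_eq_mul, Complex.cos_add, Complex.cos_sub]; ring
  · simp only [nvecC, evecC, Prod.snd_sub, Prod.smul_snd, smul_eq_mul, Complex.sin_add, Complex.sin_sub]; ring

theorem s10g_pj_pred (j : ℤ) {y : ℂ} (hy : y ∈ Sl.reg0) :
    Sl.pj (j - 1) y = dotC (Sl.X j y) (nvecC (Sl.ψ j y - Sl.d j y)) := by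
  have h := Sl.s10g_pj_succ (j - 1) hy
  rw [sub_add_cancel, Sl.s10g_θ_pred j hy.1] at h
  exact h.symm

/-- `p_{j-1} + p_j = 2 H_j⁰ cos d_j⁰` (10.6). -/
theorem s10g_offset_add (j : ℤ) {y : ℂ} (hy : y ∈ Sl.reg0) :
    Sl.pj (j - 1) y + Sl.pj j y = 2 * (Sl.Hs j y * Complex.cos (Sl.d j y)) := by
  have h := congrArg (dotC (Sl.X j y)) (s10g_nvec_add_sub (Sl.ψ j y) (Sl.d j y))
  rw [Sl.s10g_pj_pred j hy]
  unfold Slice.pj Slice.Hs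
  rw [Sl.s10g_θ_eq j y]
  simp only [dotC, Prod.fst_add, Prod.snd_add, Prod.smul_fst, Prod.smul_snd, smul_eq_mul] at h ⊢
  linear_combination h

/-- `p_j - p_{j-1} = 2 (X_j · e_{ψ_j}) sin d_j⁰` (10.6). -/
theorem s10g_offset_sub (j : ℤ) {y : ℂ} (hy : y ∈ Sl.reg0) :
    Sl.pj j y - Sl.pj (j - 1) y = 2 * (dotC (Sl.X j y) (evecC (Sl.ψ j y)) * Sl.sd j y) := by
  have h := congrArg (dotC (Sl.X j y)) (s10g_nvec_sub_sub (Sl.ψ j y) (Sl.d j y))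
  rw [Sl.s10g_pj_pred j hy]
  unfold Slice.pj Slice.sd
  rw [Sl.s10g_θ_eq j y]
  simp only [dotC, Prod.fst_sub, Prod.snd_sub, Prod.smul_fst, Prod.smul_snd, smul_eq_mul] at h ⊢
  linear_combination h

/-- `p_j = Σ_{m<N} (-1)^m H⁰_{j-m} cos d⁰_{j-m}`. -/
theorem s10g_pj_formula (j : ℤ) {y : ℂ} (hy : y ∈ Sl.reg0) :
    Sl.pj j y = ∑ m ∈ Finset.range Sl.N, (-1 : ℂ) ^ m * (Sl.Hs (j - m) y * Complex.cos (Sl.d (j - m) y)) := by
  have h1 := s10g_alt_sum (fun i => Sl.pj i y) j Sl.N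
  have h2 : Sl.pj (j - Sl.N) y = Sl.pj j y := by
    have := Sl.s10g_pj_add_N (j - Sl.N) hy
    rw [sub_add_cancel] at this
    exact this.symm
  have h3 : ∀ m : ℕ, (-1 : ℂ) ^ m * Sl.pj (j - m) y + (-1 : ℂ) ^ m * Sl.pj (j - 1 - m) y
      = 2 * ((-1 : ℂ) ^ m * (Sl.Hs (j - m) y * Complex.cos (Sl.d (j - m) y))) := by
    intro m
    have h4 := Sl.s10g_offset_add (j - m) hy
    have : j - (m : ℤ) - 1 = j - 1 - m := by ring
    rw [this] at h4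
    linear_combination (-1 : ℂ) ^ m * h4
  rw [← Finset.sum_add_distrib] at h1
  simp only [h3, ← Finset.mul_sum, Sl.N_odd.neg_one_pow, h2] at h1
  linear_combination (-1 / 2 : ℂ) * h1

/-- the position in the frame of the normal angle. -/
theorem s10g_X_frame (j : ℤ) {y : ℂ} (hy : y ∈ Sl.reg1) :
    Sl.X j y = Sl.Hs j y • nvecC (Sl.ψ j y)
      + ((Sl.pj j y - Sl.pj (j - 1) y) / (2 * Sl.sd j y)) • evecC (Sl.ψ j y) := by
  have h := s10g_frame (Sl.X j y) (Sl.ψ j y)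
  have h1 := Sl.s10g_offset_sub j (Sl.s10g_reg1_subset_reg0 hy)
  have n := Sl.s10g_sd_ne hy j
  have h2 : (Sl.pj j y - Sl.pj (j - 1) y) / (2 * Sl.sd j y) = dotC (Sl.X j y) (evecC (Sl.ψ j y)) := by
    rw [h1]; field_simp
  rw [h2]
  exact h

end Slice

end Claimed.Agent.R269
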