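/-
Row 269, P1 Section 10.1, package BP-S10a (architect: helper230).  HOST-FREE (Mathlib + the two definitions of S10/GeoLin.lean).
The claimer owns this file; auxiliary lemmas above the statement, prefix `cyc1_`; do not change the statement.

LEAF LF-S10g-lin1 = `cyc_det_ne_zero`  (P1 Lemma 10.1, last assertion), ~300 lines.
  Let `B z = 0`, `z` real.  Rows outside `I ∪ F` give `z_k = 0` there.  Put `a = z 1_I`, `c = z 1_F`, `z = a + c`.
  (i)  `⟨x, M x⟩ = Σ_j b_j (x_j + x_{j+1})²` for `M = cycM b`  (`cyc_quad`);   `M` is symmetric.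
  (ii) `⟨x, (M - V) x⟩ = - Σ_j b_j w_j w_{j+1} (x_j / w_j - x_{j+1} / w_{j+1})²`  if `M w = V w`  (`cyc_quad_H`):
       substitute `V_j = (M w)_j / w_j`; termwise identity
       `b (x + x')² - b (w + w') (x² / w + x'² / w') = - b w w' (x / w - x' / w')²`.
  (iii) rows in `F`, paired with `c`:  `⟨c, M a⟩ + ⟨c, M c⟩ = 0`;   rows in `I`, paired with `a`:  `⟨a, (M - V) a⟩ + ⟨a, M c⟩ = 0`.
       Hence `⟨a, (M - V) a⟩ = ⟨c, M c⟩`; the left side is `≤ 0`, the right side `≥ 0`: both vanish.
  (iv) `⟨c, M c⟩ = 0` gives `c_{j+1} = - c_j` for all `j`, so `c_j = (-1)^N c_j = - c_j` (go once around; `N` odd): `c = 0`.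
       `⟨a, (M - V) a⟩ = 0` gives `a_j / w_j` constant; it vanishes at a site outside `I` (`I ≠ univ`): `a = 0`.
  Conclude with `Matrix.exists_mulVec_eq_zero_iff` (`det = 0 ↔ ∃ z ≠ 0, B z = 0`).

-/
import Claimed.Agent.R269.S10.GeoLin

set_option autoImplicit false

namespace Claimed.Agent.R269

open Finset

theorem cyc1_shift {N : ℕ} [NeZero N] (f : Fin N → ℝ) : ∑ i, f (i + 1) = ∑ i, f i :=
  Equiv.sum_comp (Equiv.addRight (1 : Fin N)) f

/-- the bilinear form of `cycM b`. -/
theorem cyc1_bilin {N : ℕ} [NeZero N] (b x y : Fin N → ℝ) :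
    ∑ i, x i * (cycM b).mulVec y i = ∑ j, b j * (x j + x (j + 1)) * (y j + y (j + 1)) := by
  simp only [cycM_mulVec]
  have h1 : ∑ i, x i * (b (i - 1) * (y (i - 1) + y i))
      = ∑ i, x (i + 1) * (b i * (y i + y (i + 1))) := by
    rw [← cyc1_shift (fun i => x i * (b (i - 1) * (y (i - 1) + y i)))]
    simp only [add_sub_cancel_right]
  calc ∑ i, x i * (b (i - 1) * (y (i - 1) + y i) + b i * (y i + y (i + 1)))
      = ∑ i, x i * (b (i - 1) * (y (i - 1) + y i)) + ∑ i, x i * (b i * (y i + y (i + 1))) := by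
        rw [← Finset.sum_add_distrib]
        exact Finset.sum_congr rfl fun i _ => by ring
    _ = ∑ j, b j * (x j + x (j + 1)) * (y j + y (j + 1)) := by
        rw [h1, ← Finset.sum_add_distrib]
        exact Finset.sum_congr rfl fun i _ => by ring

/-- (ii) of the header. -/
theorem cyc1_quad_H {N : ℕ} [NeZero N] (b V w x : Fin N → ℝ) (hw : ∀ i, 0 < w i)
    (hH : ∀ i, (cycM b).mulVec w i = V i * w i) :
    ∑ i, x i * (cycM b).mulVec x i - ∑ i, V i * x i ^ 2
      = - ∑ j, b j * w j * w (j + 1) * (x j / w j - x (j + 1) / w (j + 1)) ^ 2 := by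
  have h1 : ∑ i, V i * x i ^ 2 = ∑ i, (x i ^ 2 / w i) * (cycM b).mulVec w i := by
    refine Finset.sum_congr rfl fun i _ => ?_
    rw [hH i]
    have := (hw i).ne'
    field_simp
  rw [h1, cyc1_bilin, cyc1_bilin, ← Finset.sum_sub_distrib, ← Finset.sum_neg_distrib]
  refine Finset.sum_congr rfl fun j _ => ?_
  have h2 := (hw j).ne'
  have h3 := (hw (j + 1)).ne'
  field_simp
  ring

/-- the rows of `B z = 0`. -/
theorem cyc1_rows {N : ℕ} [NeZero N] (b V z : Fin N → ℝ) (I F : Finset (Fin N))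
    (hz : (cycB b V I F).mulVec z = 0) :
    (∀ i, i ∉ I ∪ F → z i = 0) ∧
    ∀ i ∈ I ∪ F, (cycM b).mulVec z i = if i ∈ I then V i * z i else 0 := by
  have h0 : ∀ i, i ∉ I ∪ F → z i = 0 := by
    intro i hi
    have h := congrFun hz i
    simp only [Matrix.mulVec, dotProduct, cycB, hi, false_and, if_false, ite_mul, one_mul, zero_mul,
      Finset.sum_ite_eq, Finset.mem_univ, if_true, Pi.zero_apply] at h
    exact h
  refine ⟨h0, fun i hi => ?_⟩
  have h := congrFun hz i
  have e : (cycB b V I F).mulVec z i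
      = (cycM b).mulVec z i - (if i ∈ I then V i * z i else 0) := by
    simp only [Matrix.mulVec, dotProduct]
    have hk : ∀ k, cycB b V I F i k * z k
        = cycM b i k * z k - (if i = k then (if i ∈ I then V i * z i else 0) else 0) := by
      intro k
      by_cases hk : k ∈ I ∪ F
      · simp only [cycB, hi, hk, and_self, if_true]
        by_cases hik : i = k
        · subst hik
          by_cases hiI : i ∈ I <;> simp [hiI, sub_mul]
        · simp [hik]
      · have hik : i ≠ k := fun h => hk (h ▸ hi)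
        simp [cycB, hk, hik, h0 k hk]
    simp only [hk, Finset.sum_sub_distrib, Finset.sum_ite_eq, Finset.mem_univ, if_true]
  rw [e, Pi.zero_apply, sub_eq_zero] at h
  exact h

open Fin.NatCast in
/-- going around the cycle. -/
theorem cyc1_around {N : ℕ} [NeZero N] (q : Fin N → ℝ) (s : ℝ) (h : ∀ j, q (j + 1) = s * q j) (k : ℕ) :
    q ((k : ℕ) : Fin N) = s ^ k * q 0 := by
  induction k with
  | zero => simp
  | succ k ih =>
    rw [Nat.cast_succ, h, ih]
    ring

open Fin.NatCast in
/-- **LF-S10g-lin1.**  Invertibility of the modified matrices on the real collar. -/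
theorem cyc_det_ne_zero {N : ℕ} [NeZero N] (hodd : Odd N) (h3 : 3 ≤ N) (b V w : Fin N → ℝ)
    (hb : ∀ i, 0 < b i) (hw : ∀ i, 0 < w i) (hH : ∀ i, (cycM b).mulVec w i = V i * w i)
    (I F : Finset (Fin N)) (hI : I ≠ Finset.univ) (hIF : Disjoint I F) :
    (cycB b V I F).det ≠ 0 := by
  intro hdet
  obtain ⟨z, hz0, hz⟩ := Matrix.exists_mulVec_eq_zero_iff.2 hdet
  apply hz0
  obtain ⟨hout, hrow⟩ := cyc1_rows b V z I F hz
  have hdisj : ∀ i, i ∈ I → i ∉ F := fun i hi hF => (Finset.disjoint_left.1 hIF hi) hF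
  set a : Fin N → ℝ := fun i => if i ∈ I then z i else 0 with ha
  set c : Fin N → ℝ := fun i => if i ∈ F then z i else 0 with hc
  have hzac : z = a + c := by
    funext i
    simp only [ha, hc, Pi.add_apply]
    by_cases hiI : i ∈ I
    · simp [hiI, hdisj i hiI]
    · by_cases hiF : i ∈ F
      · simp [hiI, hiF]
      · simp [hiI, hiF, hout i (by simp [hiI, hiF])]
  have hMz : ∀ i, (cycM b).mulVec z i = (cycM b).mulVec a i + (cycM b).mulVec c i := by
    intro i
    rw [hzac, Matrix.mulVec_add]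
    rfl
  -- the two pairings
  have E1 : ∑ i, c i * (cycM b).mulVec z i = 0 := by
    refine Finset.sum_eq_zero fun i _ => ?_
    by_cases hiF : i ∈ F
    · have hiI : i ∉ I := fun h => hdisj i h hiF
      rw [hrow i (by simp [hiF])]
      simp [hiI]
    · simp [hc, hiF]
  have E2 : ∑ i, a i * (cycM b).mulVec z i = ∑ i, V i * a i ^ 2 := by
    refine Finset.sum_congr rfl fun i _ => ?_
    by_cases hiI : i ∈ I
    · rw [hrow i (by simp [hiI])]
      simp only [ha, hiI, if_true]
      ring
    · simp [ha, hiI]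
  simp only [hMz, mul_add, Finset.sum_add_distrib] at E1 E2
  have hsymm : ∑ i, c i * (cycM b).mulVec a i = ∑ i, a i * (cycM b).mulVec c i := by
    rw [cyc1_bilin, cyc1_bilin]
    exact Finset.sum_congr rfl fun i _ => by ring
  have hQ := cyc1_quad_H b V w a hw hH
  have hcc := cyc1_bilin b c c
  have hcc0 : ∀ j ∈ (Finset.univ : Finset (Fin N)), 0 ≤ b j * (c j + c (j + 1)) * (c j + c (j + 1)) :=
    fun j _ => by
      have := mul_nonneg (hb j).le (mul_self_nonneg (c j + c (j + 1)))
      rw [mul_assoc]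
      exact this
  have haa0 : ∀ j ∈ (Finset.univ : Finset (Fin N)),
      0 ≤ b j * w j * w (j + 1) * (a j / w j - a (j + 1) / w (j + 1)) ^ 2 :=
    fun j _ => mul_nonneg (mul_nonneg (mul_nonneg (hb j).le (hw j).le) (hw _).le) (sq_nonneg _)
  have hS1 := Finset.sum_nonneg hcc0
  have hS2 := Finset.sum_nonneg haa0
  have hz1 : ∑ j, b j * (c j + c (j + 1)) * (c j + c (j + 1)) = 0 := by linarith
  have hz2 : ∑ j, b j * w j * w (j + 1) * (a j / w j - a (j + 1) / w (j + 1)) ^ 2 = 0 := by linarith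
  rw [Finset.sum_eq_zero_iff_of_nonneg hcc0] at hz1
  rw [Finset.sum_eq_zero_iff_of_nonneg haa0] at hz2
  -- `c = 0`
  have hc1 : ∀ j, c (j + 1) = (-1) * c j := by
    intro j
    have h := hz1 j (Finset.mem_univ _)
    rw [mul_assoc, mul_eq_zero, mul_self_eq_zero] at h
    rcases h with h | h
    · exact absurd h (hb j).ne'
    · linarith
  have hc00 : c 0 = 0 := by
    have h := cyc1_around c (-1) hc1 N
    rw [Fin.natCast_self, hodd.neg_one_pow] at h
    linarith
  have hcz : ∀ j, c j = 0 := by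
    intro j
    have h := cyc1_around c (-1) hc1 (j : ℕ)
    rw [Fin.cast_val_eq_self, hc00, mul_zero] at h
    exact h
  -- `a = 0`
  have ha1 : ∀ j, a (j + 1) / w (j + 1) = 1 * (a j / w j) := by
    intro j
    have h := hz2 j (Finset.mem_univ _)
    have hpos : 0 < b j * w j * w (j + 1) := mul_pos (mul_pos (hb j) (hw j)) (hw _)
    rw [mul_eq_zero] at h
    rcases h with h | h
    · exact absurd h hpos.ne'
    · have := pow_eq_zero_iff (two_ne_zero) |>.1 h
      linarith
  have hconst : ∀ j, a j / w j = a 0 / w 0 := by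
    intro j
    have h := cyc1_around (fun j => a j / w j) 1 ha1 (j : ℕ)
    simp only [Fin.cast_val_eq_self, one_pow, one_mul] at h
    exact h
  obtain ⟨i₀, hi₀⟩ : ∃ i₀, i₀ ∉ I := by
    by_contra hcon
    push Not at hcon
    exact hI (Finset.eq_univ_iff_forall.2 hcon)
  have hq0 : a 0 / w 0 = 0 := by
    rw [← hconst i₀]
    simp [ha, hi₀]
  have haz : ∀ j, a j = 0 := by
    intro j
    have h := hconst j
    rw [hq0, div_eq_zero_iff] at h
    rcases h with h | h
    · exact h
    · exact absurd h (hw j).ne'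
  funext j
  rw [hzac]
  simp [haz j, hcz j]

end Claimed.Agent.R269
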