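/-
Row 269, P1 Section 10.1, package BP-S10a (architect: helper230).  GeoReal: the regular sets are open, the determinants are holomorphic,
the real axis is regular for a nice slice (P1 Lemma 10.1, through the host-free `cyc_det_ne_zero`).
-/
import Claimed.Agent.R269.S10.GeoChord
import Claimed.Agent.R269.S10.GeoLin1

set_option autoImplicit false

namespace Claimed.Agent.R269

open Complex ComplexConjugate Metric Set Filter Topology
open scoped Real ENNReal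

local notation "⟪" i "⟫" => ((Fin.val i : ℕ) : ℤ)

/-- the determinant of a matrix with holomorphic entries is holomorphic. -/
theorem s10g_det_diff {n : ℕ} {M : ℂ → Matrix (Fin n) (Fin n) ℂ} {S : Set ℂ}
    (h : ∀ i k, DifferentiableOn ℂ (fun y => M y i k) S) : DifferentiableOn ℂ (fun y => (M y).det) S := by
  simp only [Matrix.det_apply]
  refine DifferentiableOn.fun_sum fun σ _ => ?_
  refine DifferentiableOn.const_smul ?_ _
  exact DifferentiableOn.fun_finsetProd fun i _ => h _ _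

theorem s10g_eq_ofReal_re' {z : ℂ} (h : z.im = 0) : z = ((z.re : ℝ) : ℂ) := Complex.ext (by simp) (by simp [h])

namespace Slice

variable (Sl : Slice)

/-! ### openness, holomorphy of the determinants -/

theorem s10g_isOpen_reg1 : IsOpen Sl.reg1 := by
  have h : Sl.reg1 = Sl.reg0 ∩ ⋂ i : Fin Sl.N, ((Sl.strip ∩ Sl.sd ⟪i⟫ ⁻¹' {0}ᶜ) ∩ (Sl.reg0 ∩ Sl.ℓ ⟪i⟫ ⁻¹' {0}ᶜ)) := by
    ext y
    simp only [reg1, reg0, mem_ofPred_eq, mem_iInter, mem_inter_iff, mem_preimage, mem_compl_iff, mem_singleton_iff]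
    constructor
    · exact fun h => ⟨⟨h.1, fun i => (h.2 i).1⟩, fun i => ⟨⟨h.1, (h.2 i).2.1⟩, ⟨h.1, fun i => (h.2 i).1⟩, (h.2 i).2.2⟩⟩
    · exact fun h => ⟨h.1.1, fun i => ⟨h.1.2 i, (h.2 i).1.2, (h.2 i).2.2⟩⟩
  rw [h]
  refine Sl.s10g_isOpen_reg0.inter (isOpen_iInter_of_finite fun i => IsOpen.inter ?_ ?_)
  · exact (Sl.s10g_sd_diff ⟪i⟫).continuousOn.isOpen_inter_preimage Sl.s10g_isOpen_strip isOpen_compl_singleton
  · exact (Sl.s10g_ℓ_diff ⟪i⟫).continuousOn.isOpen_inter_preimage Sl.s10g_isOpen_reg0 isOpen_compl_singleton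

theorem s10g_V_diff (j : ℤ) : DifferentiableOn ℂ (Sl.V j) Sl.reg1 := by
  intro y hy
  have n2 := Sl.s10g_sd_ne hy j
  have n3 : (Sl.Sh.G.c : ℂ) ≠ 0 := by exact_mod_cast Sl.Sh.G.c_pos.ne'
  have h1 := (Sl.s10g_fj_diff j y hy.1).mono (fun z (hz : z ∈ Sl.reg1) => hz.1)
  have h2 := (Sl.s10g_sd_diff j y hy.1).mono (fun z (hz : z ∈ Sl.reg1) => hz.1)
  exact ((h1.pow 3).const_mul 2).div (h2.const_mul _) (mul_ne_zero n3 n2)

theorem s10g_ℓ_inv_diff (j : ℤ) : DifferentiableOn ℂ (fun y => (Sl.ℓ j y)⁻¹) Sl.reg1 := fun y hy =>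
  ((Sl.s10g_ℓ_diff j y (Sl.s10g_reg1_subset_reg0 hy)).mono Sl.s10g_reg1_subset_reg0).inv (Sl.s10g_ℓ_ne hy j)

theorem s10g_detB_diff (I F : Finset (Fin Sl.N)) : DifferentiableOn ℂ (fun y => (Sl.Bmat I F y).det) Sl.reg1 := by
  have h1 : DifferentiableOn ℂ (fun y => (cycB (fun i : Fin Sl.N => (Sl.ℓ ⟪i⟫ y)⁻¹)
      (fun i : Fin Sl.N => Sl.V ⟪i⟫ y) I F).det) Sl.reg1 := by
    refine s10g_det_diff fun i k => ?_
    have hb : ∀ i : Fin Sl.N, DifferentiableOn ℂ (fun y => (Sl.ℓ ⟪i⟫ y)⁻¹) Sl.reg1 := fun i => Sl.s10g_ℓ_inv_diff _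
    have hV : ∀ i : Fin Sl.N, DifferentiableOn ℂ (fun y => Sl.V ⟪i⟫ y) Sl.reg1 := fun i => Sl.s10g_V_diff _
    have hc : ∀ c : ℂ, DifferentiableOn ℂ (fun _ : ℂ => c) Sl.reg1 := fun c => differentiableOn_const c
    simp only [cycB, cycM]
    split_ifs <;>
      first
        | exact hc _
        | (repeat' first
            | apply DifferentiableOn.fun_sub
            | apply DifferentiableOn.fun_add
            | exact hb _
            | exact hV _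
            | exact hc _)
  exact h1.congr fun y hy => by rw [Sl.s10g_Bmat_eq (Sl.s10g_reg1_subset_reg0 hy)]

theorem s10g_isOpen_reg : IsOpen Sl.reg := by
  have h : Sl.reg = Sl.reg1 ∩ ⋂ I : Finset (Fin Sl.N), ⋂ F : Finset (Fin Sl.N),
      {y | y ∈ Sl.reg1 ∧ (Sl.Adm I F → (Sl.Bmat I F y).det ≠ 0)} := by
    ext y
    simp only [reg, reg1, mem_ofPred_eq, mem_iInter, mem_inter_iff]
    constructor
    · exact fun h => ⟨⟨h.1, h.2.1⟩, fun I F => ⟨⟨h.1, h.2.1⟩, h.2.2 I F⟩⟩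
    · exact fun h => ⟨h.1.1, h.1.2, fun I F => (h.2 I F).2⟩
  rw [h]
  refine Sl.s10g_isOpen_reg1.inter (isOpen_iInter_of_finite fun I => isOpen_iInter_of_finite fun F => ?_)
  by_cases hadm : Sl.Adm I F
  · have : {y | y ∈ Sl.reg1 ∧ (Sl.Adm I F → (Sl.Bmat I F y).det ≠ 0)}
        = Sl.reg1 ∩ (fun y => (Sl.Bmat I F y).det) ⁻¹' {0}ᶜ := by
      ext y
      simp [hadm]
    rw [this]
    exact (Sl.s10g_detB_diff I F).continuousOn.isOpen_inter_preimage Sl.s10g_isOpen_reg1 isOpen_compl_singleton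
  · have : {y | y ∈ Sl.reg1 ∧ (Sl.Adm I F → (Sl.Bmat I F y).det ≠ 0)} = Sl.reg1 := by
      ext y
      simp [hadm]
    rw [this]
    exact Sl.s10g_isOpen_reg1

/-! ### the real axis -/

variable {Sl}

theorem s10g_ne_zero_of_re_pos {z : ℂ} (h : 0 < z.re) : z ≠ 0 := fun h0 => by rw [h0] at h; simp at h

theorem Nice.s10g_real_mem_reg1 (hN : Sl.Nice) (x : ℝ) : (x : ℂ) ∈ Sl.reg1 :=
  ⟨Sl.s10g_real_mem_strip x, fun i => by
    obtain ⟨-, -, -, h1, -, h2, -, h3, -⟩ := hN.real x ⟪i⟫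
    exact ⟨s10g_ne_zero_of_re_pos h1, s10g_ne_zero_of_re_pos h2, s10g_ne_zero_of_re_pos h3⟩⟩

/-- `w_j > 0` on the real axis. -/
theorem Nice.s10g_w_real (hN : Sl.Nice) (x : ℝ) (j : ℤ) : 0 < (Sl.w j x).re ∧ (Sl.w j x).im = 0 := by
  obtain ⟨-, h1, h1', h2, h2', h3, h3', -, -⟩ := hN.real x j
  have e : Sl.w j x = ((Sl.Sh.G.c * (Sl.sd j x).re * ((Sl.fj j x).re)⁻¹ ^ 2 * (Sl.s' j x).re : ℝ) : ℂ) := by
    unfold Slice.w
    rw [s10g_eq_ofReal_re' h1', s10g_eq_ofReal_re' h2', s10g_eq_ofReal_re' h3']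
    push_cast
    simp
  rw [e]
  have hc := Sl.Sh.G.c_pos
  exact ⟨by rw [Complex.ofReal_re]; positivity, Complex.ofReal_im _⟩

theorem Nice.s10g_V_real (hN : Sl.Nice) (x : ℝ) (j : ℤ) : (Sl.V j x).im = 0 := by
  obtain ⟨-, -, -, h2, h2', h3, h3', -, -⟩ := hN.real x j
  have e : Sl.V j x = ((2 * (Sl.fj j x).re ^ 3 / (Sl.Sh.G.c * (Sl.sd j x).re) : ℝ) : ℂ) := by
    unfold Slice.V
    rw [s10g_eq_ofReal_re' h2', s10g_eq_ofReal_re' h3']
    push_cast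
    simp
  rw [e]
  exact Complex.ofReal_im _

/-- the modified matrices are invertible on the real axis (P1 Lemma 10.1). -/
theorem Nice.s10g_real_det_ne (hN : Sl.Nice) (x : ℝ) (I F : Finset (Fin Sl.N)) (h : Sl.Adm I F) :
    (Sl.Bmat I F x).det ≠ 0 := by
  have hx := hN.s10g_real_mem_reg1 x
  have hx0 := Sl.s10g_reg1_subset_reg0 hx
  set b : Fin Sl.N → ℝ := fun i => ((Sl.ℓ ⟪i⟫ x).re)⁻¹ with hb
  set V : Fin Sl.N → ℝ := fun i => (Sl.V ⟪i⟫ x).re with hV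
  set w : Fin Sl.N → ℝ := fun i => (Sl.w ⟪i⟫ x).re with hw
  have eb : ∀ i : Fin Sl.N, (Sl.ℓ ⟪i⟫ x)⁻¹ = ((b i : ℝ) : ℂ) := by
    intro i
    obtain ⟨-, -, -, -, -, -, -, -, h4⟩ := hN.real x ⟪i⟫
    rw [hb]
    push_cast
    rw [← s10g_eq_ofReal_re' h4]
  have eV : ∀ i : Fin Sl.N, Sl.V ⟪i⟫ x = ((V i : ℝ) : ℂ) := fun i => s10g_eq_ofReal_re' (hN.s10g_V_real x _)
  have ew : ∀ i : Fin Sl.N, Sl.w ⟪i⟫ x = ((w i : ℝ) : ℂ) := fun i => s10g_eq_ofReal_re' (hN.s10g_w_real x _).2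
  have hH : ∀ i, (cycM b).mulVec w i = V i * w i := by
    intro i
    have h1 := Sl.s10g_M₀_w hx i
    rw [← Sl.s10g_V_mul_w ⟪i⟫ hx, Sl.s10g_M₀_eq hx0, cycM_mulVec] at h1
    simp only [eb, eV, ew] at h1
    rw [cycM_mulVec]
    exact_mod_cast h1.symm
  have hdet := cyc_det_ne_zero Sl.N_odd Sl.N_ge b V w
    (fun i => inv_pos.2 (hN.real x ⟪i⟫).2.2.2.2.2.2.2.1) (fun i => (hN.s10g_w_real x _).1) hH I F h.1 h.2
  rw [Sl.s10g_Bmat_eq hx0]
  have e : cycB (fun i : Fin Sl.N => (Sl.ℓ ⟪i⟫ x)⁻¹) (fun i : Fin Sl.N => Sl.V ⟪i⟫ x) I F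
      = (cycB b V I F).map Complex.ofRealHom := by
    rw [cycB_map]
    simp only [eb, eV, Complex.ofRealHom_eq_coe]
  rw [e]
  have e2 : ((cycB b V I F).map Complex.ofRealHom).det = Complex.ofRealHom (cycB b V I F).det :=
    (RingHom.map_det Complex.ofRealHom (cycB b V I F)).symm
  rw [e2]
  simpa using hdet

theorem Nice.s10g_real_mem_reg (hN : Sl.Nice) (x : ℝ) : (x : ℂ) ∈ Sl.reg :=
  ⟨Sl.s10g_real_mem_strip x, (hN.s10g_real_mem_reg1 x).2, fun I F h => hN.s10g_real_det_ne x I F h⟩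

end Slice

end Claimed.Agent.R269
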