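/-
Row 269, P1 Section 10: THE THREE-POINT RELATION of the lift (BP-S10b-contact).   Statements: helper34.   Base geometry: helper230's S10/Geo*.lean (all black boxes).

`rel3 a b c = (Γ c - Γ b) × refl_{φ b} (Γ b - Γ a)`: no angles of lines, no square roots.   `Sh = Sl.Sh`, `T = Sh.T` the joint tube, `lift = 𝔰`.

* `crossC`, `reflC` and their trigonometry: PROVED.
* LEAF LF-S10j-rel  : `s10j_rel3` : `rel3 (𝔰(y-t,t)) (𝔰(y,t)) (𝔰(y+t,t)) = 0` on the whole tube (complex `t`).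
* LEAF LF-S10j-an   : `s10j_Γ_an`, `s10j_rel3_an`, `s10j_rel3_deriv`.
* LEAF LF-S10j-conj : `s10j_f_conj`, `s10j_Γ_conj`, `s10j_tr_conj`.

PLANS.
(rel)  fix `t`.  `U_t := {y | (y-t,t), (y,t), (y+t,t) ∈ T}` is open (`Sh.s9k_T_open`, continuity) and convex (membership in `T = G.tube ρ` is `ofReal (Im y) < hX t ∧ ofReal (-Im y) < hX (conj t)`:
       for `w` on a segment `Im w ≤ max`, `-Im w ≤ max`; `ENNReal.ofReal` is monotone).
       `Φ y := rel3 (𝔰(y-t,t)) (𝔰(y,t)) (𝔰(y+t,t))` is meromorphic on `U_t`: unfold `rel3, crossC, reflC, dotC, nvecC`; `Sh.Γ_mero.1/.2` composed with the analytic maps `y ↦ 𝔰(y+c,t)` (`MeromorphicAt.comp_analyticAt`; pattern: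
       `Slice.s10g_X_mero₁`, S10/GeoCurve.lean); `cos`, `sin` of the analytic function `φ (𝔰(y,t))` are analytic, hence meromorphic; sums, products.
       For `|Im y| < s/8`: the three points are in `Sh.baseD = hstrip (s/4) ×ˢ ball 0 ρ` (`|Im t| < s/8`).  There `Sh.s10g_Γ_lift : Γ (lift z) = G.X0 z`, `Sh.s10g_dict : φ (lift z) = G.ψm z = (Θ(y-t/2,t) + Θ(y+t/2,t))/2`,
       `G.s10g_X0_dot_in/out`.  With `Θ₋ = Θ(y-t/2,t)`, `Θ₊ = Θ(y+t/2,t)`: `X0(y,t)` and `X0(y-t,t)` have the same product `p(y-t/2,t)` with `nvecC Θ₋` (in at `y`, out at `y-t`), so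
       `Γ(𝔰(y,t)) - Γ(𝔰(y-t,t)) = λ • evecC Θ₋` (`s10j_of_dot_nvec`); likewise `Γ(𝔰(y+t,t)) - Γ(𝔰(y,t)) = μ • evecC Θ₊`; `2 φ(𝔰(y,t)) - Θ₋ = Θ₊`; `reflC_smul`, `reflC_evec`, `crossC_smul_*`, `crossC_evec`, `sin 0 = 0`.
       So `Φ = 0` near `0 ∈ U_t`; `s10g_mero_zero` (S10/GeoTool.lean) with continuity of `Φ` at `y` (`s10j_Γ_an` at the three sites, `lift_diff`, `φ_diff`).
(an)   `f` is continuous on the open set `D` (`Sl.s10g_f_diff`, `Sl.s10g_isOpen_D`), so `f ≠ 0` near `s`; `Sh.Γ_deriv` gives differentiability of `Γ` on a neighbourhood; `DifferentiableOn.analyticAt`.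
       `s10j_rel3_an`: compositions with the projections (`analyticAt_fst`, `analyticAt_snd`, `AnalyticAt.comp`), `φ` analytic on `D`, `Complex.cos`, `Complex.sin` entire; or: differentiable on an open product set ⇒ analytic
       (`DifferentiableOn.analyticAt` holds for functions on any complex normed space `E → F`? NO: only for `ℂ → F`; use `SCV.analyticOnNhd_of_differentiableOn` of Lib/SCV0.lean on `ℂ × ℂ`, or compose analytic maps directly).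
       `s10j_rel3_deriv`: `rel3 a b c' = (Γ c').1 * v.2 - (Γ c').2 * v.1 - const`, `Sl.s10g_Γ_hasDerivAt₁/₂`.
(conj) `f (conj s) = conj (f s)`: `HasDerivAt.conj_conj` / `deriv_conj_conj` + `φ_conj` on the open symmetric set `D`.
       `Γ (conj s) = conj (Γ s)`: copy the proof of `Slice.s10g_Γ_per` (S10/GeoCurve.lean): `s ↦ conj ((Γ (conj s)).1) - (Γ s).1` is meromorphic on `D` (`MeromorphicAt` of `conj ∘ g ∘ conj`: from the definition,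
       `(z - x)^n • g` analytic ⇒ conj-conj analytic: `AnalyticAt.conj_conj`-type lemma or `DifferentiableOn` + `DifferentiableAt.conj_conj`), vanishes near `0`
       (`Γ_base`, `G.Γ0 y = suppPt hc (Θ y 0)`, `Θ_conj`, `hc_conj`, `G.s4c_deriv_hc_conj`, or `G.s4c_X0_base` if it has a conj field), continuous at `s`.
       `s10j_tr_conj`: everything is a polynomial with real coefficients in `sin`, `cos`, `Γ`: `Complex.sin_conj`, `Complex.cos_conj`, `map_sub`, `map_mul`.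
-/
import Claimed.Agent.R269.S10.GeoReal
import Claimed.Agent.R269.S9.PassageMax
import Claimed.Agent.R269.ShapeBasic

set_option autoImplicit false

namespace Claimed.Agent.R269

open Complex ComplexConjugate Filter Topology Set Metric
open scoped ENNReal Real

/-! ## algebra (proved) -/

/-- complex bilinear cross product. -/
def crossC (u v : ℂ × ℂ) : ℂ := u.1 * v.2 - u.2 * v.1

/-- reflection in the line with normal `n_ψ` (complexified). -/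
noncomputable def reflC (ψ : ℂ) (u : ℂ × ℂ) : ℂ × ℂ := u - (2 * dotC u (nvecC ψ)) • nvecC ψ

theorem crossC_evec (a b : ℂ) : crossC (evecC a) (evecC b) = Complex.sin (b - a) := by
  simp only [crossC, evecC, Complex.sin_sub]; ring

theorem reflC_evec (ψ θ : ℂ) : reflC ψ (evecC θ) = evecC (2 * ψ - θ) := by
  have h1 : Complex.sin (2 * ψ - θ) = 2 * Complex.sin ψ * Complex.cos ψ * Complex.cos θ
      - (2 * Complex.cos ψ ^ 2 - 1) * Complex.sin θ := by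
    rw [Complex.sin_sub, Complex.sin_two_mul, Complex.cos_two_mul]
  have h2 : Complex.cos (2 * ψ - θ) = (2 * Complex.cos ψ ^ 2 - 1) * Complex.cos θ
      + 2 * Complex.sin ψ * Complex.cos ψ * Complex.sin θ := by
    rw [Complex.cos_sub, Complex.sin_two_mul, Complex.cos_two_mul]
  have h3 := Complex.sin_sq_add_cos_sq ψ
  apply Prod.ext
  · simp only [reflC, evecC, nvecC, dotC, Prod.fst_sub, Prod.smul_fst, smul_eq_mul, h1]
    ring
  · simp only [reflC, evecC, nvecC, dotC, Prod.snd_sub, Prod.smul_snd, smul_eq_mul, h2]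
    linear_combination (-2 * Complex.cos θ) * h3

theorem reflC_smul (ψ c : ℂ) (u : ℂ × ℂ) : reflC ψ (c • u) = c • reflC ψ u := by
  apply Prod.ext <;>
  simp only [reflC, dotC, Prod.fst_sub, Prod.snd_sub, Prod.smul_fst, Prod.smul_snd, smul_eq_mul] <;> ring

theorem crossC_smul_left (c : ℂ) (u v : ℂ × ℂ) : crossC (c • u) v = c * crossC u v := by
  simp only [crossC, Prod.smul_fst, Prod.smul_snd, smul_eq_mul]; ring

theorem crossC_smul_right (c : ℂ) (u v : ℂ × ℂ) : crossC u (c • v) = c * crossC u v := by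
  simp only [crossC, Prod.smul_fst, Prod.smul_snd, smul_eq_mul]; ring

/-- a vector orthogonal to `n_θ` is a multiple of `e_θ`. -/
theorem s10j_of_dot_nvec (u : ℂ × ℂ) (θ : ℂ) (h : dotC u (nvecC θ) = 0) :
    u = dotC u (evecC θ) • evecC θ := by
  have h1 := s10g_frame u θ
  rw [h, zero_smul, zero_add] at h1
  exact h1

theorem evecC_add_two_pi (θ : ℂ) (k : ℤ) : evecC (θ + k * (2 * π)) = evecC θ := by
  simp only [evecC, Complex.sin_add_int_mul_two_pi, Complex.cos_add_int_mul_two_pi]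

theorem nvecC_add_two_pi (θ : ℂ) (k : ℤ) : nvecC (θ + k * (2 * π)) = nvecC θ := by
  simp only [nvecC, Complex.sin_add_int_mul_two_pi, Complex.cos_add_int_mul_two_pi]

/-- `reflC` depends on `ψ` only modulo `2π`. -/
theorem reflC_add_two_pi (ψ : ℂ) (k : ℤ) (u : ℂ × ℂ) : reflC (ψ + k * (2 * π)) u = reflC ψ u := by
  simp only [reflC, nvecC_add_two_pi]

/-- the three-point relation: `Γ c - Γ b` is parallel to the reflection of `Γ b - Γ a` at `Γ b`. -/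
noncomputable def Shape.rel3 (Sh : Shape) (a b c : ℂ) : ℂ :=
  crossC (Sh.Γ c - Sh.Γ b) (reflC (Sh.φ b) (Sh.Γ b - Sh.Γ a))

/-- Schwarz reflection of an analytic function. -/
theorem s10j_an_conj {h : ℂ → ℂ} {p : ℂ} (hh : AnalyticAt ℂ h (conj p)) :
    AnalyticAt ℂ (fun s => conj (h (conj s))) p := by
  rw [Complex.analyticAt_iff_eventually_differentiableAt] at hh ⊢
  have hc : Tendsto (fun s : ℂ => conj s) (𝓝 p) (𝓝 (conj p)) := Complex.continuous_conj.tendsto p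
  filter_upwards [hc.eventually hh] with s hs
  exact differentiableAt_conj_conj_iff.2 hs

/-- Schwarz reflection of a meromorphic function. -/
theorem s10j_mero_conj {g : ℂ → ℂ} {p : ℂ} (hg : MeromorphicAt g (conj p)) :
    MeromorphicAt (fun s => conj (g (conj s))) p := by
  obtain ⟨n, hn⟩ := hg
  refine ⟨n, ?_⟩
  refine (s10j_an_conj hn).congr ?_
  filter_upwards with s
  simp [map_mul, map_pow, map_sub]

/-- membership in the tube depends monotonically on the imaginary part. -/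
theorem Shape.s10j_T_of_im (Sh : Shape) {y₁ y₂ w t : ℂ} (h₁ : (y₁, t) ∈ Sh.T) (h₂ : (y₂, t) ∈ Sh.T)
    (hlo : min y₁.im y₂.im ≤ w.im) (hhi : w.im ≤ max y₁.im y₂.im) : (w, t) ∈ Sh.T := by
  refine ⟨h₁.1, ?_, ?_⟩
  · rcases le_total y₁.im y₂.im with h | h
    · rw [max_eq_right h] at hhi
      exact lt_of_le_of_lt (ENNReal.ofReal_le_ofReal hhi) h₂.2.1
    · rw [max_eq_left h] at hhi
      exact lt_of_le_of_lt (ENNReal.ofReal_le_ofReal hhi) h₁.2.1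
  · rcases le_total y₁.im y₂.im with h | h
    · rw [min_eq_left h] at hlo
      exact lt_of_le_of_lt (ENNReal.ofReal_le_ofReal (neg_le_neg hlo)) h₁.2.2
    · rw [min_eq_right h] at hlo
      exact lt_of_le_of_lt (ENNReal.ofReal_le_ofReal (neg_le_neg hlo)) h₂.2.2

/-- the fibres of the tube are convex. -/
theorem Shape.s10j_T_convex (Sh : Shape) (c t : ℂ) : Convex ℝ {y : ℂ | (y + c, t) ∈ Sh.T} := by
  intro y₁ h₁ y₂ h₂ a b ha hb hab
  have e : (a • y₁ + b • y₂ + c).im = a * (y₁ + c).im + b * (y₂ + c).im := by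
    have : c.im = (a + b) * c.im := by rw [hab, one_mul]
    simp only [Complex.add_im, Complex.real_smul, Complex.mul_im, Complex.ofReal_re,
      Complex.ofReal_im, zero_mul, add_zero]
    linarith
  refine Sh.s10j_T_of_im h₁ h₂ ?_ ?_
  · rw [e]
    have h1 := min_le_left (y₁ + c).im (y₂ + c).im
    have h2 := min_le_right (y₁ + c).im (y₂ + c).im
    have : min (y₁ + c).im (y₂ + c).im = (a + b) * min (y₁ + c).im (y₂ + c).im := by
      rw [hab, one_mul]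
    nlinarith
  · rw [e]
    have h1 := le_max_left (y₁ + c).im (y₂ + c).im
    have h2 := le_max_right (y₁ + c).im (y₂ + c).im
    have : max (y₁ + c).im (y₂ + c).im = (a + b) * max (y₁ + c).im (y₂ + c).im := by
      rw [hab, one_mul]
    nlinarith

theorem Shape.s10j_T_fibre_open (Sh : Shape) (c t : ℂ) : IsOpen {y : ℂ | (y + c, t) ∈ Sh.T} :=
  Sh.s9k_T_open.preimage (f := fun y : ℂ => (y + c, t)) (by fun_prop)

theorem Shape.s10j_lift_an (Sh : Shape) {c t y : ℂ} (h : (y + c, t) ∈ Sh.T) :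
    AnalyticAt ℂ (fun y : ℂ => Sh.lift (y + c, t)) y := by
  have hd : DifferentiableOn ℂ (fun y : ℂ => Sh.lift (y + c, t)) {y : ℂ | (y + c, t) ∈ Sh.T} :=
    Sh.lift_diff.comp (f := fun y : ℂ => (y + c, t)) (by fun_prop) (fun y hy => hy)
  exact hd.analyticAt ((Sh.s10j_T_fibre_open c t).mem_nhds h)

namespace Slice

variable (Sl : Slice)

/-! ## LEAF LF-S10j-an -/

theorem s10j_Γ_an {s : ℂ} (hs : s ∈ Sl.Sh.D) (hf : Sl.Sh.f s ≠ 0) : AnalyticAt ℂ Sl.Sh.Γ s := by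
  have hopen : IsOpen (estrip Sl.Sh.G.Hs ∩ Sl.Sh.f ⁻¹' {0}ᶜ) :=
    Sl.s10g_f_diff.continuousOn.isOpen_inter_preimage Sl.s10g_isOpen_D isOpen_compl_singleton
  have hd : DifferentiableOn ℂ Sl.Sh.Γ (estrip Sl.Sh.G.Hs ∩ Sl.Sh.f ⁻¹' {0}ᶜ) := fun z hz =>
    (Sl.Sh.Γ_deriv z hz.1 hz.2).differentiableAt.differentiableWithinAt
  exact hd.analyticAt (hopen.mem_nhds ⟨hs, hf⟩)

/-- analyticity of the relation at a triple of regular points. -/
theorem s10j_rel3_an {a b c : ℂ} (ha : a ∈ Sl.Sh.D) (hb : b ∈ Sl.Sh.D) (hc : c ∈ Sl.Sh.D)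
    (fa : Sl.Sh.f a ≠ 0) (fb : Sl.Sh.f b ≠ 0) (fc : Sl.Sh.f c ≠ 0) :
    AnalyticAt ℂ (fun p : (ℂ × ℂ) × ℂ => Sl.Sh.rel3 p.1.1 p.1.2 p.2) ((a, b), c) := by
  have hφ : AnalyticAt ℂ Sl.Sh.φ b := Sl.Sh.φ_diff.analyticAt (Sl.s10g_isOpen_D.mem_nhds hb)
  have pa : AnalyticAt ℂ (fun p : (ℂ × ℂ) × ℂ => p.1.1) ((a, b), c) :=
    analyticAt_fst.comp_of_eq analyticAt_fst rfl
  have pb : AnalyticAt ℂ (fun p : (ℂ × ℂ) × ℂ => p.1.2) ((a, b), c) :=
    analyticAt_snd.comp_of_eq analyticAt_fst rfl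
  have pc : AnalyticAt ℂ (fun p : (ℂ × ℂ) × ℂ => p.2) ((a, b), c) := analyticAt_snd
  have Ga : AnalyticAt ℂ (fun p : (ℂ × ℂ) × ℂ => Sl.Sh.Γ p.1.1) ((a, b), c) :=
    (Sl.s10j_Γ_an ha fa).comp_of_eq pa rfl
  have Gb : AnalyticAt ℂ (fun p : (ℂ × ℂ) × ℂ => Sl.Sh.Γ p.1.2) ((a, b), c) :=
    (Sl.s10j_Γ_an hb fb).comp_of_eq pb rfl
  have Gc : AnalyticAt ℂ (fun p : (ℂ × ℂ) × ℂ => Sl.Sh.Γ p.2) ((a, b), c) :=
    (Sl.s10j_Γ_an hc fc).comp_of_eq pc rfl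
  have Φb : AnalyticAt ℂ (fun p : (ℂ × ℂ) × ℂ => Sl.Sh.φ p.1.2) ((a, b), c) :=
    hφ.comp_of_eq pb rfl
  have Ga1 : AnalyticAt ℂ (fun p : (ℂ × ℂ) × ℂ => (Sl.Sh.Γ p.1.1).1) ((a, b), c) :=
    analyticAt_fst.comp_of_eq Ga rfl
  have Ga2 : AnalyticAt ℂ (fun p : (ℂ × ℂ) × ℂ => (Sl.Sh.Γ p.1.1).2) ((a, b), c) :=
    analyticAt_snd.comp_of_eq Ga rfl
  have Gb1 : AnalyticAt ℂ (fun p : (ℂ × ℂ) × ℂ => (Sl.Sh.Γ p.1.2).1) ((a, b), c) :=
    analyticAt_fst.comp_of_eq Gb rfl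
  have Gb2 : AnalyticAt ℂ (fun p : (ℂ × ℂ) × ℂ => (Sl.Sh.Γ p.1.2).2) ((a, b), c) :=
    analyticAt_snd.comp_of_eq Gb rfl
  have Gc1 : AnalyticAt ℂ (fun p : (ℂ × ℂ) × ℂ => (Sl.Sh.Γ p.2).1) ((a, b), c) :=
    analyticAt_fst.comp_of_eq Gc rfl
  have Gc2 : AnalyticAt ℂ (fun p : (ℂ × ℂ) × ℂ => (Sl.Sh.Γ p.2).2) ((a, b), c) :=
    analyticAt_snd.comp_of_eq Gc rfl
  have Cb : AnalyticAt ℂ (fun p : (ℂ × ℂ) × ℂ => Complex.cos (Sl.Sh.φ p.1.2)) ((a, b), c) :=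
    Complex.analyticAt_cos.comp_of_eq Φb rfl
  have Sb : AnalyticAt ℂ (fun p : (ℂ × ℂ) × ℂ => Complex.sin (Sl.Sh.φ p.1.2)) ((a, b), c) :=
    Complex.analyticAt_sin.comp_of_eq Φb rfl
  simp only [Shape.rel3, crossC, reflC, dotC, nvecC, Prod.fst_sub, Prod.snd_sub, Prod.smul_fst,
    Prod.smul_snd, smul_eq_mul]
  fun_prop

/-- derivative of the relation in the last point. -/
theorem s10j_rel3_deriv {a b c : ℂ} (hc : c ∈ Sl.Sh.D) (fc : Sl.Sh.f c ≠ 0) :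
    deriv (fun c' => Sl.Sh.rel3 a b c') c =
      Sl.Sh.G.c / Sl.Sh.f c ^ 2 * crossC (evecC (Sl.Sh.φ c)) (reflC (Sl.Sh.φ b) (Sl.Sh.Γ b - Sl.Sh.Γ a)) := by
  set v : ℂ × ℂ := reflC (Sl.Sh.φ b) (Sl.Sh.Γ b - Sl.Sh.Γ a) with hv
  have h1 := Sl.s10g_Γ_hasDerivAt₁ hc fc
  have h2 := Sl.s10g_Γ_hasDerivAt₂ hc fc
  have h3 : HasDerivAt (fun c' => Sl.Sh.rel3 a b c')
      (Sl.Sh.G.c * (evecC (Sl.Sh.φ c)).1 * (Sl.Sh.f c)⁻¹ ^ 2 * v.2
        - Sl.Sh.G.c * (evecC (Sl.Sh.φ c)).2 * (Sl.Sh.f c)⁻¹ ^ 2 * v.1) c :=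
    ((h1.sub_const (Sl.Sh.Γ b).1).mul_const v.2).sub ((h2.sub_const (Sl.Sh.Γ b).2).mul_const v.1)
  rw [h3.deriv]
  simp only [crossC]
  field_simp

/-! ## LEAF LF-S10j-rel -/

/-- the relation on the base domain. -/
theorem s10j_rel3_base {t y : ℂ} (ht : |t.im| < Sl.Sh.G.s / 8) (htρ : t ∈ ball (0 : ℂ) Sl.Sh.ρ)
    (hy : |y.im| < Sl.Sh.G.s / 8) :
    Sl.Sh.rel3 (Sl.Sh.lift (y - t, t)) (Sl.Sh.lift (y, t)) (Sl.Sh.lift (y + t, t)) = 0 := by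
  have hsp := Sl.Sh.G.s4c_s_pos
  obtain ⟨t1, t2⟩ := abs_lt.1 ht
  obtain ⟨y1, y2⟩ := abs_lt.1 hy
  have htr : t ∈ ball (0 : ℂ) Sl.Sh.G.r₁ := ball_subset_ball Sl.Sh.ρ_le htρ
  have b₁ : (y - t, t) ∈ Sl.Sh.baseD := ⟨by
    show |(y - t).im| < _
    rw [Complex.sub_im, abs_lt]; constructor <;> linarith, htρ⟩
  have b₂ : (y, t) ∈ Sl.Sh.baseD := ⟨by
    show |y.im| < _
    rw [abs_lt]; constructor <;> linarith, htρ⟩
  have b₃ : (y + t, t) ∈ Sl.Sh.baseD := ⟨by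
    show |(y + t).im| < _
    rw [Complex.add_im, abs_lt]; constructor <;> linarith, htρ⟩
  have him2 : (t / 2).im = t.im / 2 := by
    rw [show t / 2 = t * ((1 / 2 : ℝ) : ℂ) by push_cast; ring, Complex.mul_im]
    simp; ring
  have m1 : y - t / 2 ∈ hstrip Sl.Sh.G.s := by
    show |(y - t / 2).im| < _
    rw [Complex.sub_im, him2, abs_lt]; constructor <;> linarith
  have m2 : y - t - t / 2 ∈ hstrip Sl.Sh.G.s := by
    show |(y - t - t / 2).im| < _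
    rw [Complex.sub_im, Complex.sub_im, him2, abs_lt]; constructor <;> linarith
  have m3 : y + t - t / 2 ∈ hstrip Sl.Sh.G.s := by
    show |(y + t - t / 2).im| < _
    rw [Complex.sub_im, Complex.add_im, him2, abs_lt]; constructor <;> linarith
  set Θm : ℂ := Sl.Sh.G.Θ (y - t / 2) t with hΘm
  set Θp : ℂ := Sl.Sh.G.Θ (y + t / 2) t with hΘp
  have i1 := Sl.Sh.G.s10g_X0_dot_in m1 htr
  have o1 := Sl.Sh.G.s10g_X0_dot_out m1 htr
  have o0 := Sl.Sh.G.s10g_X0_dot_out m2 htr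
  have i2 := Sl.Sh.G.s10g_X0_dot_in m3 htr
  have e1 : y - t + t / 2 = y - t / 2 := by ring
  have e2 : y + t - t / 2 = y + t / 2 := by ring
  rw [e1] at o0
  rw [e2] at i2
  have d1 : dotC (Sl.Sh.G.X0 (y, t) - Sl.Sh.G.X0 (y - t, t)) (nvecC Θm) = 0 := by
    rw [s10g_dot_sub, i1, o0, sub_self]
  have d2 : dotC (Sl.Sh.G.X0 (y + t, t) - Sl.Sh.G.X0 (y, t)) (nvecC Θp) = 0 := by
    rw [s10g_dot_sub, i2, o1, sub_self]
  have hφ : Sl.Sh.φ (Sl.Sh.lift (y, t)) = (Θm + Θp) / 2 := Sl.Sh.s10g_dict b₂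
  unfold Shape.rel3
  rw [Sl.Sh.s10g_Γ_lift b₁, Sl.Sh.s10g_Γ_lift b₂, Sl.Sh.s10g_Γ_lift b₃, hφ,
    s10j_of_dot_nvec _ _ d1, s10j_of_dot_nvec _ _ d2, reflC_smul, reflC_evec, crossC_smul_left,
    crossC_smul_right, crossC_evec]
  have : 2 * ((Θm + Θp) / 2) - Θm - Θp = 0 := by ring
  rw [this, Complex.sin_zero, mul_zero, mul_zero]

/-- **the three-point relation** for three consecutive impacts. -/
theorem s10j_rel3 {t y : ℂ} (ht : |t.im| < Sl.Sh.G.s / 8) (h₁ : (y - t, t) ∈ Sl.Sh.T)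
    (h₂ : (y, t) ∈ Sl.Sh.T) (h₃ : (y + t, t) ∈ Sl.Sh.T) (f₁ : Sl.Sh.f (Sl.Sh.lift (y - t, t)) ≠ 0)
    (f₂ : Sl.Sh.f (Sl.Sh.lift (y, t)) ≠ 0) (f₃ : Sl.Sh.f (Sl.Sh.lift (y + t, t)) ≠ 0) :
    Sl.Sh.rel3 (Sl.Sh.lift (y - t, t)) (Sl.Sh.lift (y, t)) (Sl.Sh.lift (y + t, t)) = 0 := by
  have hsp := Sl.Sh.G.s4c_s_pos
  have htρ : t ∈ ball (0 : ℂ) Sl.Sh.ρ := h₂.1
  set U : Set ℂ := {y : ℂ | (y + -t, t) ∈ Sl.Sh.T} ∩ ({y : ℂ | (y + 0, t) ∈ Sl.Sh.T} ∩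
    {y : ℂ | (y + t, t) ∈ Sl.Sh.T}) with hU
  have hUo : IsOpen U := (Sl.Sh.s10j_T_fibre_open _ _).inter
    ((Sl.Sh.s10j_T_fibre_open _ _).inter (Sl.Sh.s10j_T_fibre_open _ _))
  have hUc : Convex ℝ U := (Sl.Sh.s10j_T_convex _ _).inter
    ((Sl.Sh.s10j_T_convex _ _).inter (Sl.Sh.s10j_T_convex _ _))
  have hyU : y ∈ U := ⟨by simpa [sub_eq_add_neg] using h₁, by simpa using h₂, h₃⟩
  obtain ⟨t1, t2⟩ := abs_lt.1 ht
  have h0U : (0 : ℂ) ∈ U := by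
    refine ⟨Sl.Sh.s10g_baseD_subset_tube ⟨?_, htρ⟩, Sl.Sh.s10g_baseD_subset_tube ⟨?_, htρ⟩,
      Sl.Sh.s10g_baseD_subset_tube ⟨?_, htρ⟩⟩
    · show |((0 : ℂ) + -t).im| < _
      rw [zero_add, Complex.neg_im, abs_neg]; linarith
    · show |((0 : ℂ) + 0).im| < _
      simp; linarith
    · show |((0 : ℂ) + t).im| < _
      rw [zero_add]; linarith
  set La : ℂ → ℂ := fun y => Sl.Sh.lift (y + -t, t) with hLa
  set Lb : ℂ → ℂ := fun y => Sl.Sh.lift (y + 0, t) with hLb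
  set Lc : ℂ → ℂ := fun y => Sl.Sh.lift (y + t, t) with hLc
  set Φ : ℂ → ℂ := fun y => Sl.Sh.rel3 (La y) (Lb y) (Lc y) with hΦ
  have hmero : MeromorphicOn Φ U := by
    intro z hz
    have aa := Sl.Sh.s10j_lift_an hz.1
    have ab := Sl.Sh.s10j_lift_an hz.2.1
    have ac := Sl.Sh.s10j_lift_an hz.2.2
    have A1 : MeromorphicAt (fun y => (Sl.Sh.Γ (La y)).1) z :=
      (Sl.Sh.Γ_mero.1 _ (Sl.Sh.lift_mem _ hz.1)).comp_analyticAt (g := La) aa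
    have A2 : MeromorphicAt (fun y => (Sl.Sh.Γ (La y)).2) z :=
      (Sl.Sh.Γ_mero.2 _ (Sl.Sh.lift_mem _ hz.1)).comp_analyticAt (g := La) aa
    have B1 : MeromorphicAt (fun y => (Sl.Sh.Γ (Lb y)).1) z :=
      (Sl.Sh.Γ_mero.1 _ (Sl.Sh.lift_mem _ hz.2.1)).comp_analyticAt (g := Lb) ab
    have B2 : MeromorphicAt (fun y => (Sl.Sh.Γ (Lb y)).2) z :=
      (Sl.Sh.Γ_mero.2 _ (Sl.Sh.lift_mem _ hz.2.1)).comp_analyticAt (g := Lb) ab
    have C1 : MeromorphicAt (fun y => (Sl.Sh.Γ (Lc y)).1) z :=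
      (Sl.Sh.Γ_mero.1 _ (Sl.Sh.lift_mem _ hz.2.2)).comp_analyticAt (g := Lc) ac
    have C2 : MeromorphicAt (fun y => (Sl.Sh.Γ (Lc y)).2) z :=
      (Sl.Sh.Γ_mero.2 _ (Sl.Sh.lift_mem _ hz.2.2)).comp_analyticAt (g := Lc) ac
    have hφ : AnalyticAt ℂ (fun y => Sl.Sh.φ (Lb y)) z :=
      (Sl.Sh.φ_diff.analyticAt (Sl.s10g_isOpen_D.mem_nhds (Sl.Sh.lift_mem _ hz.2.1))).comp_of_eq ab rfl
    have Cb : MeromorphicAt (fun y => Complex.cos (Sl.Sh.φ (Lb y))) z :=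
      (Complex.analyticAt_cos.comp_of_eq hφ rfl).meromorphicAt
    have Sb : MeromorphicAt (fun y => Complex.sin (Sl.Sh.φ (Lb y))) z :=
      (Complex.analyticAt_sin.comp_of_eq hφ rfl).meromorphicAt
    simp only [hΦ, Shape.rel3, crossC, reflC, dotC, nvecC, Prod.fst_sub, Prod.snd_sub, Prod.smul_fst,
      Prod.smul_snd, smul_eq_mul]
    fun_prop
  have hnear : ∀ᶠ z in 𝓝 (0 : ℂ), Φ z = 0 := by
    have : hstrip (Sl.Sh.G.s / 8) ∈ 𝓝 (0 : ℂ) := by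
      refine (s4c_isOpen_hstrip _).mem_nhds ?_
      exact_mod_cast s10g_real_mem_hstrip (by linarith) 0
    filter_upwards [this] with z hz
    have := Sl.s10j_rel3_base ht htρ hz
    simpa [hΦ, hLa, hLb, hLc, sub_eq_add_neg] using this
  have f₁' : Sl.Sh.f (La y) ≠ 0 := by simpa [hLa, sub_eq_add_neg] using f₁
  have f₂' : Sl.Sh.f (Lb y) ≠ 0 := by simpa [hLb] using f₂
  have hcont : ContinuousAt Φ y := by
    have h1 := (Sl.s10j_rel3_an (Sl.Sh.lift_mem _ hyU.1) (Sl.Sh.lift_mem _ hyU.2.1)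
      (Sl.Sh.lift_mem _ hyU.2.2) f₁' f₂' f₃).continuousAt
    have h2 : ContinuousAt (fun y => ((La y, Lb y), Lc y)) y :=
      ((Sl.Sh.s10j_lift_an hyU.1).continuousAt.prodMk (Sl.Sh.s10j_lift_an hyU.2.1).continuousAt).prodMk
        (Sl.Sh.s10j_lift_an hyU.2.2).continuousAt
    exact ContinuousAt.comp (f := fun y => ((La y, Lb y), Lc y))
      (g := fun p : (ℂ × ℂ) × ℂ => Sl.Sh.rel3 p.1.1 p.1.2 p.2) h1 h2
  have := s10g_mero_zero hUo hUc.isPreconnected hmero h0U hnear hyU hcont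
  simpa [hΦ, hLa, hLb, hLc, sub_eq_add_neg] using this

/-! ## LEAF LF-S10j-conj -/

theorem s10j_f_conj {s : ℂ} (hs : s ∈ Sl.Sh.D) : Sl.Sh.f (conj s) = conj (Sl.Sh.f s) := by
  exact Sl.Sh.sb_f_conj s hs

theorem s10j_Γ_conj {s : ℂ} (hs : s ∈ Sl.Sh.D) (hf : Sl.Sh.f s ≠ 0) :
    Sl.Sh.Γ (conj s) = (conj (Sl.Sh.Γ s).1, conj (Sl.Sh.Γ s).2) := by
  have hs' : conj s ∈ estrip Sl.Sh.G.Hs := Sl.Sh.sb_conj_mem_D hs
  have hf' : Sl.Sh.f (conj s) ≠ 0 := by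
    rw [Sl.Sh.sb_f_conj s hs]
    exact (map_ne_zero _).2 hf
  have h0 : (0 : ℂ) ∈ estrip Sl.Sh.G.Hs := Sl.Sh.sb_zero_mem_D
  have hsp := Sl.Sh.G.s4c_s_pos
  have hnear : ∀ᶠ z in 𝓝 (0 : ℂ), Sl.Sh.Γ (conj z) = (conj (Sl.Sh.Γ z).1, conj (Sl.Sh.Γ z).2) := by
    have : hstrip (Sl.Sh.G.s / 2) ∈ 𝓝 (0 : ℂ) := by
      refine (s4c_isOpen_hstrip _).mem_nhds ?_
      exact_mod_cast s10g_real_mem_hstrip (by linarith) 0
    filter_upwards [this] with z hz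
    have hz' : conj z ∈ hstrip (Sl.Sh.G.s / 2) := by
      show |(conj z).im| < _
      rw [Complex.conj_im, abs_neg]; exact hz
    rw [Sl.Sh.Γ_base _ hz', Sl.Sh.Γ_base _ hz]
    have hini : ((z, 0) : ℂ × ℂ) ∈ Sl.Sh.G.ini :=
      ⟨s10g_hstrip_mono (by linarith) hz, mem_ball_self Sl.Sh.G.r₁_pos⟩
    have := Sl.Sh.G.s4c_X0_conj hini
    simp only [map_zero] at this
    exact this
  have hcc : ContinuousAt (fun z : ℂ => conj z) s := Complex.continuous_conj.continuousAt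
  apply Prod.ext
  · have hm : MeromorphicOn (fun z => conj (Sl.Sh.Γ (conj z)).1 - (Sl.Sh.Γ z).1) (estrip Sl.Sh.G.Hs) :=
      fun z hz => (s10j_mero_conj (g := fun z => (Sl.Sh.Γ z).1)
        (Sl.Sh.Γ_mero.1 _ (Sl.Sh.sb_conj_mem_D hz))).sub (Sl.Sh.Γ_mero.1 z hz)
    have hc : ContinuousAt (fun z => conj (Sl.Sh.Γ (conj z)).1 - (Sl.Sh.Γ z).1) s :=
      (Complex.continuous_conj.continuousAt.comp
        (ContinuousAt.comp (f := fun w : ℂ => conj w) (g := fun z => (Sl.Sh.Γ z).1)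
        (Sl.s10g_Γ_hasDerivAt₁ hs' hf').continuousAt hcc)).sub (Sl.s10g_Γ_hasDerivAt₁ hs hf).continuousAt
    have := sub_eq_zero.1 (s10g_mero_zero Sl.s10g_isOpen_D Sl.s10g_isPreconnected_D hm h0
      (hnear.mono fun z hz => by simp only [hz, Complex.conj_conj, sub_self]) hs hc)
    show (Sl.Sh.Γ (conj s)).1 = conj (Sl.Sh.Γ s).1
    rw [← this, Complex.conj_conj]
  · have hm : MeromorphicOn (fun z => conj (Sl.Sh.Γ (conj z)).2 - (Sl.Sh.Γ z).2) (estrip Sl.Sh.G.Hs) :=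
      fun z hz => (s10j_mero_conj (g := fun z => (Sl.Sh.Γ z).2)
        (Sl.Sh.Γ_mero.2 _ (Sl.Sh.sb_conj_mem_D hz))).sub (Sl.Sh.Γ_mero.2 z hz)
    have hc : ContinuousAt (fun z => conj (Sl.Sh.Γ (conj z)).2 - (Sl.Sh.Γ z).2) s :=
      (Complex.continuous_conj.continuousAt.comp
        (ContinuousAt.comp (f := fun w : ℂ => conj w) (g := fun z => (Sl.Sh.Γ z).2)
        (Sl.s10g_Γ_hasDerivAt₂ hs' hf').continuousAt hcc)).sub (Sl.s10g_Γ_hasDerivAt₂ hs hf).continuousAt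
    have := sub_eq_zero.1 (s10g_mero_zero Sl.s10g_isOpen_D Sl.s10g_isPreconnected_D hm h0
      (hnear.mono fun z hz => by simp only [hz, Complex.conj_conj, sub_self]) hs hc)
    show (Sl.Sh.Γ (conj s)).2 = conj (Sl.Sh.Γ s).2
    rw [← this, Complex.conj_conj]

/-- the transversality at the conjugate triple. -/
theorem s10j_tr_conj {a b c : ℂ} (ha : a ∈ Sl.Sh.D) (hb : b ∈ Sl.Sh.D) (hc : c ∈ Sl.Sh.D)
    (fa : Sl.Sh.f a ≠ 0) (fb : Sl.Sh.f b ≠ 0) :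
    crossC (evecC (Sl.Sh.φ (conj c))) (reflC (Sl.Sh.φ (conj b)) (Sl.Sh.Γ (conj b) - Sl.Sh.Γ (conj a))) =
      conj (crossC (evecC (Sl.Sh.φ c)) (reflC (Sl.Sh.φ b) (Sl.Sh.Γ b - Sl.Sh.Γ a))) := by
  rw [Sl.Sh.φ_conj c hc, Sl.Sh.φ_conj b hb, Sl.s10j_Γ_conj ha fa, Sl.s10j_Γ_conj hb fb]
  simp only [crossC, evecC, reflC, dotC, nvecC, Prod.fst_sub, Prod.snd_sub, Prod.smul_fst,
    Prod.smul_snd, smul_eq_mul, Complex.sin_conj, Complex.cos_conj, map_sub, map_mul, map_add,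
    map_neg, Complex.conj_ofNat]

end Slice

end Claimed.Agent.R269
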