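/-
Row 269, P1 Theorem 10.3 (boundary contact), part A1: CONFIGURATIONS.   Statements: helper34 (BP-S10b-contact).

The slice quantities of S10/Defs.lean depend on the phase `y` only through the sequence `j ↦ s_j(y)`.  Here they are written as functions of an arbitrary sequence
`σ : ℤ → ℂ` (`cψ, cf, cX, cθ, csd, cℓ, cV, cM₀, cB`; `Sl.θ j y = Sl.cθ (fun j => Sl.s j y) j` BY `rfl`), and then of a free `N`-tuple `x : Fin N → ℂ` through its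
quasi-periodic extension `σ = cext x`, `cext x (i + kN) = x i + 2πk`.

`cG κ σ i`  = the right side of `(s_i')² = G_i(s)`  (cofactor identity + definition of `w`),
`ctr σ j`   = the transversality `e_{ψ_{j+2}} × refl_{ψ_{j+1}} (X_{j+1} - X_j)` of the next-impact equation (`= - ℓ_j sin d_{j+2}` on the slice),
`cU`        = the open set of nondegenerate tuples,      `cBdd B` = quantitative nondegeneracy.

LEAVES
* LF-S10b-idx   : `cext_*` (integer division/modulo bookkeeping: `Int.emod_emod_of_dvd`, `Int.add_mul_emod_self`, `Int.add_ediv_of_dvd_right`, `Int.emod_add_ediv`, `Int.toNat_of_nonneg`).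
* LF-S10b-shift : invariance of all configuration quantities under `σ j ↦ σ j + 2π k_j` and under the index shift `j ↦ j + N` for quasi-periodic `σ`.
      `φ (s + 2πk) = φ s + 2πk`, `f`, `Γ` periodic (`Shape.φ_per`, `Sl.s10g_f_per`, `Sl.s10g_Γ_per` of helper230's S10/GeoBasic.lean, GeoCurve.lean; induction on `k : ℤ`; `D` is invariant under real translations: `Sl.s10g_D_add_real`).
      `cθ` changes by `2π ∑ (-1)^m k_{j-m}`, an integer multiple of `2π`: `evecC_add_two_pi`, `Complex.sin_add_int_mul_two_pi`; `reflC_add_two_pi`.   Telescoping: `s10g_alt_sum`, `s10g_alt_one` (GeoBasic.lean; pattern: `Slice.s10g_angle`).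
* LF-S10b-diff  : openness of `cV₀`, `cV₁`, `cU` and differentiability in `x`.  Order: on `cV₀` (all `x i ∈ D`, `f (x i) ≠ 0`) the maps `x ↦ cψ, cf, cθ, csd, cX, cℓ, ctr` are differentiable
      (`x ↦ cext x j` is affine; `φ_diff`, `Sl.s10g_f_diff`, `Sl.s10j_Γ_an`); on `cV₁` (also `csd, cℓ ≠ 0`) the entries of `cM₀`, `cB` are differentiable (index `⟪i⟫ - 1`: use `cℓ_add_N`), so is the determinant
      (`Matrix.det_apply`, finite sums and products).  Openness: preimages of `{≠ 0}` under functions continuous on an open set (`ContinuousOn.isOpen_inter_preimage`).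
* LF-S10b-lim   : `cU_of_tendsto`: step by step: `x⋆ i ∈ D` (closed condition on `Im`), `‖f (x⋆ i)‖ ≥ e^{-B}` (continuity of `f` on `D`), so `x⋆ ∈ cV₀`; then `csd`, `cℓ`, `ctr` are continuous at `x⋆`: lower bounds pass to the limit
      (`ge_of_tendsto`), `x⋆ ∈ cV₁`; then the determinants.
-/
import Claimed.Agent.R269.S10.Joint

set_option autoImplicit false

namespace Claimed.Agent.R269

open Complex Filter Topology Set Metric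
open scoped Real ENNReal

local notation "⟪" i "⟫" => ((Fin.val i : ℕ) : ℤ)

namespace Slice

variable (Sl : Slice)

/-! ## definitions -/

theorem cidx_lt (j : ℤ) : (j % (Sl.N : ℤ)).toNat < Sl.N := by
  have hN : (0 : ℤ) < Sl.N := by have := Sl.N_ge; omega
  have h1 := Int.emod_nonneg j hN.ne'
  have h2 := Int.emod_lt_of_pos j hN
  omega

/-- the site of an integer index. -/
def cidx (j : ℤ) : Fin Sl.N := ⟨(j % (Sl.N : ℤ)).toNat, Sl.cidx_lt j⟩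

/-- quasi-periodic extension of an `N`-tuple. -/
noncomputable def cext (x : Fin Sl.N → ℂ) (j : ℤ) : ℂ :=
  x (Sl.cidx j) + 2 * π * ((j / (Sl.N : ℤ) : ℤ) : ℂ)

noncomputable def cψ (σ : ℤ → ℂ) (j : ℤ) : ℂ := Sl.Sh.φ (σ j)

noncomputable def cf (σ : ℤ → ℂ) (j : ℤ) : ℂ := Sl.Sh.f (σ j)

noncomputable def cX (σ : ℤ → ℂ) (j : ℤ) : ℂ × ℂ := Sl.Sh.Γ (σ j)

noncomputable def cθ (σ : ℤ → ℂ) (j : ℤ) : ℂ :=
  π + ∑ m ∈ Finset.range Sl.N, (-1 : ℂ) ^ m * Sl.cψ σ (j - m)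

noncomputable def csd (σ : ℤ → ℂ) (j : ℤ) : ℂ := Complex.sin (Sl.cθ σ j - Sl.cψ σ j)

noncomputable def cℓ (σ : ℤ → ℂ) (j : ℤ) : ℂ :=
  dotC (Sl.cX σ (j + 1) - Sl.cX σ j) (evecC (Sl.cθ σ j))

noncomputable def cV (σ : ℤ → ℂ) (j : ℤ) : ℂ := 2 * Sl.cf σ j ^ 3 / (Sl.Sh.G.c * Sl.csd σ j)

noncomputable def cM₀ (σ : ℤ → ℂ) : Matrix (Fin Sl.N) (Fin Sl.N) ℂ := fun i k =>
  (if i = k then (Sl.cℓ σ ⟪i⟫)⁻¹ + (Sl.cℓ σ (⟪i⟫ - 1))⁻¹ else 0)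
    + (if k = i + 1 then (Sl.cℓ σ ⟪i⟫)⁻¹ else 0)
    + (if i = k + 1 then (Sl.cℓ σ ⟪k⟫)⁻¹ else 0)

noncomputable def cB (σ : ℤ → ℂ) (I F : Finset (Fin Sl.N)) : Matrix (Fin Sl.N) (Fin Sl.N) ℂ :=
  fun i k =>
  if i ∈ I ∪ F ∧ k ∈ I ∪ F then
    Sl.cM₀ σ i k - (if i = k ∧ i ∈ I then Sl.cV σ ⟪i⟫ else 0)
  else if i = k then 1 else 0

/-- the cofactor `det ℋ_î`. -/
noncomputable def ccof (σ : ℤ → ℂ) (i : Fin Sl.N) : ℂ := (Sl.cB σ (Finset.univ.erase i) ∅).det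

/-- `G_i`: the square of `s_i'`. -/
noncomputable def cG (κ : ℂ) (σ : ℤ → ℂ) (i : Fin Sl.N) : ℂ :=
  κ * (∏ j : Fin Sl.N, Sl.cℓ σ ⟪j⟫) * Sl.ccof σ i * Sl.cf σ ⟪i⟫ ^ 4 /
    ((Sl.Sh.G.c : ℂ) ^ 2 * Sl.csd σ ⟪i⟫ ^ 2)

/-- transversality of the next-impact equation at the triple `(σ j, σ (j+1), σ (j+2))`. -/
noncomputable def ctr (σ : ℤ → ℂ) (j : ℤ) : ℂ :=
  crossC (evecC (Sl.cψ σ (j + 2))) (reflC (Sl.cψ σ (j + 1)) (Sl.cX σ (j + 1) - Sl.cX σ j))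

/-- the sequence of sites of the slice at the phase `y`. -/
noncomputable def sseq (y : ℂ) : ℤ → ℂ := fun j => Sl.s j y

/-- the `N`-tuple of sites of the slice at the phase `y`. -/
noncomputable def stup (y : ℂ) : Fin Sl.N → ℂ := fun i => Sl.s ⟪i⟫ y

theorem ψ_eq (j : ℤ) (y : ℂ) : Sl.ψ j y = Sl.cψ (Sl.sseq y) j := rfl
theorem fj_eq (j : ℤ) (y : ℂ) : Sl.fj j y = Sl.cf (Sl.sseq y) j := rfl
theorem X_eq (j : ℤ) (y : ℂ) : Sl.X j y = Sl.cX (Sl.sseq y) j := rfl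
theorem θ_eq (j : ℤ) (y : ℂ) : Sl.θ j y = Sl.cθ (Sl.sseq y) j := rfl
theorem sd_eq (j : ℤ) (y : ℂ) : Sl.sd j y = Sl.csd (Sl.sseq y) j := rfl
theorem ℓ_eq (j : ℤ) (y : ℂ) : Sl.ℓ j y = Sl.cℓ (Sl.sseq y) j := rfl
theorem V_eq (j : ℤ) (y : ℂ) : Sl.V j y = Sl.cV (Sl.sseq y) j := rfl
theorem M₀_eq (y : ℂ) : Sl.M₀ y = Sl.cM₀ (Sl.sseq y) := rfl
theorem s10b_Bmat_eq (I F : Finset (Fin Sl.N)) (y : ℂ) : Sl.Bmat I F y = Sl.cB (Sl.sseq y) I F := rfl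

/-- tuples with all sites regular points of the shape strip. -/
def cV₀ : Set (Fin Sl.N → ℂ) := {x | ∀ i, x i ∈ Sl.Sh.D ∧ Sl.Sh.f (x i) ≠ 0}

/-- ... with nondegenerate incidences and chords. -/
def cV₁ : Set (Fin Sl.N → ℂ) :=
  {x | x ∈ Sl.cV₀ ∧ ∀ i : Fin Sl.N, Sl.csd (Sl.cext x) ⟪i⟫ ≠ 0 ∧ Sl.cℓ (Sl.cext x) ⟪i⟫ ≠ 0}

/-- the nondegenerate tuples. -/
def cU : Set (Fin Sl.N → ℂ) :=
  {x | x ∈ Sl.cV₁ ∧ ∀ i : Fin Sl.N, Sl.ccof (Sl.cext x) i ≠ 0 ∧ Sl.ctr (Sl.cext x) ⟪i⟫ ≠ 0}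

/-- quantitative nondegeneracy. -/
def cBdd (B : ℝ) (x : Fin Sl.N → ℂ) : Prop :=
  ∀ i : Fin Sl.N, |(x i).im| ≤ Sl.H - Real.exp (-B) ∧ Real.exp (-B) ≤ ‖Sl.Sh.f (x i)‖ ∧
    Real.exp (-B) ≤ ‖Sl.csd (Sl.cext x) ⟪i⟫‖ ∧ Real.exp (-B) ≤ ‖Sl.cℓ (Sl.cext x) ⟪i⟫‖ ∧
    Real.exp (-B) ≤ ‖Sl.ccof (Sl.cext x) i‖ ∧ Real.exp (-(2 * B)) ≤ ‖Sl.ctr (Sl.cext x) ⟪i⟫‖

/-- translation of a tuple by integer multiples of `2π`. -/
noncomputable def cshift (x : Fin Sl.N → ℂ) (m : Fin Sl.N → ℤ) : Fin Sl.N → ℂ :=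
  fun i => x i + 2 * π * (m i : ℂ)

/-! ## LEAF LF-S10b-idx (proved) -/

theorem cidx_coe (i : Fin Sl.N) : Sl.cidx ⟪i⟫ = i := by
  apply Fin.ext
  show ((⟪i⟫ % (Sl.N : ℤ))).toNat = i.val
  rw [Int.emod_eq_of_lt (by positivity) (by exact_mod_cast i.isLt)]
  simp

theorem cidx_add_N (j : ℤ) : Sl.cidx (j + Sl.N) = Sl.cidx j := by
  apply Fin.ext
  show ((j + Sl.N) % (Sl.N : ℤ)).toNat = (j % (Sl.N : ℤ)).toNat
  rw [Int.add_emod_right]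

theorem cidx_val (j : ℤ) : ⟪Sl.cidx j⟫ = j % (Sl.N : ℤ) := by
  have hN : (0 : ℤ) < Sl.N := by have := Sl.N_ge; omega
  show (((j % (Sl.N : ℤ)).toNat : ℕ) : ℤ) = _
  exact Int.toNat_of_nonneg (Int.emod_nonneg j hN.ne')

theorem cext_coe (x : Fin Sl.N → ℂ) (i : Fin Sl.N) : Sl.cext x ⟪i⟫ = x i := by
  unfold cext
  rw [cidx_coe, Int.ediv_eq_zero_of_lt (by positivity) (by exact_mod_cast i.isLt)]
  simp

theorem cext_add_N (x : Fin Sl.N → ℂ) (j : ℤ) : Sl.cext x (j + Sl.N) = Sl.cext x j + 2 * π := by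
  have hN : (Sl.N : ℤ) ≠ 0 := by have := Sl.N_ge; omega
  unfold cext
  rw [cidx_add_N, Int.add_ediv_of_dvd_right (dvd_refl _), Int.ediv_self hN]
  push_cast
  ring

theorem cext_cshift (x : Fin Sl.N → ℂ) (m : Fin Sl.N → ℤ) (j : ℤ) :
    Sl.cext (Sl.cshift x m) j = Sl.cext x j + 2 * π * (m (Sl.cidx j) : ℂ) := by
  unfold cext cshift
  ring

theorem eq_cext_of_quasi (σ : ℤ → ℂ) (h : ∀ j, σ (j + Sl.N) = σ j + 2 * π) :
    σ = Sl.cext (fun i => σ ⟪i⟫) := by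
  have hk : ∀ (k : ℤ) (j : ℤ), σ (j + k * Sl.N) = σ j + 2 * π * (k : ℂ) := by
    intro k
    induction k using Int.induction_on with
    | zero => intro j; simp
    | succ k ih =>
      intro j
      have : j + ((k : ℤ) + 1) * Sl.N = (j + k * Sl.N) + Sl.N := by ring
      rw [this, h, ih]
      push_cast
      ring
    | pred k ih =>
      intro j
      have h1 := h (j + (-(k : ℤ) - 1) * Sl.N)
      have : j + (-(k : ℤ) - 1) * Sl.N + Sl.N = j + (-(k : ℤ)) * Sl.N := by ring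
      rw [this, ih] at h1
      have h2 : σ (j + (-(k : ℤ) - 1) * Sl.N) = σ j + 2 * π * ((-(k : ℤ) : ℤ) : ℂ) - 2 * π := by
        rw [h1]; ring
      rw [h2]
      push_cast
      ring
  funext j
  unfold cext
  show σ j = σ ⟪Sl.cidx j⟫ + _
  rw [cidx_val, ← hk]
  congr 1
  have := Int.emod_add_mul_ediv j (Sl.N : ℤ)
  linarith [mul_comm (j / (Sl.N : ℤ)) (Sl.N : ℤ)]

/-! ## LEAF LF-S10b-shift (proved) -/

/-- periodicity under integer multiples of `2π`. -/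
theorem s10b_per_int {α : Type*} {F : ℂ → α} {U : Set ℂ}
    (hU : ∀ s ∈ U, s + 2 * π ∈ U ∧ s - 2 * π ∈ U) (hF : ∀ s ∈ U, F (s + 2 * π) = F s) {s : ℂ}
    (hs : s ∈ U) (k : ℤ) : s + 2 * π * (k : ℂ) ∈ U ∧ F (s + 2 * π * (k : ℂ)) = F s := by
  induction k using Int.induction_on with
  | zero => simpa using hs
  | succ k ih =>
    have e : s + 2 * π * (((k : ℤ) + 1 : ℤ) : ℂ) = (s + 2 * π * ((k : ℤ) : ℂ)) + 2 * π := by
      push_cast; ring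
    rw [e]
    exact ⟨(hU _ ih.1).1, by rw [hF _ ih.1, ih.2]⟩
  | pred k ih =>
    have e : s + 2 * π * ((-(k : ℤ) - 1 : ℤ) : ℂ) = (s + 2 * π * ((-(k : ℤ) : ℤ) : ℂ)) - 2 * π := by
      push_cast; ring
    rw [e]
    have h1 := (hU _ ih.1).2
    refine ⟨h1, ?_⟩
    have h2 := hF _ h1
    rw [sub_add_cancel] at h2
    rw [← h2, ih.2]

theorem s10b_D_pm {s : ℂ} (hs : s ∈ Sl.Sh.D) : s + 2 * π ∈ Sl.Sh.D ∧ s - 2 * π ∈ Sl.Sh.D := by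
  have h1 := Sl.s10g_D_add_real hs (2 * π)
  have h2 := Sl.s10g_D_add_real hs (-(2 * π))
  push_cast at h1 h2
  exact ⟨h1, by rw [sub_eq_add_neg]; exact h2⟩

theorem s10b_D_int {s : ℂ} (hs : s ∈ Sl.Sh.D) (k : ℤ) : s + 2 * π * (k : ℂ) ∈ Sl.Sh.D :=
  (s10b_per_int (F := fun _ => ()) (fun _ h => Sl.s10b_D_pm h) (fun _ _ => rfl) hs k).1

theorem s10b_f_int {s : ℂ} (hs : s ∈ Sl.Sh.D) (k : ℤ) : Sl.Sh.f (s + 2 * π * (k : ℂ)) = Sl.Sh.f s :=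
  (s10b_per_int (fun _ h => Sl.s10b_D_pm h) (fun _ h => Sl.s10g_f_per h) hs k).2

theorem s10b_φ_int {s : ℂ} (hs : s ∈ Sl.Sh.D) (k : ℤ) :
    Sl.Sh.φ (s + 2 * π * (k : ℂ)) = Sl.Sh.φ s + (k : ℂ) * (2 * π) := by
  have h := (s10b_per_int (F := fun s => Sl.Sh.φ s - s) (fun _ h => Sl.s10b_D_pm h)
    (fun s h => by
      show Sl.Sh.φ (s + 2 * π) - (s + 2 * π) = Sl.Sh.φ s - s
      rw [Sl.Sh.φ_per s h]; ring) hs k).2
  linear_combination h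

theorem s10b_Γ_int {s : ℂ} (hs : s ∈ Sl.Sh.D) (hf : Sl.Sh.f s ≠ 0) (k : ℤ) :
    Sl.Sh.Γ (s + 2 * π * (k : ℂ)) = Sl.Sh.Γ s := by
  refine (s10b_per_int (U := {s | s ∈ Sl.Sh.D ∧ Sl.Sh.f s ≠ 0}) (F := Sl.Sh.Γ) ?_ ?_ ⟨hs, hf⟩ k).2
  · rintro s ⟨h1, h2⟩
    refine ⟨⟨(Sl.s10b_D_pm h1).1, by rwa [Sl.s10g_f_per h1]⟩, (Sl.s10b_D_pm h1).2, ?_⟩
    have h3 := Sl.s10g_f_per (Sl.s10b_D_pm h1).2
    rw [sub_add_cancel] at h3
    rwa [← h3]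
  · rintro s ⟨h1, h2⟩
    exact Sl.s10g_Γ_per h1 h2

section Shift

variable {Sl}
variable {σ σ' : ℤ → ℂ} {k : ℤ → ℤ}

theorem cf_shift (hσ : ∀ j, σ j ∈ Sl.Sh.D) (h : ∀ j, σ' j = σ j + 2 * π * (k j : ℂ)) (j : ℤ) :
    Sl.cf σ' j = Sl.cf σ j := by
  unfold cf
  rw [h, Sl.s10b_f_int (hσ j)]

theorem mem_D_shift (hσ : ∀ j, σ j ∈ Sl.Sh.D) (h : ∀ j, σ' j = σ j + 2 * π * (k j : ℂ)) (j : ℤ) :
    σ' j ∈ Sl.Sh.D := by
  rw [h]; exact Sl.s10b_D_int (hσ j) _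

theorem cψ_shift (hσ : ∀ j, σ j ∈ Sl.Sh.D) (h : ∀ j, σ' j = σ j + 2 * π * (k j : ℂ)) (j : ℤ) :
    Sl.cψ σ' j = Sl.cψ σ j + (k j : ℂ) * (2 * π) := by
  unfold cψ
  rw [h, Sl.s10b_φ_int (hσ j)]

theorem cθ_shift (hσ : ∀ j, σ j ∈ Sl.Sh.D) (h : ∀ j, σ' j = σ j + 2 * π * (k j : ℂ)) (j : ℤ) :
    Sl.cθ σ' j = Sl.cθ σ j +
      ((∑ m ∈ Finset.range Sl.N, (-1 : ℤ) ^ m * k (j - m) : ℤ) : ℂ) * (2 * π) := by
  unfold cθ
  simp only [cψ_shift hσ h, mul_add, Finset.sum_add_distrib]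
  push_cast
  rw [Finset.sum_mul]
  have : ∀ m : ℕ, (-1 : ℂ) ^ m * ((k (j - m) : ℂ) * (2 * π)) = (-1 : ℂ) ^ m * (k (j - m) : ℂ) * (2 * π) :=
    fun m => by ring
  simp only [this]
  ring

theorem cX_shift (hσ : ∀ j, σ j ∈ Sl.Sh.D) (hf : ∀ j, Sl.Sh.f (σ j) ≠ 0)
    (h : ∀ j, σ' j = σ j + 2 * π * (k j : ℂ)) (j : ℤ) : Sl.cX σ' j = Sl.cX σ j := by
  unfold cX
  rw [h, Sl.s10b_Γ_int (hσ j) (hf j)]

theorem csd_shift (hσ : ∀ j, σ j ∈ Sl.Sh.D) (h : ∀ j, σ' j = σ j + 2 * π * (k j : ℂ)) (j : ℤ) :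
    Sl.csd σ' j = Sl.csd σ j := by
  unfold csd
  rw [cθ_shift hσ h, cψ_shift hσ h]
  have e : Sl.cθ σ j + ((∑ m ∈ Finset.range Sl.N, (-1 : ℤ) ^ m * k (j - m) : ℤ) : ℂ) * (2 * π) -
      (Sl.cψ σ j + (k j : ℂ) * (2 * π)) = (Sl.cθ σ j - Sl.cψ σ j) +
      (((∑ m ∈ Finset.range Sl.N, (-1 : ℤ) ^ m * k (j - m)) - k j : ℤ) : ℂ) * (2 * π) := by
    push_cast; ring
  rw [e, Complex.sin_add_int_mul_two_pi]

theorem cℓ_shift (hσ : ∀ j, σ j ∈ Sl.Sh.D) (hf : ∀ j, Sl.Sh.f (σ j) ≠ 0)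
    (h : ∀ j, σ' j = σ j + 2 * π * (k j : ℂ)) (j : ℤ) : Sl.cℓ σ' j = Sl.cℓ σ j := by
  unfold cℓ
  rw [cθ_shift hσ h, cX_shift hσ hf h, cX_shift hσ hf h, evecC_add_two_pi]

theorem ctr_shift (hσ : ∀ j, σ j ∈ Sl.Sh.D) (hf : ∀ j, Sl.Sh.f (σ j) ≠ 0)
    (h : ∀ j, σ' j = σ j + 2 * π * (k j : ℂ)) (j : ℤ) : Sl.ctr σ' j = Sl.ctr σ j := by
  unfold ctr
  rw [cψ_shift hσ h, cψ_shift hσ h, cX_shift hσ hf h, cX_shift hσ hf h, evecC_add_two_pi,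
    reflC_add_two_pi]

theorem cV_shift (hσ : ∀ j, σ j ∈ Sl.Sh.D) (h : ∀ j, σ' j = σ j + 2 * π * (k j : ℂ)) (j : ℤ) :
    Sl.cV σ' j = Sl.cV σ j := by
  unfold cV
  rw [cf_shift hσ h, csd_shift hσ h]

theorem cM₀_shift (hσ : ∀ j, σ j ∈ Sl.Sh.D) (hf : ∀ j, Sl.Sh.f (σ j) ≠ 0)
    (h : ∀ j, σ' j = σ j + 2 * π * (k j : ℂ)) : Sl.cM₀ σ' = Sl.cM₀ σ := by
  funext i k'
  unfold cM₀
  simp only [cℓ_shift hσ hf h]

theorem cB_shift (hσ : ∀ j, σ j ∈ Sl.Sh.D) (hf : ∀ j, Sl.Sh.f (σ j) ≠ 0)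
    (h : ∀ j, σ' j = σ j + 2 * π * (k j : ℂ)) (I F : Finset (Fin Sl.N)) : Sl.cB σ' I F = Sl.cB σ I F := by
  funext i k'
  unfold cB
  simp only [cM₀_shift hσ hf h, cV_shift hσ h]

theorem ccof_shift (hσ : ∀ j, σ j ∈ Sl.Sh.D) (hf : ∀ j, Sl.Sh.f (σ j) ≠ 0)
    (h : ∀ j, σ' j = σ j + 2 * π * (k j : ℂ)) (i : Fin Sl.N) : Sl.ccof σ' i = Sl.ccof σ i := by
  unfold ccof
  rw [cB_shift hσ hf h]

theorem cG_shift (κ : ℂ) (hσ : ∀ j, σ j ∈ Sl.Sh.D) (hf : ∀ j, Sl.Sh.f (σ j) ≠ 0)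
    (h : ∀ j, σ' j = σ j + 2 * π * (k j : ℂ)) (i : Fin Sl.N) : Sl.cG κ σ' i = Sl.cG κ σ i := by
  unfold cG
  simp only [cℓ_shift hσ hf h, ccof_shift hσ hf h, cf_shift hσ h, csd_shift hσ h]

/-- naturality under translation of the index. -/
theorem cθ_nat (σ : ℤ → ℂ) (n j : ℤ) : Sl.cθ σ (j + n) = Sl.cθ (fun i => σ (i + n)) j := by
  unfold cθ cψ
  congr 1
  refine Finset.sum_congr rfl fun m _ => ?_
  have : j + n - (m : ℤ) = j - m + n := by ring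
  rw [this]

/-- `N`-periodicity in the index for quasi-periodic sequences. -/
theorem c_add_N (hσ : ∀ j, σ j ∈ Sl.Sh.D) (hf : ∀ j, Sl.Sh.f (σ j) ≠ 0)
    (hq : ∀ j, σ (j + Sl.N) = σ j + 2 * π) (j : ℤ) :
    Sl.cf σ (j + Sl.N) = Sl.cf σ j ∧ Sl.csd σ (j + Sl.N) = Sl.csd σ j ∧
      Sl.cℓ σ (j + Sl.N) = Sl.cℓ σ j ∧ Sl.ctr σ (j + Sl.N) = Sl.ctr σ j := by
  have h : ∀ j, (fun i => σ (i + Sl.N)) j = σ j + 2 * π * (((fun _ => 1 : ℤ → ℤ) j : ℤ) : ℂ) := by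
    intro j
    simp [hq]
  have e1 : ∀ a : ℤ, j + Sl.N + a = j + a + Sl.N := fun a => by ring
  refine ⟨cf_shift hσ h j, ?_, ?_, ?_⟩
  · rw [← csd_shift hσ h j]
    unfold csd
    rw [cθ_nat]
    rfl
  · rw [← cℓ_shift hσ hf h j]
    unfold cℓ
    rw [cθ_nat]
    unfold cX
    rw [e1]
  · rw [← ctr_shift hσ hf h j]
    unfold ctr cX cψ
    rw [e1, e1]

/-- the angle system `θ_j + θ_{j+1} = 2 ψ_{j+1}` for quasi-periodic sequences (`N` odd; telescoping). -/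
theorem cθ_add (hσ : ∀ j, σ j ∈ Sl.Sh.D) (hq : ∀ j, σ (j + Sl.N) = σ j + 2 * π) (j : ℤ) :
    Sl.cθ σ j + Sl.cθ σ (j + 1) = 2 * Sl.cψ σ (j + 1) := by
  have h1 := s10g_alt_sum (fun i => Sl.cψ σ i) (j + 1) Sl.N
  have h2 : Sl.cψ σ (j + 1 - Sl.N) = Sl.cψ σ (j + 1) - 2 * π := by
    have h3 := hq (j + 1 - Sl.N)
    rw [sub_add_cancel] at h3
    unfold cψ
    rw [h3, Sl.Sh.φ_per _ (hσ _)]
    ring
  simp only [Sl.N_odd.neg_one_pow, h2, add_sub_cancel_right] at h1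
  unfold cθ
  linear_combination h1

end Shift

theorem cV₀_ext {x : Fin Sl.N → ℂ} (hx : x ∈ Sl.cV₀) (j : ℤ) :
    Sl.cext x j ∈ Sl.Sh.D ∧ Sl.Sh.f (Sl.cext x j) ≠ 0 := by
  unfold cext
  exact ⟨Sl.s10b_D_int (hx _).1 _, by rw [Sl.s10b_f_int (hx _).1]; exact (hx _).2⟩

theorem cU_ext {x : Fin Sl.N → ℂ} (hx : x ∈ Sl.cU) (j : ℤ) : Sl.ctr (Sl.cext x) j ≠ 0 := by
  have hp := fun j => c_add_N (fun j => (Sl.cV₀_ext hx.1.1 j).1) (fun j => (Sl.cV₀_ext hx.1.1 j).2)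
    (Sl.cext_add_N x) j
  exact s10g_forall_int (N := Sl.N) (P := fun j => Sl.ctr (Sl.cext x) j ≠ 0)
    (fun j => by rw [(hp j).2.2.2]) (fun i => (hx.2 i).2) j

theorem cV₀_cshift {x : Fin Sl.N → ℂ} (hx : x ∈ Sl.cV₀) (m : Fin Sl.N → ℤ) : Sl.cshift x m ∈ Sl.cV₀ :=
  fun i => ⟨Sl.s10b_D_int (hx i).1 _, by
    show Sl.Sh.f (x i + 2 * π * (m i : ℂ)) ≠ 0
    rw [Sl.s10b_f_int (hx i).1]; exact (hx i).2⟩

theorem cU_cshift {x : Fin Sl.N → ℂ} (hx : x ∈ Sl.cU) (m : Fin Sl.N → ℤ) : Sl.cshift x m ∈ Sl.cU := by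
  have hσ := fun j => (Sl.cV₀_ext hx.1.1 j).1
  have hf := fun j => (Sl.cV₀_ext hx.1.1 j).2
  have h := Sl.cext_cshift x m
  refine ⟨⟨Sl.cV₀_cshift hx.1.1 m, fun i => ?_⟩, fun i => ?_⟩
  · rw [csd_shift hσ h, cℓ_shift hσ hf h]; exact hx.1.2 i
  · rw [ccof_shift hσ hf h, ctr_shift hσ hf h]; exact hx.2 i

theorem cG_cshift (κ : ℂ) {x : Fin Sl.N → ℂ} (hx : x ∈ Sl.cV₀) (m : Fin Sl.N → ℤ) (i : Fin Sl.N) :
    Sl.cG κ (Sl.cext (Sl.cshift x m)) i = Sl.cG κ (Sl.cext x) i :=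
  cG_shift κ (fun j => (Sl.cV₀_ext hx j).1) (fun j => (Sl.cV₀_ext hx j).2) (Sl.cext_cshift x m) i

theorem cBdd_cshift {B : ℝ} {x : Fin Sl.N → ℂ} (_hH : Sl.Sh.H ≠ ⊤) (hx : Sl.cBdd B x)
    (m : Fin Sl.N → ℤ) : Sl.cBdd B (Sl.cshift x m) := by
  have hB := Real.exp_pos (-B)
  have h0 : x ∈ Sl.cV₀ := by
    intro i
    refine ⟨?_, ?_⟩
    · show x i ∈ estrip Sl.Sh.G.Hs
      rw [Sl.s10g_estrip_eq]
      show |(x i).im| < Sl.H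
      linarith [(hx i).1]
    · intro h
      have := (hx i).2.1
      rw [h, norm_zero] at this
      linarith
  have hσ := fun j => (Sl.cV₀_ext h0 j).1
  have hf := fun j => (Sl.cV₀_ext h0 j).2
  have h := Sl.cext_cshift x m
  intro i
  rw [csd_shift hσ h, cℓ_shift hσ hf h, ccof_shift hσ hf h, ctr_shift hσ hf h]
  refine ⟨?_, ?_, (hx i).2.2⟩
  · have : (Sl.cshift x m i).im = (x i).im := by
      simp [cshift]
    rw [this]; exact (hx i).1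
  · show Real.exp (-B) ≤ ‖Sl.Sh.f (x i + 2 * π * (m i : ℂ))‖
    rw [Sl.s10b_f_int (h0 i).1]; exact (hx i).2.1

/-! ## LEAF LF-S10b-diff (proved) -/

/-- the determinant of a matrix with differentiable entries. -/
theorem s10b_det_diffAt {E : Type*} [NormedAddCommGroup E] [NormedSpace ℂ E] {n : ℕ}
    {M : E → Matrix (Fin n) (Fin n) ℂ} {x : E} (h : ∀ i k, DifferentiableAt ℂ (fun x => M x i k) x) :
    DifferentiableAt ℂ (fun x => (M x).det) x := by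
  simp only [Matrix.det_apply]
  refine DifferentiableAt.fun_sum fun σ _ => ?_
  refine DifferentiableAt.const_smul ?_ _
  exact (HasFDerivAt.finsetProd (u := Finset.univ) (g := fun i x => M x (σ i) i)
    fun i _ => (h (σ i) i).hasFDerivAt).differentiableAt

theorem cext_diff (j : ℤ) : Differentiable ℂ (fun x : Fin Sl.N → ℂ => Sl.cext x j) := by
  unfold cext
  fun_prop

/-- the regular points of the shape strip. -/
theorem isOpen_Dreg : IsOpen {s : ℂ | s ∈ Sl.Sh.D ∧ Sl.Sh.f s ≠ 0} :=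
  Sl.s10g_f_diff.continuousOn.isOpen_inter_preimage Sl.s10g_isOpen_D isOpen_compl_singleton

theorem isOpen_cV₀ : IsOpen Sl.cV₀ := by
  have h : Sl.cV₀ = ⋂ i : Fin Sl.N, (fun x : Fin Sl.N → ℂ => x i) ⁻¹' {s : ℂ | s ∈ Sl.Sh.D ∧ Sl.Sh.f s ≠ 0} := by
    ext x; simp [cV₀]
  rw [h]
  exact isOpen_iInter_of_finite fun i => Sl.isOpen_Dreg.preimage (continuous_apply i)

variable {Sl}
variable {x : Fin Sl.N → ℂ}

theorem cψ_diffAt (hx : x ∈ Sl.cV₀) (j : ℤ) : DifferentiableAt ℂ (fun x => Sl.cψ (Sl.cext x) j) x :=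
  DifferentiableAt.comp (g := Sl.Sh.φ) x (Sl.s10g_φ_diffAt (Sl.cV₀_ext hx j).1) (Sl.cext_diff j x)

theorem cf_diffAt (hx : x ∈ Sl.cV₀) (j : ℤ) : DifferentiableAt ℂ (fun x => Sl.cf (Sl.cext x) j) x :=
  DifferentiableAt.comp (g := Sl.Sh.f) x
    (Sl.s10g_f_diff.differentiableAt (Sl.s10g_isOpen_D.mem_nhds (Sl.cV₀_ext hx j).1)) (Sl.cext_diff j x)

theorem cX_diffAt (hx : x ∈ Sl.cV₀) (j : ℤ) : DifferentiableAt ℂ (fun x => Sl.cX (Sl.cext x) j) x :=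
  DifferentiableAt.comp (g := Sl.Sh.Γ) x
    (Sl.s10j_Γ_an (Sl.cV₀_ext hx j).1 (Sl.cV₀_ext hx j).2).differentiableAt (Sl.cext_diff j x)

theorem cθ_diffAt (hx : x ∈ Sl.cV₀) (j : ℤ) : DifferentiableAt ℂ (fun x => Sl.cθ (Sl.cext x) j) x := by
  unfold cθ
  refine (differentiableAt_const _).add (DifferentiableAt.fun_sum fun m _ => ?_)
  exact (cψ_diffAt hx _).const_mul _

theorem csd_diffAt (hx : x ∈ Sl.cV₀) (j : ℤ) : DifferentiableAt ℂ (fun x => Sl.csd (Sl.cext x) j) x :=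
  ((cθ_diffAt hx j).sub (cψ_diffAt hx j)).csin

theorem cℓ_diffAt (hx : x ∈ Sl.cV₀) (j : ℤ) : DifferentiableAt ℂ (fun x => Sl.cℓ (Sl.cext x) j) x := by
  unfold cℓ dotC evecC
  have h1 := (cX_diffAt hx (j + 1)).sub (cX_diffAt hx j)
  exact (h1.fst.mul (cθ_diffAt hx j).csin.neg).add (h1.snd.mul (cθ_diffAt hx j).ccos)

theorem ctr_diffAt (hx : x ∈ Sl.cV₀) (j : ℤ) : DifferentiableAt ℂ (fun x => Sl.ctr (Sl.cext x) j) x := by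
  unfold ctr crossC reflC dotC evecC nvecC
  have h1 := (cX_diffAt hx (j + 1)).sub (cX_diffAt hx j)
  have h2 := cψ_diffAt hx (j + 1)
  have h3 := cψ_diffAt hx (j + 2)
  have hd : DifferentiableAt ℂ (fun x => 2 * ((Sl.cX (Sl.cext x) (j + 1) - Sl.cX (Sl.cext x) j).1 *
      Complex.cos (Sl.cψ (Sl.cext x) (j + 1)) + (Sl.cX (Sl.cext x) (j + 1) - Sl.cX (Sl.cext x) j).2 *
      Complex.sin (Sl.cψ (Sl.cext x) (j + 1)))) x :=
    ((h1.fst.mul h2.ccos).add (h1.snd.mul h2.csin)).const_mul 2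
  simp only [Prod.fst_sub, Prod.snd_sub, Prod.smul_fst, Prod.smul_snd, smul_eq_mul] at hd ⊢
  exact ((h3.csin.neg).mul (h1.snd.sub (hd.mul h2.csin))).sub (h3.ccos.mul (h1.fst.sub (hd.mul h2.ccos)))

theorem cV₁_ext (hx : x ∈ Sl.cV₁) (j : ℤ) :
    Sl.csd (Sl.cext x) j ≠ 0 ∧ Sl.cℓ (Sl.cext x) j ≠ 0 := by
  have hp := fun j => c_add_N (fun j => (Sl.cV₀_ext hx.1 j).1) (fun j => (Sl.cV₀_ext hx.1 j).2)
    (Sl.cext_add_N x) j
  exact s10g_forall_int (N := Sl.N) (P := fun j => Sl.csd (Sl.cext x) j ≠ 0 ∧ Sl.cℓ (Sl.cext x) j ≠ 0)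
    (fun j => by rw [(hp j).2.1, (hp j).2.2.1]) hx.2 j

theorem cV_diffAt (hx : x ∈ Sl.cV₁) (j : ℤ) : DifferentiableAt ℂ (fun x => Sl.cV (Sl.cext x) j) x := by
  unfold cV
  have hc : (Sl.Sh.G.c : ℂ) ≠ 0 := by exact_mod_cast Sl.Sh.G.c_pos.ne'
  have h1 : DifferentiableAt ℂ (fun x => 2 * Sl.cf (Sl.cext x) j ^ 3) x :=
    ((cf_diffAt hx.1 j).fun_pow 3).const_mul 2
  have h2 : DifferentiableAt ℂ (fun x => (Sl.Sh.G.c : ℂ) * Sl.csd (Sl.cext x) j) x :=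
    (csd_diffAt hx.1 j).const_mul _
  simp only [div_eq_mul_inv]
  exact h1.mul (h2.inv (mul_ne_zero hc (cV₁_ext hx j).1))

theorem cℓ_inv_diffAt (hx : x ∈ Sl.cV₁) (j : ℤ) :
    DifferentiableAt ℂ (fun x => (Sl.cℓ (Sl.cext x) j)⁻¹) x :=
  (cℓ_diffAt hx.1 j).inv (cV₁_ext hx j).2

theorem cM₀_diffAt (hx : x ∈ Sl.cV₁) (i k : Fin Sl.N) :
    DifferentiableAt ℂ (fun x => Sl.cM₀ (Sl.cext x) i k) x := by
  unfold cM₀
  have hite : ∀ (p : Prop) [Decidable p] (g : (Fin Sl.N → ℂ) → ℂ), DifferentiableAt ℂ g x →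
      DifferentiableAt ℂ (fun x => if p then g x else 0) x := by
    intro p _ g hg
    by_cases hp : p
    · simpa [hp] using hg
    · simp [hp]
  exact ((hite _ _ ((cℓ_inv_diffAt hx _).add (cℓ_inv_diffAt hx _))).add
    (hite _ _ (cℓ_inv_diffAt hx _))).add (hite _ _ (cℓ_inv_diffAt hx _))

theorem cB_diffAt (hx : x ∈ Sl.cV₁) (I F : Finset (Fin Sl.N)) (i k : Fin Sl.N) :
    DifferentiableAt ℂ (fun x => Sl.cB (Sl.cext x) I F i k) x := by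
  unfold cB
  by_cases h1 : i ∈ I ∪ F ∧ k ∈ I ∪ F
  · simp only [if_pos h1]
    by_cases h2 : i = k ∧ i ∈ I
    · simp only [if_pos h2]
      exact (cM₀_diffAt hx i k).sub (cV_diffAt hx _)
    · simp only [if_neg h2]
      exact (cM₀_diffAt hx i k).sub (differentiableAt_const _)
  · simp only [if_neg h1]
    exact differentiableAt_const _

theorem ccof_diffAt (hx : x ∈ Sl.cV₁) (i : Fin Sl.N) :
    DifferentiableAt ℂ (fun x => Sl.ccof (Sl.cext x) i) x :=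
  s10b_det_diffAt fun a b => cB_diffAt hx _ _ a b

variable (Sl)

theorem isOpen_cV₁ : IsOpen Sl.cV₁ := by
  have h : Sl.cV₁ = ⋂ i : Fin Sl.N, (Sl.cV₀ ∩ (fun x => Sl.csd (Sl.cext x) ⟪i⟫) ⁻¹' {0}ᶜ) ∩
      (Sl.cV₀ ∩ (fun x => Sl.cℓ (Sl.cext x) ⟪i⟫) ⁻¹' {0}ᶜ) := by
    ext x
    simp only [cV₁, mem_ofPred_eq, mem_iInter, mem_inter_iff, mem_preimage, mem_compl_iff,
      mem_singleton_iff]
    constructor
    · exact fun h i => ⟨⟨h.1, (h.2 i).1⟩, h.1, (h.2 i).2⟩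
    · exact fun h => ⟨(h ⟨0, Nat.pos_of_ne_zero (NeZero.ne _)⟩).1.1, fun i => ⟨(h i).1.2, (h i).2.2⟩⟩
  rw [h]
  refine isOpen_iInter_of_finite fun i => IsOpen.inter ?_ ?_
  · exact ContinuousOn.isOpen_inter_preimage
      (fun x hx => (csd_diffAt hx _).continuousAt.continuousWithinAt) Sl.isOpen_cV₀ isOpen_compl_singleton
  · exact ContinuousOn.isOpen_inter_preimage
      (fun x hx => (cℓ_diffAt hx _).continuousAt.continuousWithinAt) Sl.isOpen_cV₀ isOpen_compl_singleton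

theorem isOpen_cU : IsOpen Sl.cU := by
  have h : Sl.cU = ⋂ i : Fin Sl.N, (Sl.cV₁ ∩ (fun x => Sl.ccof (Sl.cext x) i) ⁻¹' {0}ᶜ) ∩
      (Sl.cV₁ ∩ (fun x => Sl.ctr (Sl.cext x) ⟪i⟫) ⁻¹' {0}ᶜ) := by
    ext x
    simp only [cU, mem_ofPred_eq, mem_iInter, mem_inter_iff, mem_preimage, mem_compl_iff,
      mem_singleton_iff]
    constructor
    · exact fun h i => ⟨⟨h.1, (h.2 i).1⟩, h.1, (h.2 i).2⟩
    · exact fun h => ⟨(h ⟨0, Nat.pos_of_ne_zero (NeZero.ne _)⟩).1.1, fun i => ⟨(h i).1.2, (h i).2.2⟩⟩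
  rw [h]
  refine isOpen_iInter_of_finite fun i => IsOpen.inter ?_ ?_
  · exact ContinuousOn.isOpen_inter_preimage
      (fun x hx => (ccof_diffAt hx _).continuousAt.continuousWithinAt) Sl.isOpen_cV₁ isOpen_compl_singleton
  · exact ContinuousOn.isOpen_inter_preimage
      (fun x hx => (ctr_diffAt hx.1 _).continuousAt.continuousWithinAt) Sl.isOpen_cV₁ isOpen_compl_singleton

theorem cG_diff (κ : ℂ) (i : Fin Sl.N) :
    DifferentiableOn ℂ (fun x => Sl.cG κ (Sl.cext x) i) Sl.cU := by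
  intro x hx
  have hc : (Sl.Sh.G.c : ℂ) ≠ 0 := by exact_mod_cast Sl.Sh.G.c_pos.ne'
  unfold cG
  have hprod : DifferentiableAt ℂ (fun x => ∏ j : Fin Sl.N, Sl.cℓ (Sl.cext x) ⟪j⟫) x :=
    (HasFDerivAt.finsetProd (u := Finset.univ) (g := fun (j : Fin Sl.N) x => Sl.cℓ (Sl.cext x) ⟪j⟫)
      fun j _ => (cℓ_diffAt hx.1.1 ⟪j⟫).hasFDerivAt).differentiableAt
  refine DifferentiableAt.differentiableWithinAt ?_
  have h1 : DifferentiableAt ℂ (fun x => κ * (∏ j : Fin Sl.N, Sl.cℓ (Sl.cext x) ⟪j⟫) *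
      Sl.ccof (Sl.cext x) i * Sl.cf (Sl.cext x) ⟪i⟫ ^ 4) x :=
    ((hprod.const_mul κ).mul (ccof_diffAt hx.1 i)).mul ((cf_diffAt hx.1.1 _).fun_pow 4)
  have h2 : DifferentiableAt ℂ (fun x => (Sl.Sh.G.c : ℂ) ^ 2 * Sl.csd (Sl.cext x) ⟪i⟫ ^ 2) x :=
    ((csd_diffAt hx.1.1 _).fun_pow 2).const_mul _
  simp only [div_eq_mul_inv]
  exact h1.mul (h2.inv (mul_ne_zero (pow_ne_zero _ hc) (pow_ne_zero _ (hx.1.2 i).1)))

theorem cG_ne {κ : ℂ} (hκ : κ ≠ 0) {x : Fin Sl.N → ℂ} (hx : x ∈ Sl.cU) (i : Fin Sl.N) :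
    Sl.cG κ (Sl.cext x) i ≠ 0 := by
  have hc : (Sl.Sh.G.c : ℂ) ≠ 0 := by exact_mod_cast Sl.Sh.G.c_pos.ne'
  unfold cG
  refine div_ne_zero (mul_ne_zero (mul_ne_zero (mul_ne_zero hκ ?_) (hx.2 i).1) (pow_ne_zero _ ?_))
    (mul_ne_zero (pow_ne_zero _ hc) (pow_ne_zero _ (hx.1.2 i).1))
  · exact Finset.prod_ne_zero_iff.2 fun j _ => (hx.1.2 j).2
  · exact (Sl.cV₀_ext hx.1.1 ⟪i⟫).2

/-! ## LEAF LF-S10b-lim (proved) -/

theorem cU_of_tendsto (_hH : Sl.Sh.H ≠ ⊤) {B : ℝ} {x : ℕ → Fin Sl.N → ℂ} {xs : Fin Sl.N → ℂ}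
    (hx : ∀ n, Sl.cBdd B (x n)) (ht : Tendsto x atTop (𝓝 xs)) : xs ∈ Sl.cU := by
  have hB := Real.exp_pos (-B)
  have hB2 := Real.exp_pos (-(2 * B))
  have hti : ∀ i, Tendsto (fun n => x n i) atTop (𝓝 (xs i)) := fun i => (tendsto_pi_nhds.1 ht) i
  have key : ∀ (g : (Fin Sl.N → ℂ) → ℂ) (c : ℝ), 0 < c → ContinuousAt g xs → (∀ n, c ≤ ‖g (x n)‖) →
      g xs ≠ 0 := by
    intro g c hc hg hn
    have h1 : Tendsto (fun n => ‖g (x n)‖) atTop (𝓝 ‖g xs‖) := (hg.tendsto.comp ht).norm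
    have h2 : c ≤ ‖g xs‖ := ge_of_tendsto' h1 hn
    intro h0
    rw [h0, norm_zero] at h2
    linarith
  have hD : ∀ i, xs i ∈ Sl.Sh.D := by
    intro i
    have h1 : Tendsto (fun n => |(x n i).im|) atTop (𝓝 |(xs i).im|) :=
      ((Complex.continuous_im.tendsto _).comp (hti i)).abs
    have h2 : |(xs i).im| ≤ Sl.H - Real.exp (-B) := le_of_tendsto' h1 fun n => (hx n i).1
    show xs i ∈ estrip Sl.Sh.G.Hs
    rw [Sl.s10g_estrip_eq]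
    show |(xs i).im| < Sl.H
    linarith
  have h0 : xs ∈ Sl.cV₀ := by
    intro i
    refine ⟨hD i, ?_⟩
    have hc : ContinuousAt (fun x : Fin Sl.N → ℂ => Sl.Sh.f (x i)) xs :=
      ContinuousAt.comp (g := Sl.Sh.f)
        (Sl.s10g_f_diff.differentiableAt (Sl.s10g_isOpen_D.mem_nhds (hD i))).continuousAt
        (continuous_apply i).continuousAt
    exact key _ _ hB hc fun n => (hx n i).2.1
  have h1 : xs ∈ Sl.cV₁ := ⟨h0, fun i =>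
    ⟨key _ _ hB (csd_diffAt h0 _).continuousAt fun n => (hx n i).2.2.1,
      key _ _ hB (cℓ_diffAt h0 _).continuousAt fun n => (hx n i).2.2.2.1⟩⟩
  exact ⟨h1, fun i =>
    ⟨key _ _ hB (ccof_diffAt h1 _).continuousAt fun n => (hx n i).2.2.2.2.1,
      key _ _ hB2 (ctr_diffAt h0 _).continuousAt fun n => (hx n i).2.2.2.2.2⟩⟩

end Slice

end Claimed.Agent.R269
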