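/-
Row 269, P1 Section 10.1, package BP-S10a (architect: helper230).  HOST-FREE (Mathlib + the two definitions of S10/GeoLin.lean).
PROVED (helper230); auxiliary lemmas prefix `cyc2_`.

LEAF LF-S10g-lin2 = `cyc_cofactor`  (P1 Lemma 10.2, the determinant; replaces Cauchy-Binet / matrix tree), ~400 lines.
  1. Reduce to `i = 0`: `Matrix.det_submatrix_equiv_self (Equiv.addRight i)`; the submatrix of `cycB b V (erase i) ∅` is
     `cycB b' V' (erase 0) ∅` for the shifted sequences `b' j = b (j + i)`, ... (use the periodicity to identify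
     `b (((k + i : Fin N) : ℕ) : ℤ) = b ((k : ℕ) + (i : ℕ))`); all hypotheses are shift invariant; the product is reindexed by the same equiv.
  2. `i = 0`.  Put `u j = v j * w 0 - v 0 * w j`: a solution of the recurrence with `u 0 = 0`, `b 0 * u 1 = A`, `u N = N * w 0 ^ 2`.
     `u (m+1) * w m - u m * w (m+1) = w 0 * A / b m`, so `u m / (A w m w 0)` is a sum of positive reals for `m ≥ 1`: `u m ≠ 0` for `m ≥ 1`.
  3. `K = cycB .. (erase 0) ∅`.  Let `U k m = if m = 0 then (if k = 0 then 1 else 0) else if k ≠ 0 ∧ k ≤ m then u k else 0`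
     (upper triangular, diagonal `1, u 1, .., u (N-1)`).  Then `T = K * U` is lower triangular with diagonal
     `1, - b 1 * u 2, .., - b (N-1) * u N`  (row `r < m`: the recurrence at `r`; row `r = m`: the recurrence at `m` without its last term;
     row `r = m + 1`: `b m * u m`; rows `r > m + 1`: `0`).
     `Matrix.det_mul`, `Matrix.det_of_upperTriangular`, `Matrix.det_of_lowerTriangular`, cancel `∏_{2 ≤ m ≤ N-1} u m ≠ 0`.
  The formula has been checked with exact rational arithmetic for `N = 3, 4, 5, 7`.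
-/
import Claimed.Agent.R269.S10.GeoLin

set_option autoImplicit false

namespace Claimed.Agent.R269

open Finset

local notation "⟪" i "⟫" => ((Fin.val i : ℕ) : ℤ)

theorem cyc2_val_sub_one {N : ℕ} [NeZero N] {r : Fin N} (hr : r ≠ 0) : ⟪r - 1⟫ = ⟪r⟫ - 1 := by
  have h1 : (r - 1).val = r.val - 1 := Fin.val_sub_one_of_ne_zero hr
  have h2 : 1 ≤ r.val := Nat.one_le_iff_ne_zero.2 (fun h => hr (Fin.ext (by simpa using h)))
  rw [h1]
  push_cast [Nat.cast_sub h2]
  ring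

theorem cyc2_val_add_one {N : ℕ} [NeZero N] (h2 : 2 ≤ N) {α : Type*} (ζ : ℤ → α) (h : ζ N = ζ 0) (r : Fin N) :
    ζ ⟪r + 1⟫ = ζ (⟪r⟫ + 1) := by
  have h1 : (r + 1).val = (r.val + 1) % N := by
    rw [Fin.val_add, Fin.val_one', Nat.mod_eq_of_lt h2]
  by_cases hr : r.val + 1 < N
  · rw [h1, Nat.mod_eq_of_lt hr]
    push_cast
    rfl
  · have h3 : r.val + 1 = N := by have := r.isLt; omega
    rw [h1, h3, Nat.mod_self]
    have h4 : ⟪r⟫ + 1 = (N : ℤ) := by exact_mod_cast h3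
    rw [h4, h]
    simp

theorem cyc2_row {N : ℕ} [NeZero N] (b V z : Fin N → ℂ) (hz : z 0 = 0) {r : Fin N} (hr : r ≠ 0) :
    (cycB b V (univ.erase 0) ∅).mulVec z r = (cycM b).mulVec z r - V r * z r := by
  have h : ∀ k, cycB b V (univ.erase 0) ∅ r k * z k = cycM b r k * z k - (if r = k then V r * z k else 0) := by
    intro k
    by_cases hk : k = 0
    · subst hk
      simp [hz]
    · by_cases hrk : r = k
      · simp [cycB, hk, hrk, sub_mul]
      · simp [cycB, hr, hk, hrk]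
  simp only [Matrix.mulVec, dotProduct, h, Finset.sum_sub_distrib, Finset.sum_ite_eq, mem_univ, if_true]

theorem cyc2_row0 {N : ℕ} [NeZero N] (b V z : Fin N → ℂ) :
    (cycB b V (univ.erase 0) ∅).mulVec z 0 = z 0 := by
  have h : ∀ k, cycB b V (univ.erase 0) ∅ 0 k * z k = if 0 = k then z k else 0 := by
    intro k
    by_cases hk : 0 = k
    · simp [cycB, hk]
    · simp [cycB, hk]
  simp only [Matrix.mulVec, dotProduct, h, Finset.sum_ite_eq, mem_univ, if_true]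

/-- a row of the deleted matrix applied to a vector given by an integer sequence. -/
theorem cyc2_row_int {N : ℕ} [NeZero N] (h2 : 2 ≤ N) (b V ζ : ℤ → ℂ) (h0 : ζ 0 = 0) (hN : ζ N = 0) {r : Fin N} (hr : r ≠ 0) :
    (cycB (fun k : Fin N => b ⟪k⟫) (fun k : Fin N => V ⟪k⟫) (univ.erase 0) ∅).mulVec (fun k => ζ ⟪k⟫) r
      = b (⟪r⟫ - 1) * (ζ (⟪r⟫ - 1) + ζ ⟪r⟫) + b ⟪r⟫ * (ζ ⟪r⟫ + ζ (⟪r⟫ + 1)) - V ⟪r⟫ * ζ ⟪r⟫ := by
  rw [cyc2_row _ _ _ (by simpa using h0) hr, cycM_mulVec, cyc2_val_sub_one hr, cyc2_val_add_one h2 ζ (by rw [hN, h0]) r]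

theorem cyc2_prod_fin {N : ℕ} [NeZero N] (g : ℤ → ℂ) :
    ∏ m : Fin N, (if m = 0 then 1 else g ⟪m⟫) = ∏ k ∈ range (N - 1), g ((k : ℤ) + 1) := by
  have h1 : ∀ m : Fin N, (if m = 0 then 1 else g ⟪m⟫) = (fun k : ℕ => if k = 0 then 1 else g (k : ℤ)) m.val := by
    intro m
    have : m = 0 ↔ m.val = 0 := by rw [Fin.ext_iff]; simp
    simp only [this]
  simp only [h1]
  rw [Fin.prod_univ_eq_prod_range (fun k : ℕ => if k = 0 then 1 else g (k : ℤ)) N]
  obtain ⟨n, hn⟩ : ∃ n, N = n + 1 := ⟨N - 1, by have := NeZero.pos N; omega⟩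
  rw [hn, Finset.prod_range_succ']
  simp

theorem cyc2_prod_fin' {N : ℕ} [NeZero N] (g : ℤ → ℂ) :
    ∏ m : Fin N, g ⟪m⟫ = g 0 * ∏ k ∈ range (N - 1), g ((k : ℤ) + 1) := by
  rw [Fin.prod_univ_eq_prod_range (fun k : ℕ => g (k : ℤ)) N]
  obtain ⟨n, hn⟩ : ∃ n, N = n + 1 := ⟨N - 1, by have := NeZero.pos N; omega⟩
  rw [hn, Finset.prod_range_succ']
  simp [mul_comm]

theorem cyc2_main {N : ℕ} [NeZero N] (h3 : 3 ≤ N) (b V w v : ℤ → ℂ) (A : ℂ)
    (hwN : w N = w 0) (hvN : v N = v 0 + N * w 0)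
    (hbpos : ∀ j, 0 < (b j).re ∧ (b j).im = 0) (hwpos : ∀ j, 0 < (w j).re ∧ (w j).im = 0) (hA : A ≠ 0)
    (hw : ∀ j, b (j - 1) * (w (j - 1) + w j) + b j * (w j + w (j + 1)) = V j * w j)
    (hv : ∀ j, b (j - 1) * (v (j - 1) + v j) + b j * (v j + v (j + 1)) = V j * v j)
    (hW : ∀ j, b j * (w j * v (j + 1) - v j * w (j + 1)) = A) :
    A * (cycB (fun k : Fin N => b ⟪k⟫) (fun k : Fin N => V ⟪k⟫) (univ.erase 0) ∅).det
      = (-1) ^ (N - 1) * N * w 0 ^ 2 * ∏ k : Fin N, b ⟪k⟫ := by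
  have h2 : 2 ≤ N := by omega
  set u : ℤ → ℂ := fun j => v j * w 0 - v 0 * w j with hu
  have hu_rec : ∀ j, b (j - 1) * (u (j - 1) + u j) + b j * (u j + u (j + 1)) = V j * u j := by
    intro j
    simp only [hu]
    linear_combination w 0 * hv j - v 0 * hw j
  have hu0 : u 0 = 0 := by simp only [hu]; ring
  have hu1 : b 0 * u 1 = A := by
    have := hW 0
    simp only [zero_add] at this
    simp only [hu]
    linear_combination this
  have huN : u N = N * w 0 ^ 2 := by simp only [hu, hwN, hvN]; ring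
  have hu_wron : ∀ j, b j * (w j * u (j + 1) - u j * w (j + 1)) = w 0 * A := by
    intro j
    simp only [hu]
    linear_combination w 0 * hW j
  have hbr : ∀ j, b j = (((b j).re : ℝ) : ℂ) := fun j => Complex.ext (by simp) (by simp [(hbpos j).2])
  have hwr : ∀ j, w j = (((w j).re : ℝ) : ℂ) := fun j => Complex.ext (by simp) (by simp [(hwpos j).2])
  have hbne : ∀ j, b j ≠ 0 := fun j h => by have := (hbpos j).1; rw [h] at this; simp at this
  have hwne : ∀ j, w j ≠ 0 := fun j h => by have := (hwpos j).1; rw [h] at this; simp at this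
  have hu_pos : ∀ m : ℕ, ∃ r : ℝ, 0 < r ∧ u ((m : ℤ) + 1) = A * r := by
    intro m
    induction m with
    | zero =>
      refine ⟨((b 0).re)⁻¹, inv_pos.2 (hbpos 0).1, ?_⟩
      push_cast
      rw [← hbr 0, ← hu1]
      have n0 := hbne 0
      field_simp
    | succ m ih =>
      obtain ⟨r, hr, hur⟩ := ih
      have hj := hu_wron ((m : ℤ) + 1)
      refine ⟨((w 0).re / (b ((m : ℤ) + 1)).re + r * (w ((m : ℤ) + 1 + 1)).re) / (w ((m : ℤ) + 1)).re, ?_, ?_⟩
      · have h1 := (hwpos 0).1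
        have h2 := (hbpos ((m : ℤ) + 1)).1
        have h3 := (hwpos ((m : ℤ) + 1 + 1)).1
        have h4 := (hwpos ((m : ℤ) + 1)).1
        positivity
      · push_cast
        rw [← hbr, ← hwr, ← hwr, ← hwr]
        have n1 := hbne ((m : ℤ) + 1)
        have n2 := hwne ((m : ℤ) + 1)
        rw [hur] at hj
        field_simp
        linear_combination hj
  have hu_ne : ∀ m : ℕ, u ((m : ℤ) + 1) ≠ 0 := by
    intro m
    obtain ⟨r, hr, hur⟩ := hu_pos m
    rw [hur]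
    exact mul_ne_zero hA (by exact_mod_cast hr.ne')
  set K := cycB (fun k : Fin N => b ⟪k⟫) (fun k : Fin N => V ⟪k⟫) (univ.erase 0) ∅ with hK
  set U : Matrix (Fin N) (Fin N) ℂ :=
    fun k m => if m = 0 then (if k = 0 then 1 else 0) else (if k ≤ m then u ⟪k⟫ else 0) with hU
  have hUtri : U.IsUpperTriangular := by
    intro k m hmk
    have hmk' : m < k := hmk
    simp only [hU]
    by_cases hm : m = 0
    · have hk : k ≠ 0 := fun h => by rw [h, hm] at hmk'; exact lt_irrefl _ hmk'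
      simp [hm, hk]
    · simp [hm, not_le.2 hmk']
  have hUdiag : ∀ m, U m m = if m = 0 then 1 else u ⟪m⟫ := by
    intro m
    simp only [hU]
    by_cases hm : m = 0
    · simp [hm]
    · simp [hm]
  have hcol : ∀ m : Fin N, m ≠ 0 →
      (fun k => U k m) = fun k : Fin N => (fun j : ℤ => if j ≤ ⟪m⟫ then u j else 0) ⟪k⟫ := by
    intro m hm
    funext k
    simp only [hU, hm, if_false, Fin.le_def, Nat.cast_le]
  have hent : ∀ r m : Fin N, r ≠ 0 → m ≠ 0 → (K * U) r m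
      = b (⟪r⟫ - 1) * ((if ⟪r⟫ - 1 ≤ ⟪m⟫ then u (⟪r⟫ - 1) else 0) + (if ⟪r⟫ ≤ ⟪m⟫ then u ⟪r⟫ else 0))
        + b ⟪r⟫ * ((if ⟪r⟫ ≤ ⟪m⟫ then u ⟪r⟫ else 0) + (if ⟪r⟫ + 1 ≤ ⟪m⟫ then u (⟪r⟫ + 1) else 0))
        - V ⟪r⟫ * (if ⟪r⟫ ≤ ⟪m⟫ then u ⟪r⟫ else 0) := by
    intro r m hr hm
    have h1 : (K * U) r m = K.mulVec (fun k => U k m) r := rfl
    rw [h1, hcol m hm, hK]
    refine cyc2_row_int h2 b V (fun j : ℤ => if j ≤ ⟪m⟫ then u j else 0) ?_ ?_ hr
    · simp [hu0]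
    · have : ¬ ((N : ℤ) ≤ ⟪m⟫) := by have := m.isLt; omega
      simp [this]
  have hlow : (K * U).IsLowerTriangular := by
    intro r m h
    have hrm : r < m := h
    have hm : m ≠ 0 := fun h0 => by
      rw [h0] at hrm
      have : r.val < (0 : Fin N).val := hrm
      simp at this
    by_cases hr : r = 0
    · have h1 : (K * U) r m = K.mulVec (fun k => U k m) r := rfl
      rw [h1, hr, hK, cyc2_row0]
      simp [hU, hm, hu0]
    · rw [hent r m hr hm]
      have h1 : ⟪r⟫ + 1 ≤ ⟪m⟫ := by have : r.val < m.val := hrm; omega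
      have h2 : ⟪r⟫ ≤ ⟪m⟫ := by omega
      have h3 : ⟪r⟫ - 1 ≤ ⟪m⟫ := by omega
      rw [if_pos h1, if_pos h2, if_pos h3]
      linear_combination hu_rec ⟪r⟫
  have hdiag : ∀ m, (K * U) m m = if m = 0 then 1 else (fun j : ℤ => -(b j * u (j + 1))) ⟪m⟫ := by
    intro m
    by_cases hm : m = 0
    · have h1 : (K * U) m m = K.mulVec (fun k => U k m) m := rfl
      rw [h1, hm, hK, cyc2_row0]
      simp [hU]
    · rw [hent m m hm hm, if_neg hm]
      have h1 : ¬ (⟪m⟫ + 1 ≤ ⟪m⟫) := by omega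
      have h3 : ⟪m⟫ - 1 ≤ ⟪m⟫ := by omega
      rw [if_neg h1, if_pos le_rfl, if_pos h3]
      linear_combination hu_rec ⟪m⟫
  have hdet : K.det * U.det = (K * U).det := (Matrix.det_mul K U).symm
  rw [Matrix.det_of_isUpperTriangular hUtri, Matrix.det_of_isLowerTriangular _ hlow] at hdet
  simp only [hdiag, hUdiag] at hdet
  rw [cyc2_prod_fin u, cyc2_prod_fin (fun j : ℤ => -(b j * u (j + 1)))] at hdet
  rw [cyc2_prod_fin' b]
  obtain ⟨n, hn⟩ : ∃ n, N = n + 1 := ⟨N - 1, by omega⟩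
  have hn' : N - 1 = n := by omega
  rw [hn'] at hdet ⊢
  have hP : (∏ k ∈ range n, u ((k : ℤ) + 1)) ≠ 0 := Finset.prod_ne_zero_iff.2 fun k _ => hu_ne k
  have hQ : (∏ k ∈ range n, u ((k : ℤ) + 1 + 1)) * u 1 = (∏ k ∈ range n, u ((k : ℤ) + 1)) * u N := by
    have e1 := Finset.prod_range_succ (fun k : ℕ => u ((k : ℤ) + 1)) n
    have e2 := Finset.prod_range_succ' (fun k : ℕ => u ((k : ℤ) + 1)) n
    rw [e1] at e2
    have e3 : ((n : ℤ) + 1) = (N : ℤ) := by rw [hn]; push_cast; ring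
    rw [e3] at e2
    rw [e2]
    push_cast
    simp
  have hR : ∏ k ∈ range n, -(b ((k : ℤ) + 1) * u ((k : ℤ) + 1 + 1))
      = (-1) ^ n * (∏ k ∈ range n, b ((k : ℤ) + 1)) * ∏ k ∈ range n, u ((k : ℤ) + 1 + 1) := by
    have : ∀ k : ℕ, -(b ((k : ℤ) + 1) * u ((k : ℤ) + 1 + 1)) = (-1) * (b ((k : ℤ) + 1) * u ((k : ℤ) + 1 + 1)) := fun k => by ring
    simp only [this, Finset.prod_mul_distrib, Finset.prod_const, Finset.card_range]
    ring
  rw [hR] at hdet
  apply mul_right_cancel₀ hP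
  rw [← hu1]
  linear_combination (b 0 * u 1) * hdet + ((-1) ^ n * (∏ k ∈ range n, b ((k : ℤ) + 1)) * b 0) * hQ
    + ((-1) ^ n * (∏ k ∈ range n, b ((k : ℤ) + 1)) * b 0 * (∏ k ∈ range n, u ((k : ℤ) + 1))) * huN

theorem cyc2_shift {N : ℕ} [NeZero N] (b V : Fin N → ℂ) (i : Fin N) :
    (cycB b V (univ.erase i) ∅).submatrix (Equiv.addRight i) (Equiv.addRight i)
      = cycB (fun k => b (k + i)) (fun k => V (k + i)) (univ.erase 0) ∅ := by
  ext r k
  have e1 : r + i = k + i ↔ r = k := add_left_inj i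
  have e2 : k + i = r + i + 1 ↔ k = r + 1 := by rw [add_right_comm r i 1]; exact add_left_inj i
  have e3 : r + i = k + i + 1 ↔ r = k + 1 := by rw [add_right_comm k i 1]; exact add_left_inj i
  have e4 : r + i - 1 = r - 1 + i := by abel
  have e5 : ∀ x : Fin N, x + i ∈ univ.erase i ∪ ∅ ↔ x ∈ univ.erase (0 : Fin N) ∪ ∅ := by intro x; simp
  have e6 : r + i ∈ univ.erase i ↔ r ∈ univ.erase (0 : Fin N) := by simp
  simp only [Matrix.submatrix_apply, Equiv.coe_addRight, cycB, cycM, e1, e2, e3, e4, e5, e6]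

theorem cyc2_per_add {N : ℕ} [NeZero N] {α : Type*} (Q : ℤ → α) (h : ∀ j, Q (j + N) = Q j) (k i : Fin N) :
    Q ⟪k + i⟫ = Q (⟪k⟫ + ⟪i⟫) := by
  have h1 : (k + i).val = (k.val + i.val) % N := Fin.val_add k i
  by_cases hlt : k.val + i.val < N
  · rw [h1, Nat.mod_eq_of_lt hlt]
    push_cast
    rfl
  · have h2 : (k.val + i.val) % N = k.val + i.val - N := by
      rw [Nat.mod_eq_sub_mod (not_lt.1 hlt), Nat.mod_eq_of_lt (by have := k.isLt; have := i.isLt; omega)]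
    rw [h1, h2, ← h]
    congr 1
    push_cast [Nat.cast_sub (not_lt.1 hlt)]
    ring

/-- **LF-S10g-lin2.**  The deleted cofactor of a cyclic Jacobi matrix from a periodic solution `w` and a solution `v` with
`v (j + N) = v j + N w j` and Wronskian `A`. -/
theorem cyc_cofactor {N : ℕ} [NeZero N] (h3 : 3 ≤ N) (b V w v : ℤ → ℂ) (A : ℂ)
    (hbper : ∀ j, b (j + N) = b j) (hVper : ∀ j, V (j + N) = V j) (hwper : ∀ j, w (j + N) = w j)
    (hvper : ∀ j, v (j + N) = v j + N * w j)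
    (hbpos : ∀ j, 0 < (b j).re ∧ (b j).im = 0) (hwpos : ∀ j, 0 < (w j).re ∧ (w j).im = 0) (hA : A ≠ 0)
    (hw : ∀ j, b (j - 1) * (w (j - 1) + w j) + b j * (w j + w (j + 1)) = V j * w j)
    (hv : ∀ j, b (j - 1) * (v (j - 1) + v j) + b j * (v j + v (j + 1)) = V j * v j)
    (hW : ∀ j, b j * (w j * v (j + 1) - v j * w (j + 1)) = A) (i : Fin N) :
    A * (cycB (fun k : Fin N => b ((k : ℕ) : ℤ)) (fun k : Fin N => V ((k : ℕ) : ℤ)) (Finset.univ.erase i) ∅).det
      = (-1) ^ (N - 1) * N * w ((i : ℕ) : ℤ) ^ 2 * ∏ k : Fin N, b ((k : ℕ) : ℤ) := by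
  have s1 : ∀ j : ℤ, j + ⟪i⟫ - 1 = j - 1 + ⟪i⟫ := fun j => by ring
  have s2 : ∀ j : ℤ, j + ⟪i⟫ + 1 = j + 1 + ⟪i⟫ := fun j => by ring
  have h := cyc2_main h3 (fun j => b (j + ⟪i⟫)) (fun j => V (j + ⟪i⟫)) (fun j => w (j + ⟪i⟫)) (fun j => v (j + ⟪i⟫)) A
    (by simp only [zero_add]; rw [add_comm]; exact hwper _)
    (by simp only [zero_add]; rw [add_comm]; exact hvper _)
    (fun j => hbpos _) (fun j => hwpos _) hA
    (fun j => by have := hw (j + ⟪i⟫); rw [s1, s2] at this; exact this)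
    (fun j => by have := hv (j + ⟪i⟫); rw [s1, s2] at this; exact this)
    (fun j => by have := hW (j + ⟪i⟫); rw [s2] at this; exact this)
  simp only [zero_add, ← cyc2_per_add b hbper, ← cyc2_per_add V hVper] at h
  rw [← cyc2_shift (fun k : Fin N => b ⟪k⟫) (fun k : Fin N => V ⟪k⟫) i, Matrix.det_submatrix_equiv_self] at h
  rw [h]
  congr 1
  exact Equiv.prod_comp (Equiv.addRight i) (fun k : Fin N => b ⟪k⟫)

end Claimed.Agent.R269
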