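/-
Row 269, P1 Section 10.1, package BP-S10a (architect: helper230).  GeoWron: THE SECOND SOLUTION of the Jacobi recurrence on the base strip.
Differentiating the three collar relations
  `Γ(lift z) · n_{Θ(z.1 ± z.2/2, z.2)} = p(z.1 ± z.2/2, z.2)`,   `φ(lift z) = (Θ(z.1 - z.2/2, z.2) + Θ(z.1 + z.2/2, z.2)) / 2`
along the line `u ↦ (y + j (t₀ + u), t₀ + u)` gives `v_j = c sin d_j⁰ f_j⁻² σ̇_j` with
  `v_{j+N} = v_j + N w_j`,   the recurrence of `w`,   and the Wronskian `(w_j v_{j+1} - v_j w_{j+1}) / ℓ_j = A(t₀)` (area form).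
-/
import Claimed.Agent.R269.S10.GeoChord

set_option autoImplicit false

namespace Claimed.Agent.R269

open Complex ComplexConjugate Metric Set Filter Topology
open scoped Real ENNReal

local notation "⟪" i "⟫" => ((Fin.val i : ℕ) : ℤ)

/-- derivative along a line of a function of two complex variables. -/
theorem s10g_hasDerivAt_line {F : ℂ × ℂ → ℂ} {a b : ℂ} (hF : DifferentiableAt ℂ F (a, b)) (κ μ : ℂ) :
    HasDerivAt (fun u : ℂ => F (a + κ * u, b + μ * u))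
      (κ * deriv (fun y => F (y, b)) a + μ * deriv (fun t => F (a, t)) b) 0 := by
  have hc : HasDerivAt (fun u : ℂ => (a + κ * u, b + μ * u)) (κ, μ) 0 := by
    have h1 : HasDerivAt (fun u : ℂ => a + κ * u) κ 0 := by
      simpa using ((hasDerivAt_id (0 : ℂ)).const_mul κ).const_add a
    have h2 : HasDerivAt (fun u : ℂ => b + μ * u) μ 0 := by
      simpa using ((hasDerivAt_id (0 : ℂ)).const_mul μ).const_add b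
    exact h1.prodMk h2
  have hF0 : HasFDerivAt F (fderiv ℂ F (a, b)) ((fun u : ℂ => (a + κ * u, b + μ * u)) 0) := by
    simpa using hF.hasFDerivAt
  have h := hF0.comp_hasDerivAt 0 hc
  have h1 : HasDerivAt (fun y => F (y, b)) (fderiv ℂ F (a, b) (1, 0)) a :=
    hF.hasFDerivAt.comp_hasDerivAt a ((hasDerivAt_id a).prodMk (hasDerivAt_const a b))
  have h2 : HasDerivAt (fun t => F (a, t)) (fderiv ℂ F (a, b) (0, 1)) b :=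
    hF.hasFDerivAt.comp_hasDerivAt b ((hasDerivAt_const b a).prodMk (hasDerivAt_id b))
  rw [h1.deriv, h2.deriv]
  refine h.congr_deriv ?_
  have e : ((κ, μ) : ℂ × ℂ) = κ • (1, 0) + μ • (0, 1) := by simp
  rw [e, map_add, map_smul, map_smul]
  simp

namespace Slice

variable (Sl : Slice)

/-- the differentiated incidence relation along a curve. -/
theorem s10g_var_curve {Sg T P : ℂ → ℂ} {σ' τ π' S : ℂ} (hS : S ∈ estrip Sl.Sh.G.Hs) (hf : Sl.Sh.f S ≠ 0) (h0 : S = Sg 0)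
    (hσ : HasDerivAt Sg σ' 0) (hθ : HasDerivAt T τ 0) (hp : HasDerivAt P π' 0)
    (hK : ∀ᶠ u in 𝓝 (0 : ℂ), dotC (Sl.Sh.Γ (Sg u)) (nvecC (T u)) = P u) :
    Sl.Sh.G.c * (Sl.Sh.f S)⁻¹ ^ 2 * σ' * Complex.sin (T 0 - Sl.Sh.φ S) + dotC (Sl.Sh.Γ S) (evecC (T 0)) * τ = π' := by
  have h1 := (Sl.s10g_Γ_hasDerivAt₁ hS hf).comp_of_eq 0 hσ h0
  have h2 := (Sl.s10g_Γ_hasDerivAt₂ hS hf).comp_of_eq 0 hσ h0
  have h3 := s10g_hasDerivAt_dot_n h1 h2 hθ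
  have h4 := h3.congr_of_eventuallyEq (f₁ := P) (hK.mono fun u hu => hu.symm)
  rw [← h4.unique hp, ← s10g_dot_e_n]
  simp only [Function.comp, ← h0, dotC]
  ring

theorem s10g_edge_mem_s {a b : ℂ} (hz : (a, b) ∈ Sl.Sh.baseD) {c₀ : ℂ} (hc : ‖c₀‖ ≤ 1 / 2) :
    a + c₀ * b ∈ hstrip Sl.Sh.G.s := by
  have hs := Sl.Sh.G.s4c_s_pos
  have h1 : |a.im| < Sl.Sh.G.s / 4 := hz.1
  have h2 : ‖b‖ < Sl.Sh.ρ := mem_ball_zero_iff.1 hz.2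
  have h3 := Sl.Sh.ρ_le
  have h4 := Sl.Sh.G.r₁_lt
  have h5 : |(c₀ * b).im| ≤ 1 / 2 * ‖b‖ := by
    refine (Complex.abs_im_le_norm _).trans ?_
    rw [norm_mul]
    exact mul_le_mul_of_nonneg_right hc (norm_nonneg _)
  show |(a + c₀ * b).im| < Sl.Sh.G.s
  rw [Complex.add_im]
  have := abs_add_le a.im (c₀ * b).im
  linarith

theorem s10g_line_mem {a b : ℂ} (hz : (a, b) ∈ Sl.Sh.baseD) (κ μ : ℂ) :
    ∀ᶠ u in 𝓝 (0 : ℂ), (a + κ * u, b + μ * u) ∈ Sl.Sh.baseD := by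
  have hcont : Continuous (fun u : ℂ => ((a + κ * u, b + μ * u) : ℂ × ℂ)) := by fun_prop
  exact hcont.continuousAt.eventually_mem (Sl.Sh.s10g_isOpen_baseD.mem_nhds (by simpa using hz))

theorem s10g_lift_line {a b : ℂ} (hz : (a, b) ∈ Sl.Sh.baseD) (κ μ : ℂ) :
    HasDerivAt (fun u : ℂ => Sl.Sh.lift (a + κ * u, b + μ * u))
      (κ * deriv (fun y => Sl.Sh.lift (y, b)) a + μ * deriv (fun t => Sl.Sh.lift (a, t)) b) 0 :=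
  s10g_hasDerivAt_line (Sl.Sh.s10g_lift_diff_base.differentiableAt (Sl.Sh.s10g_isOpen_baseD.mem_nhds hz)) κ μ

theorem s10g_dom_mem_nhds {a b : ℂ} (ha : a ∈ hstrip Sl.Sh.G.s) (hb : b ∈ ball (0 : ℂ) Sl.Sh.G.r₁) :
    hstrip (2 * Sl.Sh.G.s) ×ˢ ball (0 : ℂ) Sl.Sh.G.r₁ ∈ 𝓝 ((a, b) : ℂ × ℂ) :=
  ((s4c_isOpen_hstrip _).prod isOpen_ball).mem_nhds
    ⟨s10g_hstrip_mono (by have := Sl.Sh.G.s4c_s_pos; linarith) ha, hb⟩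

theorem s10g_Θ_line {a b : ℂ} (ha : a ∈ hstrip Sl.Sh.G.s) (hb : b ∈ ball (0 : ℂ) Sl.Sh.G.r₁) (κ μ : ℂ) :
    HasDerivAt (fun u : ℂ => Sl.Sh.G.Θ (a + κ * u) (b + μ * u))
      (κ * deriv (fun y => Sl.Sh.G.Θ y b) a + μ * deriv (fun t => Sl.Sh.G.Θ a t) b) 0 :=
  s10g_hasDerivAt_line (F := fun z : ℂ × ℂ => Sl.Sh.G.Θ z.1 z.2)
    (Sl.Sh.G.Θ_diff.differentiableAt (Sl.s10g_dom_mem_nhds ha hb)) κ μ

theorem s10g_p_line {a b : ℂ} (ha : a ∈ hstrip Sl.Sh.G.s) (hb : b ∈ ball (0 : ℂ) Sl.Sh.G.r₁) (κ μ : ℂ) :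
    HasDerivAt (fun u : ℂ => Sl.Sh.G.p (a + κ * u) (b + μ * u))
      (κ * deriv (fun y => Sl.Sh.G.p y b) a + μ * deriv (fun t => Sl.Sh.G.p a t) b) 0 :=
  s10g_hasDerivAt_line (F := fun z : ℂ × ℂ => Sl.Sh.G.p z.1 z.2)
    (Sl.Sh.G.p_diff.differentiableAt (Sl.s10g_dom_mem_nhds ha hb)) κ μ

/-- the differentiated incidence relation at a point of the base domain, in the direction `(κ, μ)`; `c₀ = ± 1/2`. -/
theorem s10g_var_inc {a b : ℂ} (hz : (a, b) ∈ Sl.Sh.baseD) (hf : Sl.Sh.f (Sl.Sh.lift (a, b)) ≠ 0) (κ μ : ℂ)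
    {c₀ : ℂ} (hc : ‖c₀‖ ≤ 1 / 2)
    (hK : ∀ z ∈ Sl.Sh.baseD, dotC (Sl.Sh.Γ (Sl.Sh.lift z)) (nvecC (Sl.Sh.G.Θ (z.1 + c₀ * z.2) z.2))
      = Sl.Sh.G.p (z.1 + c₀ * z.2) z.2) :
    Sl.Sh.G.c * (Sl.Sh.f (Sl.Sh.lift (a, b)))⁻¹ ^ 2
        * (κ * deriv (fun y => Sl.Sh.lift (y, b)) a + μ * deriv (fun t => Sl.Sh.lift (a, t)) b)
        * Complex.sin (Sl.Sh.G.Θ (a + c₀ * b) b - Sl.Sh.φ (Sl.Sh.lift (a, b)))
      + dotC (Sl.Sh.Γ (Sl.Sh.lift (a, b))) (evecC (Sl.Sh.G.Θ (a + c₀ * b) b))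
        * ((κ + c₀ * μ) * deriv (fun y => Sl.Sh.G.Θ y b) (a + c₀ * b) + μ * deriv (fun t => Sl.Sh.G.Θ (a + c₀ * b) t) b)
      = (κ + c₀ * μ) * deriv (fun y => Sl.Sh.G.p y b) (a + c₀ * b) + μ * deriv (fun t => Sl.Sh.G.p (a + c₀ * b) t) b := by
  have ha := Sl.s10g_edge_mem_s hz hc
  have hb : b ∈ ball (0 : ℂ) Sl.Sh.G.r₁ := ball_subset_ball Sl.Sh.ρ_le hz.2
  have h := Sl.s10g_var_curve (Sl.Sh.lift_mem _ (Sl.Sh.s10g_baseD_subset_tube hz)) hf (by simp)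
    (Sl.s10g_lift_line hz κ μ) (Sl.s10g_Θ_line ha hb (κ + c₀ * μ) μ) (Sl.s10g_p_line ha hb (κ + c₀ * μ) μ) ?_
  · simpa using h
  · filter_upwards [Sl.s10g_line_mem hz κ μ] with u hu
    have h1 := hK _ hu
    have e : a + κ * u + c₀ * (b + μ * u) = a + c₀ * b + (κ + c₀ * μ) * u := by ring
    simp only [e] at h1
    exact h1

/-- the differentiated angle relation. -/
theorem s10g_var_angle {a b : ℂ} (hz : (a, b) ∈ Sl.Sh.baseD) (κ μ : ℂ) :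
    Sl.Sh.f (Sl.Sh.lift (a, b))
        * (κ * deriv (fun y => Sl.Sh.lift (y, b)) a + μ * deriv (fun t => Sl.Sh.lift (a, t)) b)
      = (((κ + -(1 / 2) * μ) * deriv (fun y => Sl.Sh.G.Θ y b) (a + -(1 / 2) * b)
            + μ * deriv (fun t => Sl.Sh.G.Θ (a + -(1 / 2) * b) t) b)
          + ((κ + 1 / 2 * μ) * deriv (fun y => Sl.Sh.G.Θ y b) (a + 1 / 2 * b)
            + μ * deriv (fun t => Sl.Sh.G.Θ (a + 1 / 2 * b) t) b)) / 2 := by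
  have hb : b ∈ ball (0 : ℂ) Sl.Sh.G.r₁ := ball_subset_ball Sl.Sh.ρ_le hz.2
  have ha1 := Sl.s10g_edge_mem_s hz (c₀ := 1 / 2) (by norm_num)
  have ha2 := Sl.s10g_edge_mem_s hz (c₀ := -(1 / 2)) (by norm_num)
  have h1 := (Sl.s10g_φ_hasDerivAt (Sl.Sh.lift_mem _ (Sl.Sh.s10g_baseD_subset_tube hz))).comp_of_eq 0
    (Sl.s10g_lift_line hz κ μ) (by simp)
  have h2 := ((Sl.s10g_Θ_line ha2 hb (κ + -(1 / 2) * μ) μ).add (Sl.s10g_Θ_line ha1 hb (κ + 1 / 2 * μ) μ)).div_const 2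
  refine (h1.congr_of_eventuallyEq ?_).unique h2
  filter_upwards [Sl.s10g_line_mem hz κ μ] with u hu
  have h3 := Sl.Sh.s10g_dict hu
  simp only [Glance.ψm] at h3
  have e1 : a + κ * u - (b + μ * u) / 2 = a + -(1 / 2) * b + (κ + -(1 / 2) * μ) * u := by ring
  have e2 : a + κ * u + (b + μ * u) / 2 = a + 1 / 2 * b + (κ + 1 / 2 * μ) * u := by ring
  rw [e1, e2] at h3
  simp only [Function.comp, Pi.add_apply]
  exact h3.symm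

/-! ### the slice -/

/-- the `t`-derivative of the lift at the site `j`. -/
noncomputable def gLt (j : ℤ) (y : ℂ) : ℂ := deriv (fun t => Sl.Sh.lift (y + j * (Sl.t₀ : ℂ), t)) (Sl.t₀ : ℂ)

/-- the partial derivatives of the line coordinates at the edge `j`. -/
noncomputable def gΘy (j : ℤ) (y : ℂ) : ℂ :=
  deriv (fun y' => Sl.Sh.G.Θ y' (Sl.t₀ : ℂ)) (y + j * (Sl.t₀ : ℂ) + (Sl.t₀ : ℂ) / 2)

noncomputable def gΘt (j : ℤ) (y : ℂ) : ℂ :=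
  deriv (fun t => Sl.Sh.G.Θ (y + j * (Sl.t₀ : ℂ) + (Sl.t₀ : ℂ) / 2) t) (Sl.t₀ : ℂ)

noncomputable def gpy (j : ℤ) (y : ℂ) : ℂ :=
  deriv (fun y' => Sl.Sh.G.p y' (Sl.t₀ : ℂ)) (y + j * (Sl.t₀ : ℂ) + (Sl.t₀ : ℂ) / 2)

noncomputable def gpt (j : ℤ) (y : ℂ) : ℂ :=
  deriv (fun t => Sl.Sh.G.p (y + j * (Sl.t₀ : ℂ) + (Sl.t₀ : ℂ) / 2) t) (Sl.t₀ : ℂ)

/-- the second solution `v_j = c sin d_j⁰ f_j⁻² (j s_j' + ∂_t lift)`. -/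
noncomputable def gv (j : ℤ) (y : ℂ) : ℂ :=
  Sl.Sh.G.c * Sl.sd j y * (Sl.fj j y)⁻¹ ^ 2 * (j * Sl.s' j y + Sl.gLt j y)

theorem s10g_area (j : ℤ) {y : ℂ} (hy : y ∈ Sl.base) :
    Sl.gpy j y * Sl.gΘt j y - Sl.gpt j y * Sl.gΘy j y = Sl.Sh.G.A (Sl.t₀ : ℂ) :=
  Sl.Sh.G.area _ (s10g_hstrip_mono (by have := Sl.Sh.G.s4c_s_pos; linarith) (Sl.s10g_edge_mem j hy)) _ Sl.s10g_t₀_mem'

theorem s10g_inc_out : ∀ z ∈ Sl.Sh.baseD, dotC (Sl.Sh.Γ (Sl.Sh.lift z)) (nvecC (Sl.Sh.G.Θ (z.1 + 1 / 2 * z.2) z.2))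
    = Sl.Sh.G.p (z.1 + 1 / 2 * z.2) z.2 := by
  intro z hz
  have h1 := Sl.s10g_edge_mem_s (a := z.1) (b := z.2) hz (c₀ := -(1 / 2)) (by norm_num)
  have e1 : z.1 + -(1 / 2) * z.2 = z.1 - z.2 / 2 := by ring
  have e2 : z.1 + 1 / 2 * z.2 = z.1 + z.2 / 2 := by ring
  rw [e1] at h1
  rw [Sl.Sh.s10g_Γ_lift hz, e2]
  exact Sl.Sh.G.s10g_X0_dot_out h1 (ball_subset_ball Sl.Sh.ρ_le hz.2)

theorem s10g_inc_in : ∀ z ∈ Sl.Sh.baseD, dotC (Sl.Sh.Γ (Sl.Sh.lift z)) (nvecC (Sl.Sh.G.Θ (z.1 + -(1 / 2) * z.2) z.2))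
    = Sl.Sh.G.p (z.1 + -(1 / 2) * z.2) z.2 := by
  intro z hz
  have h1 := Sl.s10g_edge_mem_s (a := z.1) (b := z.2) hz (c₀ := -(1 / 2)) (by norm_num)
  have e1 : z.1 + -(1 / 2) * z.2 = z.1 - z.2 / 2 := by ring
  rw [e1] at h1
  rw [Sl.Sh.s10g_Γ_lift hz, e1]
  exact Sl.Sh.G.s10g_X0_dot_in h1 (ball_subset_ball Sl.Sh.ρ_le hz.2)

/-- the variation of the outgoing edge at the site `j`, direction `(κ, μ)`. -/
theorem s10g_D1 (j : ℤ) {y : ℂ} (hy : y ∈ Sl.base) (hy0 : y ∈ Sl.reg0) (κ μ : ℂ) :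
    Sl.Sh.G.c * (Sl.fj j y)⁻¹ ^ 2 * (κ * Sl.s' j y + μ * Sl.gLt j y) * Sl.sd j y
      + dotC (Sl.X j y) (evecC (Sl.θ j y)) * ((κ + 1 / 2 * μ) * Sl.gΘy j y + μ * Sl.gΘt j y)
      = (κ + 1 / 2 * μ) * Sl.gpy j y + μ * Sl.gpt j y := by
  have h := Sl.s10g_var_inc (Sl.s10g_base_baseD j hy) (Sl.s10g_fj_ne hy0 j) κ μ (c₀ := 1 / 2) (by norm_num) Sl.s10g_inc_out
  have e : y + j * (Sl.t₀ : ℂ) + 1 / 2 * (Sl.t₀ : ℂ) = y + j * (Sl.t₀ : ℂ) + (Sl.t₀ : ℂ) / 2 := by ring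
  rw [e] at h
  rw [Sl.s10g_s'_eq, Sl.s10g_θ_base j hy]
  unfold Slice.sd Slice.d
  rw [Sl.s10g_θ_base j hy]
  exact h

/-- the variation of the incoming edge at the site `j`, direction `(κ, μ)`. -/
theorem s10g_D2 (j : ℤ) {y : ℂ} (hy : y ∈ Sl.base) (hy0 : y ∈ Sl.reg0) (κ μ : ℂ) :
    -(Sl.Sh.G.c * (Sl.fj j y)⁻¹ ^ 2 * (κ * Sl.s' j y + μ * Sl.gLt j y) * Sl.sd j y)
      + dotC (Sl.X j y) (evecC (Sl.θ (j - 1) y)) * ((κ + -(1 / 2) * μ) * Sl.gΘy (j - 1) y + μ * Sl.gΘt (j - 1) y)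
      = (κ + -(1 / 2) * μ) * Sl.gpy (j - 1) y + μ * Sl.gpt (j - 1) y := by
  have h := Sl.s10g_var_inc (Sl.s10g_base_baseD j hy) (Sl.s10g_fj_ne hy0 j) κ μ (c₀ := -(1 / 2)) (by norm_num) Sl.s10g_inc_in
  have e : y + j * (Sl.t₀ : ℂ) + -(1 / 2) * (Sl.t₀ : ℂ) = y + ((j - 1 : ℤ) : ℂ) * (Sl.t₀ : ℂ) + (Sl.t₀ : ℂ) / 2 := by
    push_cast; ring
  rw [e] at h
  have h1 : Sl.Sh.G.Θ (y + ((j - 1 : ℤ) : ℂ) * (Sl.t₀ : ℂ) + (Sl.t₀ : ℂ) / 2) (Sl.t₀ : ℂ) = Sl.θ (j - 1) y :=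
    (Sl.s10g_θ_base (j - 1) hy).symm
  rw [h1] at h
  have h2 : Complex.sin (Sl.θ (j - 1) y - Sl.Sh.φ (Sl.Sh.lift (y + j * (Sl.t₀ : ℂ), (Sl.t₀ : ℂ)))) = -Sl.sd j y := by
    rw [Sl.s10g_θ_pred j hy0.1]
    unfold Slice.sd
    rw [← Complex.sin_neg]
    congr 1
    show Sl.ψ j y - Sl.d j y - Sl.ψ j y = _
    ring
  rw [h2, mul_neg] at h
  rw [Sl.s10g_s'_eq]
  exact h

/-- the variation of the normal angle at the site `j`, direction `(κ, μ)`. -/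
theorem s10g_D3 (j : ℤ) {y : ℂ} (hy : y ∈ Sl.base) (κ μ : ℂ) :
    Sl.fj j y * (κ * Sl.s' j y + μ * Sl.gLt j y)
      = (((κ + -(1 / 2) * μ) * Sl.gΘy (j - 1) y + μ * Sl.gΘt (j - 1) y)
          + ((κ + 1 / 2 * μ) * Sl.gΘy j y + μ * Sl.gΘt j y)) / 2 := by
  have h := Sl.s10g_var_angle (Sl.s10g_base_baseD j hy) κ μ
  have e : y + j * (Sl.t₀ : ℂ) + -(1 / 2) * (Sl.t₀ : ℂ) = y + ((j - 1 : ℤ) : ℂ) * (Sl.t₀ : ℂ) + (Sl.t₀ : ℂ) / 2 := by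
    push_cast; ring
  have e' : y + j * (Sl.t₀ : ℂ) + 1 / 2 * (Sl.t₀ : ℂ) = y + j * (Sl.t₀ : ℂ) + (Sl.t₀ : ℂ) / 2 := by ring
  rw [e, e'] at h
  rw [Sl.s10g_s'_eq]
  exact h

theorem s10g_gLt_add_N (j : ℤ) {y : ℂ} (hy : y ∈ Sl.base) : Sl.gLt (j + Sl.N) y = Sl.gLt j y := by
  unfold gLt
  have h1 : (fun t => Sl.Sh.lift (y + ((j + Sl.N : ℤ) : ℂ) * (Sl.t₀ : ℂ), t))
      =ᶠ[𝓝 (Sl.t₀ : ℂ)] fun t => Sl.Sh.lift (y + j * (Sl.t₀ : ℂ), t) + 2 * π := by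
    filter_upwards [isOpen_ball.mem_nhds Sl.s10g_t₀_mem] with t ht
    have hz : (y + j * (Sl.t₀ : ℂ), t) ∈ Sl.Sh.baseD := ⟨(Sl.s10g_base_baseD j hy).1, ht⟩
    have h2 := Sl.Sh.lift_per _ (Sl.Sh.s10g_baseD_subset_tube hz)
    have e : y + ((j + Sl.N : ℤ) : ℂ) * (Sl.t₀ : ℂ) = y + j * (Sl.t₀ : ℂ) + 2 * π := by
      push_cast
      rw [add_mul, Sl.s10g_N_mul_t₀]
      ring
    rw [e]
    exact h2
  rw [h1.deriv_eq, deriv_add_const]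

/-- `v_{j+N} = v_j + N w_j`. -/
theorem s10g_gv_add_N (j : ℤ) {y : ℂ} (hy : y ∈ Sl.base) : Sl.gv (j + Sl.N) y = Sl.gv j y + Sl.N * Sl.w j y := by
  have hs := Sl.s10g_base_subset hy
  unfold gv Slice.w
  rw [Sl.s10g_sd_add_N j hs, Sl.s10g_fj_add_N j hs, Sl.s10g_s'_add_N j hs, Sl.s10g_gLt_add_N j hy]
  push_cast
  ring

/-- `ℓ_j T_j = v_j + v_{j+1}`, `T_j = (j + 1/2) Θ_y + Θ_t`. -/
theorem s10g_gv_edge (j : ℤ) {y : ℂ} (hy : y ∈ Sl.base) (hy0 : y ∈ Sl.reg0) :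
    Sl.ℓ j y * ((j + 1 / 2) * Sl.gΘy j y + Sl.gΘt j y) = Sl.gv j y + Sl.gv (j + 1) y := by
  have h1 := Sl.s10g_D1 j hy hy0 j 1
  have h2 := Sl.s10g_D2 (j + 1) hy hy0 ((j + 1 : ℤ) : ℂ) 1
  rw [add_sub_cancel_right] at h2
  unfold Slice.ℓ gv
  rw [s10g_dot_sub]
  push_cast at h2 ⊢
  linear_combination h2 - h1

/-- the recurrence for `v`. -/
theorem s10g_gv_rec (j : ℤ) {y : ℂ} (hy : y ∈ Sl.base) (hy1 : y ∈ Sl.reg1) :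
    (Sl.ℓ (j - 1) y)⁻¹ * (Sl.gv (j - 1) y + Sl.gv j y) + (Sl.ℓ j y)⁻¹ * (Sl.gv j y + Sl.gv (j + 1) y)
      = Sl.V j y * Sl.gv j y := by
  have hy0 := Sl.s10g_reg1_subset_reg0 hy1
  have h1 := Sl.s10g_gv_edge (j - 1) hy hy0
  have h2 := Sl.s10g_gv_edge j hy hy0
  rw [sub_add_cancel] at h1
  have h3 := Sl.s10g_D3 j hy j 1
  have n1 := Sl.s10g_ℓ_ne hy1 (j - 1)
  have n2 := Sl.s10g_ℓ_ne hy1 j
  have n3 := Sl.s10g_fj_ne hy0 j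
  have n4 := Sl.s10g_sd_ne hy1 j
  have n5 : (Sl.Sh.G.c : ℂ) ≠ 0 := by exact_mod_cast Sl.Sh.G.c_pos.ne'
  rw [← h1, ← h2, inv_mul_cancel_left₀ n1, inv_mul_cancel_left₀ n2]
  have h4 : Sl.V j y * Sl.gv j y = 2 * (Sl.fj j y * (j * Sl.s' j y + 1 * Sl.gLt j y)) := by
    unfold Slice.V gv
    field_simp
  rw [h4, h3]
  push_cast
  ring

/-- the Wronskian of `w` and `v` is the area coefficient. -/
theorem s10g_gv_wron (j : ℤ) {y : ℂ} (hy : y ∈ Sl.base) (hy1 : y ∈ Sl.reg1) :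
    (Sl.ℓ j y)⁻¹ * (Sl.w j y * Sl.gv (j + 1) y - Sl.gv j y * Sl.w (j + 1) y) = Sl.Sh.G.A (Sl.t₀ : ℂ) := by
  have hy0 := Sl.s10g_reg1_subset_reg0 hy1
  have n2 := Sl.s10g_ℓ_ne hy1 j
  have E1 := Sl.s10g_D1 j hy hy0 1 0
  have E2 := Sl.s10g_D2 (j + 1) hy hy0 1 0
  have E3 := Sl.s10g_D1 j hy hy0 j 1
  have E4 := Sl.s10g_D2 (j + 1) hy hy0 ((j + 1 : ℤ) : ℂ) 1
  rw [add_sub_cancel_right] at E2 E4
  have hA := Sl.s10g_area j hy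
  have hw1 : Sl.w j y = Sl.gpy j y - dotC (Sl.X j y) (evecC (Sl.θ j y)) * Sl.gΘy j y := by
    unfold Slice.w; linear_combination E1
  have hw2 : Sl.w (j + 1) y = dotC (Sl.X (j + 1) y) (evecC (Sl.θ j y)) * Sl.gΘy j y - Sl.gpy j y := by
    unfold Slice.w; linear_combination -E2
  have hv1 : Sl.gv j y = (j + 1 / 2) * Sl.gpy j y + Sl.gpt j y
      - dotC (Sl.X j y) (evecC (Sl.θ j y)) * ((j + 1 / 2) * Sl.gΘy j y + Sl.gΘt j y) := by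
    unfold gv; linear_combination E3
  have hv2 : Sl.gv (j + 1) y = dotC (Sl.X (j + 1) y) (evecC (Sl.θ j y)) * ((j + 1 / 2) * Sl.gΘy j y + Sl.gΘt j y)
      - ((j + 1 / 2) * Sl.gpy j y + Sl.gpt j y) := by
    unfold gv; push_cast at E4 ⊢; linear_combination -E4
  have hℓ : Sl.ℓ j y = dotC (Sl.X (j + 1) y) (evecC (Sl.θ j y)) - dotC (Sl.X j y) (evecC (Sl.θ j y)) := by
    unfold Slice.ℓ; rw [s10g_dot_sub]
  rw [inv_mul_eq_iff_eq_mul₀ n2, hw1, hw2, hv1, hv2, hℓ, ← hA]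
  ring

end Slice

end Claimed.Agent.R269
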