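/-
Row 269, P1 Section 10.1, package BP-S10a (architect: helper230).  GeoCof: THE COFACTOR NORMALISATION (P1 Lemma 10.2)
  `w_i² = (A(t₀) / N) (∏_j ℓ_j) det B_{univ \ {i}, ∅}`      on `reg1` (complex identity),  and its modulus form.
On the real axis: the host-free `cyc_cofactor` with the second solution `v` of GeoWron; then continuation (meromorphic identity theorem).
-/
import Claimed.Agent.R269.S10.GeoWron
import Claimed.Agent.R269.S10.GeoReal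
import Claimed.Agent.R269.S10.GeoLin2

set_option autoImplicit false

namespace Claimed.Agent.R269

open Complex ComplexConjugate Metric Set Filter Topology
open scoped Real ENNReal

local notation "⟪" i "⟫" => ((Fin.val i : ℕ) : ℤ)

/-- the determinant of a matrix with meromorphic entries is meromorphic. -/
theorem s10g_det_mero {n : ℕ} {M : ℂ → Matrix (Fin n) (Fin n) ℂ} {y : ℂ}
    (h : ∀ i k, MeromorphicAt (fun z => M z i k) y) : MeromorphicAt (fun z => (M z).det) y := by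
  simp only [Matrix.det_apply']
  refine MeromorphicAt.fun_sum fun σ _ => ?_
  exact (MeromorphicAt.const _ y).fun_mul (MeromorphicAt.fun_prod fun i _ => h _ _)

theorem s10g_mero_ite {P : Prop} [Decidable P] {f g : ℂ → ℂ} {y : ℂ} (hf : MeromorphicAt f y) (hg : MeromorphicAt g y) :
    MeromorphicAt (fun z => if P then f z else g z) y := by
  split_ifs <;> assumption

/-- a function analytic at `0` which vanishes on the real axis vanishes near `0`. -/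
theorem s10g_zero_of_real {F : ℂ → ℂ} (hF : AnalyticAt ℂ F 0) (h : ∀ x : ℝ, F x = 0) : ∀ᶠ z in 𝓝 (0 : ℂ), F z = 0 := by
  rw [← hF.frequently_zero_iff_eventually_zero]
  have ht : Tendsto (fun x : ℝ => (x : ℂ)) (𝓝[≠] 0) (𝓝[≠] 0) := by
    refine tendsto_nhdsWithin_of_tendsto_nhds_of_eventually_within _ ?_ ?_
    · exact (Complex.continuous_ofReal.tendsto' 0 0 (by simp)).mono_left nhdsWithin_le_nhds
    · filter_upwards [self_mem_nhdsWithin] with x hx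
      simpa using hx
  exact ht.frequently (Eventually.frequently (Eventually.of_forall fun x => h x))

namespace Slice

variable (Sl : Slice)

theorem s10g_s'_diff (j : ℤ) : DifferentiableOn ℂ (Sl.s' j) Sl.strip := (Sl.s10g_s_diff j).deriv Sl.s10g_isOpen_strip

theorem s10g_mero_of_diff {g : ℂ → ℂ} (hg : DifferentiableOn ℂ g Sl.strip) : MeromorphicOn g Sl.strip := fun _ hy =>
  (hg.analyticAt (Sl.s10g_isOpen_strip.mem_nhds hy)).meromorphicAt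

theorem s10g_w_mero (j : ℤ) : MeromorphicOn (Sl.w j) Sl.strip := by
  intro y hy
  show MeromorphicAt (fun y => Sl.Sh.G.c * Sl.sd j y * (Sl.fj j y)⁻¹ ^ 2 * Sl.s' j y) y
  exact ((((MeromorphicAt.const (Sl.Sh.G.c : ℂ) y).fun_mul (Sl.s10g_mero_of_diff (Sl.s10g_sd_diff j) y hy)).fun_mul
    ((Sl.s10g_mero_of_diff (Sl.s10g_fj_diff j) y hy).fun_inv.fun_pow 2)).fun_mul
      (Sl.s10g_mero_of_diff (Sl.s10g_s'_diff j) y hy))

theorem s10g_V_mero (j : ℤ) : MeromorphicOn (Sl.V j) Sl.strip := by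
  intro y hy
  have h1 : MeromorphicAt (Sl.fj j) y := Sl.s10g_mero_of_diff (Sl.s10g_fj_diff j) y hy
  have h2 : MeromorphicAt (Sl.sd j) y := Sl.s10g_mero_of_diff (Sl.s10g_sd_diff j) y hy
  have h3 : MeromorphicAt (fun y => Sl.fj j y ^ 3) y := h1.fun_pow 3
  have h4 : MeromorphicAt (fun y => 2 * Sl.fj j y ^ 3) y := (MeromorphicAt.const (2 : ℂ) y).fun_mul h3
  have h5 : MeromorphicAt (fun y => (Sl.Sh.G.c : ℂ) * Sl.sd j y) y := (MeromorphicAt.const (Sl.Sh.G.c : ℂ) y).fun_mul h2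
  exact h4.fun_div h5

theorem s10g_w_diff (j : ℤ) : DifferentiableOn ℂ (Sl.w j) Sl.reg0 := by
  intro y hy
  have h1 := (Sl.s10g_fj_diff j y hy.1).mono Sl.s10g_reg0_subset
  have h2 := (Sl.s10g_sd_diff j y hy.1).mono Sl.s10g_reg0_subset
  have h3 := (Sl.s10g_s'_diff j y hy.1).mono Sl.s10g_reg0_subset
  exact ((h2.const_mul _).mul ((h1.inv (Sl.s10g_fj_ne hy j)).pow 2)).mul h3

/-- the determinants, in the cyclic form, are meromorphic. -/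
theorem s10g_detB_mero (I F : Finset (Fin Sl.N)) : MeromorphicOn (fun y => (cycB (fun i : Fin Sl.N => (Sl.ℓ ⟪i⟫ y)⁻¹)
    (fun i : Fin Sl.N => Sl.V ⟪i⟫ y) I F).det) Sl.strip := by
  intro y hy
  refine s10g_det_mero fun i k => ?_
  have hb : ∀ i : Fin Sl.N, MeromorphicAt (fun y => (Sl.ℓ ⟪i⟫ y)⁻¹) y := fun i => (Sl.s10g_ℓ_mero _ y hy).fun_inv
  have hV : ∀ i : Fin Sl.N, MeromorphicAt (fun y => Sl.V ⟪i⟫ y) y := fun i => Sl.s10g_V_mero _ y hy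
  have hc : ∀ c : ℂ, MeromorphicAt (fun _ : ℂ => c) y := fun c => MeromorphicAt.const c y
  have hM : MeromorphicAt (fun z => cycM (fun i : Fin Sl.N => (Sl.ℓ ⟪i⟫ z)⁻¹) i k) y :=
    ((s10g_mero_ite ((hb i).fun_add (hb (i - 1))) (hc 0)).fun_add (s10g_mero_ite (hb i) (hc 0))).fun_add
      (s10g_mero_ite (hb k) (hc 0))
  exact s10g_mero_ite (hM.fun_sub (s10g_mero_ite (hV i) (hc 0))) (s10g_mero_ite (hc 1) (hc 0))

/-- the cofactor defect. -/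
noncomputable def cofD (i : Fin Sl.N) (y : ℂ) : ℂ :=
  Sl.w ⟪i⟫ y ^ 2 - Sl.Sh.G.A (Sl.t₀ : ℂ) / Sl.N * (∏ j : Fin Sl.N, Sl.ℓ ⟪j⟫ y)
    * (cycB (fun k : Fin Sl.N => (Sl.ℓ ⟪k⟫ y)⁻¹) (fun k : Fin Sl.N => Sl.V ⟪k⟫ y) (Finset.univ.erase i) ∅).det

theorem s10g_cofD_mero (i : Fin Sl.N) : MeromorphicOn (Sl.cofD i) Sl.strip := by
  intro y hy
  have h1 : MeromorphicAt (fun y => Sl.w ⟪i⟫ y ^ 2) y := (Sl.s10g_w_mero _ y hy).fun_pow 2
  have h2 : MeromorphicAt (fun y => ∏ j : Fin Sl.N, Sl.ℓ ⟪j⟫ y) y := MeromorphicAt.fun_prod fun j _ => Sl.s10g_ℓ_mero _ y hy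
  have h3 := Sl.s10g_detB_mero (Finset.univ.erase i) ∅ y hy
  exact h1.fun_sub (((MeromorphicAt.const _ y).fun_mul h2).fun_mul h3)

theorem s10g_cofD_diff (i : Fin Sl.N) : DifferentiableOn ℂ (Sl.cofD i) Sl.reg1 := by
  have h1 : DifferentiableOn ℂ (fun y => Sl.w ⟪i⟫ y ^ 2) Sl.reg1 := ((Sl.s10g_w_diff _).mono Sl.s10g_reg1_subset_reg0).fun_pow 2
  have h2 : DifferentiableOn ℂ (fun y => ∏ j : Fin Sl.N, Sl.ℓ ⟪j⟫ y) Sl.reg1 :=
    DifferentiableOn.fun_finsetProd fun j _ => (Sl.s10g_ℓ_diff _).mono Sl.s10g_reg1_subset_reg0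
  have h3 : DifferentiableOn ℂ (fun y => (cycB (fun k : Fin Sl.N => (Sl.ℓ ⟪k⟫ y)⁻¹) (fun k : Fin Sl.N => Sl.V ⟪k⟫ y)
      (Finset.univ.erase i) ∅).det) Sl.reg1 :=
    (Sl.s10g_detB_diff (Finset.univ.erase i) ∅).congr fun y hy => by rw [Sl.s10g_Bmat_eq (Sl.s10g_reg1_subset_reg0 hy)]
  exact h1.fun_sub ((h2.const_mul _).fun_mul h3)

variable {Sl}

/-- the cofactor identity on the real axis. -/
theorem Nice.s10g_cofD_real (hN : Sl.Nice) (i : Fin Sl.N) (x : ℝ) : Sl.cofD i x = 0 := by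
  have hx := hN.s10g_real_mem_reg1 x
  have hx0 := Sl.s10g_reg1_subset_reg0 hx
  have hb : (x : ℂ) ∈ Sl.base := s10g_real_mem_hstrip (by have := Sl.Sh.G.s4c_s_pos; linarith) x
  have hNne : (Sl.N : ℂ) ≠ 0 := by exact_mod_cast (NeZero.ne Sl.N)
  have h := cyc_cofactor Sl.N_ge (fun j => (Sl.ℓ j x)⁻¹) (fun j => Sl.V j x) (fun j => Sl.w j x) (fun j => Sl.gv j x)
    (Sl.Sh.G.A (Sl.t₀ : ℂ)) (fun j => by simp only [Sl.s10g_ℓ_add_N j hx0]) (fun j => Sl.s10g_V_add_N j hx.1)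
    (fun j => Sl.s10g_w_add_N j hx.1) (fun j => Sl.s10g_gv_add_N j hb)
    (fun j => by
      obtain ⟨-, -, -, -, -, -, -, h3, h4⟩ := hN.real x j
      have e : (Sl.ℓ j x)⁻¹ = (((Sl.ℓ j x).re⁻¹ : ℝ) : ℂ) := by
        push_cast
        rw [← s10g_eq_ofReal_re' h4]
      rw [e]
      exact ⟨by rw [Complex.ofReal_re]; positivity, Complex.ofReal_im _⟩)
    (fun j => hN.s10g_w_real x j) hN.A_ne
    (fun j => by rw [Sl.s10g_V_mul_w j hx]; exact Sl.s10g_jacobi j hx)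
    (fun j => Sl.s10g_gv_rec j hb hx) (fun j => Sl.s10g_gv_wron j hb hx) i
  have hpow : (-1 : ℂ) ^ (Sl.N - 1) = 1 := by
    obtain ⟨m, hm⟩ := Sl.N_odd
    have : Sl.N - 1 = 2 * m := by omega
    rw [this, pow_mul]
    simp
  have hprod : (∏ j : Fin Sl.N, Sl.ℓ ⟪j⟫ x) ≠ 0 := Finset.prod_ne_zero_iff.2 fun j _ => Sl.s10g_ℓ_ne hx _
  rw [hpow, Finset.prod_inv_distrib] at h
  unfold cofD
  field_simp at h ⊢
  linear_combination -h

/-- **Cofactor normalisation** (P1 Lemma 10.2), complex form, on `reg1`. -/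
theorem Nice.s10g_cofactor_eq (hN : Sl.Nice) {y : ℂ} (hy : y ∈ Sl.reg1) (i : Fin Sl.N) :
    Sl.w ⟪i⟫ y ^ 2 = Sl.Sh.G.A (Sl.t₀ : ℂ) / Sl.N * (∏ j : Fin Sl.N, Sl.ℓ ⟪j⟫ y)
      * (Sl.Bmat (Finset.univ.erase i) ∅ y).det := by
  have h0 : (0 : ℂ) ∈ Sl.reg1 := by exact_mod_cast hN.s10g_real_mem_reg1 0
  have ha : AnalyticAt ℂ (Sl.cofD i) 0 := (Sl.s10g_cofD_diff i).analyticAt (Sl.s10g_isOpen_reg1.mem_nhds h0)
  have h1 := s10g_mero_zero Sl.s10g_isOpen_strip (s10g_isPreconnected_hstrip _) (Sl.s10g_cofD_mero i) Sl.s10g_zero_mem_strip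
    (s10g_zero_of_real ha (hN.s10g_cofD_real i)) hy.1
    ((Sl.s10g_cofD_diff i).differentiableAt (Sl.s10g_isOpen_reg1.mem_nhds hy)).continuousAt
  rw [Sl.s10g_Bmat_eq (Sl.s10g_reg1_subset_reg0 hy)]
  exact sub_eq_zero.1 h1

theorem Nice.s10g_κ_ne (hN : Sl.Nice) : Sl.Sh.G.A (Sl.t₀ : ℂ) / Sl.N ≠ 0 :=
  div_ne_zero hN.A_ne (by exact_mod_cast (NeZero.ne Sl.N))

/-- **Cofactor normalisation**, complex form with an unspecified constant. -/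
theorem Nice.s10g_cofactor_cplx (hN : Sl.Nice) : ∃ κ : ℂ, κ ≠ 0 ∧ ∀ y ∈ Sl.reg1, ∀ i : Fin Sl.N,
    Sl.w ⟪i⟫ y ^ 2 = κ * (∏ j : Fin Sl.N, Sl.ℓ ⟪j⟫ y) * (Sl.Bmat (Finset.univ.erase i) ∅ y).det :=
  ⟨_, hN.s10g_κ_ne, fun _ hy i => hN.s10g_cofactor_eq hy i⟩

/-- **Cofactor normalisation**, in modulus. -/
theorem Nice.s10g_cofactor (hN : Sl.Nice) : ∃ cA : ℝ, 0 < cA ∧ ∀ y ∈ Sl.reg1, ∀ i : Fin Sl.N,
    ‖Sl.w ⟪i⟫ y‖ ^ 2 = cA * (∏ j : Fin Sl.N, ‖Sl.ℓ ⟪j⟫ y‖) * ‖(Sl.Bmat (Finset.univ.erase i) ∅ y).det‖ := by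
  refine ⟨‖Sl.Sh.G.A (Sl.t₀ : ℂ) / Sl.N‖, norm_pos_iff.2 hN.s10g_κ_ne, fun y hy i => ?_⟩
  rw [← norm_pow, hN.s10g_cofactor_eq hy i, norm_mul, norm_mul, norm_prod]

end Slice

end Claimed.Agent.R269
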