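/-
Row 269, P1 Theorem 10.3 (boundary contact), part A2: THE SLICE EXTENDS ACROSS THE WALL POINT.   Statements: helper34 (BP-S10b-contact).

INPUT from BP-S10a (helper230): `s10b_in_cofactor` = the COMPLEX cofactor identity (sorried copy, to be replaced by a call of his theorem in S10/GeoCof.lean).  Everything else of his is called directly.

* LEAF LF-HD-sqrt   (HOST-FREE): `hd_sqrt_ode`.
     Choose `ρ` with `ball xs ρ ⊆ U` and `‖Gf i x - Gf i xs‖ ≤ ‖Gf i xs‖ / 4` on it (continuity, finitely many `i`), `M := 1 + max_i √(2 ‖Gf i xs‖)`, `δ := ρ/2`, `r₁ := (ρ/2)/(4M)`.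
     Given `y₀, v`: `x₀ := v y₀`, `γ i := deriv (v · i) y₀`, `g x i := γ i * exp (log (Gf i x / Gf i x₀) / 2)`.  For `x ∈ ball xs ρ` the quotient `(1+a)/(1+b)`, `|a|,|b| ≤ 1/4`, has positive real part (slit plane: `Complex.log` is
     differentiable there), so `g` is holomorphic on `ball x₀ (ρ/2) ⊆ ball xs ρ`, `(g x i)² = Gf i x` (because `γ i ² = Gf i x₀`), `‖g x‖ ≤ M`, `g x₀ = γ`.  `hd_ode_exists` gives `u` on `ball y₀ r₁` with values in `ball x₀ (ρ/4)`.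
     On a small ball `𝒩` about `y₀`: `v` holomorphic with values in `ball x₀ (ρ/4)`, `(v_i')² = Gf i (v) = (g (v) i)²`, `g (v) i ≠ 0`, equality at `y₀`: `IsPreconnected.eq_of_sq_eq` gives `v_i' = g (v) i` on `𝒩`;
     `hd_ode_unique` on `𝒩 ∩ ball y₀ r₁`: `u = v`.   `deriv (u · i) y = g (u y) i ≠ 0`.
* LEAF LF-S10b-slice: `s10b_sq`, `s10b_cBdd`.
     `s10b_sq`: `w = c sd f⁻² s'`, so `s'² = w² f⁴/(c² sd²)` (`c ≠ 0`, `sd ≠ 0`, `f ≠ 0` on `reg`); cofactor identity; `sseq y = cext (stup y)` (`s10b_sseq`) and the `rfl`-lemmas `ℓ_eq, Bmat_eq, fj_eq, sd_eq` of ContactCfg.lean.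
     `s10b_cBdd`: `k ≤ B ⇒ δ ≥ e^{-B}` (`δ > 0`: `Sl.s10g_δ_pos`), `|log ‖·‖| ≤ B ⇒ ‖·‖ ≥ e^{-B}` (the quantities are `≠ 0` on `reg`; `Adm (univ.erase i) ∅`); transversality: `Sl.s10g_chord : X_{j+1} - X_j = ℓ_j • e_{θ_j}` on `reg0`;
     `reflC_smul`, `reflC_evec`, `Sl.s10g_angle`: `refl = ℓ_j e_{θ_{j+1}}`; `crossC_evec`: `ctr = ℓ_j sin (θ_{j+1} - ψ_{j+2}) = - ℓ_j sd_{j+2}` (`s10g_θ_succ`); indices `j+2 ≥ N`: `Sl.s10g_sd_ne`-type periodicity `s10g_sd_add_N`, `s10g_per_int`;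
     `‖ℓ_j‖ ‖sd_{j+2}‖ ≥ e^{-B} e^{-B} = e^{-2B}`.
* `s10b_extend` (glue).
-/
import Claimed.Agent.R269.S10.ContactCfg
import Claimed.Agent.R269.Lib.HolDyn
import Claimed.Agent.R269.S10.GeoCof

set_option autoImplicit false

namespace Claimed.Agent.R269

open Complex Filter Topology Set Metric
open scoped Real ENNReal

local notation "⟪" i "⟫" => ((Fin.val i : ℕ) : ℤ)

/-! ## LEAF LF-HD-sqrt (host-free) -/

/-- the quotient of two values close to a common nonzero value lies in the slit plane (aux of `hd_sqrt_ode`). -/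
theorem hdsq_quot {a b c : ℂ} (hc : c ≠ 0) (ha : ‖a - c‖ ≤ ‖c‖ / 4) (hb : ‖b - c‖ ≤ ‖c‖ / 4) :
    b ≠ 0 ∧ a / b ∈ slitPlane ∧ ‖a‖ ≤ 2 * ‖c‖ := by
  have hc0 : 0 < ‖c‖ := norm_pos_iff.2 hc
  have hb1 : 3 / 4 * ‖c‖ ≤ ‖b‖ := by
    have h1 : ‖c‖ ≤ ‖b‖ + ‖b - c‖ := by
      have := norm_sub_le b (b - c)
      simpa using this
    linarith
  have hb0 : b ≠ 0 := norm_pos_iff.1 (by linarith)
  have hbn : 0 < ‖b‖ := norm_pos_iff.2 hb0
  refine ⟨hb0, ?_, ?_⟩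
  · have h1 : a / b = 1 + (a - b) / b := by
      field_simp
      ring
    rw [h1]
    refine mem_slitPlane_of_norm_lt_one ?_
    rw [norm_div, div_lt_one hbn]
    have h2 : ‖a - b‖ ≤ ‖a - c‖ + ‖b - c‖ := by
      have := norm_sub_le (a - c) (b - c)
      simpa using this
    linarith
  · have h1 : ‖a‖ ≤ ‖a - c‖ + ‖c‖ := by
      have := norm_add_le (a - c) c
      simpa using this
    linarith

/-- solutions of `(v_i')² = G_i(v)` through points near a nondegenerate point `xs` extend to discs of a common radius. -/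
theorem hd_sqrt_ode {ι : Type} [Fintype ι] {U : Set (ι → ℂ)} (hU : IsOpen U) {Gf : ι → (ι → ℂ) → ℂ}
    (hG : ∀ i, DifferentiableOn ℂ (Gf i) U) (hG0 : ∀ i, ∀ x ∈ U, Gf i x ≠ 0) {xs : ι → ℂ}
    (hxs : xs ∈ U) :
    ∃ r₁ δ : ℝ, 0 < r₁ ∧ 0 < δ ∧ ∀ (y₀ : ℂ) (v : ℂ → ι → ℂ), v y₀ ∈ ball xs δ →
      (∀ᶠ y in 𝓝 y₀, DifferentiableAt ℂ v y ∧ ∀ i, deriv (fun y' => v y' i) y ^ 2 = Gf i (v y)) →
      ∃ u : ℂ → ι → ℂ, DifferentiableOn ℂ u (ball y₀ r₁) ∧ u =ᶠ[𝓝 y₀] v ∧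
        ∀ y ∈ ball y₀ r₁, u y ∈ U ∧ ∀ i, deriv (fun y' => u y' i) y ≠ 0 := by
  classical
  -- the radius `ρ`
  have hev : ∀ᶠ x in 𝓝 xs, x ∈ U ∧ ∀ i, ‖Gf i x - Gf i xs‖ ≤ ‖Gf i xs‖ / 4 := by
    refine (hU.eventually_mem hxs).and (Filter.eventually_all.2 fun i => ?_)
    have hc : ContinuousAt (Gf i) xs := ((hG i).continuousOn).continuousAt (hU.mem_nhds hxs)
    have hpos : 0 < ‖Gf i xs‖ / 4 := by
      have := norm_pos_iff.2 (hG0 i xs hxs)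
      positivity
    have := Metric.continuousAt_iff'.1 hc _ hpos
    filter_upwards [this] with x hx
    rw [dist_eq_norm] at hx
    exact hx.le
  obtain ⟨ρ, hρ, hball⟩ := Metric.eventually_nhds_iff_ball.1 hev
  set M : ℝ := 1 + ∑ i, Real.sqrt (2 * ‖Gf i xs‖) with hM
  have hM0 : 0 < M := by
    have : 0 ≤ ∑ i, Real.sqrt (2 * ‖Gf i xs‖) := Finset.sum_nonneg fun i _ => Real.sqrt_nonneg _
    linarith
  have hρ2 : 0 < ρ / 2 := by positivity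
  refine ⟨ρ / 2 / (4 * M), ρ / 2, by positivity, hρ2, ?_⟩
  intro y₀ v hv0 hv
  set x₀ : ι → ℂ := v y₀ with hx₀
  set γ : ι → ℂ := fun i => deriv (fun y' => v y' i) y₀ with hγ
  have hγ2 : ∀ i, γ i ^ 2 = Gf i x₀ := fun i => (hv.self_of_nhds).2 i
  have hsub : ball x₀ (ρ / 2) ⊆ ball xs ρ := by
    intro x hx
    rw [mem_ball] at hx hv0 ⊢
    calc dist x xs ≤ dist x x₀ + dist x₀ xs := dist_triangle _ _ _
      _ < ρ / 2 + ρ / 2 := add_lt_add hx hv0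
      _ = ρ := by ring
  have hx₀ρ : x₀ ∈ ball xs ρ := hsub (mem_ball_self hρ2)
  set g : (ι → ℂ) → ι → ℂ := fun x i => γ i * cexp (Complex.log (Gf i x / Gf i x₀) / 2) with hg
  have hq : ∀ x ∈ ball xs ρ, ∀ i, Gf i x₀ ≠ 0 ∧ Gf i x / Gf i x₀ ∈ slitPlane ∧
      ‖Gf i x‖ ≤ 2 * ‖Gf i xs‖ := fun x hx i =>
    hdsq_quot (hG0 i xs hxs) ((hball x hx).2 i) ((hball x₀ hx₀ρ).2 i)
  have hgsq : ∀ x ∈ ball xs ρ, ∀ i, g x i ^ 2 = Gf i x := by
    intro x hx i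
    obtain ⟨h1, h2, -⟩ := hq x hx i
    have h3 : Gf i x / Gf i x₀ ≠ 0 := slitPlane_ne_zero h2
    simp only [hg]
    rw [mul_pow, hγ2, ← Complex.exp_nat_mul]
    have : ((2 : ℕ) : ℂ) * (Complex.log (Gf i x / Gf i x₀) / 2) = Complex.log (Gf i x / Gf i x₀) := by
      push_cast
      ring
    rw [this, Complex.exp_log h3]
    field_simp
  have hgd : DifferentiableOn ℂ g (ball x₀ (ρ / 2)) := by
    rw [differentiableOn_pi]
    intro i
    have h1 : DifferentiableOn ℂ (fun x => Gf i x / Gf i x₀) (ball x₀ (ρ / 2)) := by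
      simpa only [div_eq_mul_inv] using
        ((hG i).mono fun x hx => (hball x (hsub hx)).1).mul_const (Gf i x₀)⁻¹
    have h2 : DifferentiableOn ℂ (fun x => Complex.log (Gf i x / Gf i x₀)) (ball x₀ (ρ / 2)) :=
      h1.clog fun x hx => (hq x (hsub hx) i).2.1
    have h3 : DifferentiableOn ℂ (fun x => Complex.log (Gf i x / Gf i x₀) / 2) (ball x₀ (ρ / 2)) := by
      simpa only [div_eq_mul_inv] using h2.mul_const (2 : ℂ)⁻¹
    exact (h3.cexp).const_mul (γ i)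
  have hgb : ∀ x ∈ ball x₀ (ρ / 2), ‖g x‖ ≤ M := by
    intro x hx
    refine (pi_norm_le_iff_of_nonneg hM0.le).2 fun i => ?_
    have h1 : ‖g x i‖ ^ 2 ≤ 2 * ‖Gf i xs‖ := by
      rw [← norm_pow, hgsq x (hsub hx) i]
      exact (hq x (hsub hx) i).2.2
    have h2 : ‖g x i‖ ≤ Real.sqrt (2 * ‖Gf i xs‖) := Real.le_sqrt_of_sq_le h1
    have h3 : Real.sqrt (2 * ‖Gf i xs‖) ≤ ∑ i, Real.sqrt (2 * ‖Gf i xs‖) :=
      Finset.single_le_sum (f := fun i => Real.sqrt (2 * ‖Gf i xs‖))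
        (fun i _ => Real.sqrt_nonneg _) (Finset.mem_univ i)
    linarith
  have hgx₀ : g x₀ = γ := by
    funext i
    simp only [hg]
    rw [div_self (hq x₀ hx₀ρ i).1]
    simp
  obtain ⟨u, hu0, hu⟩ := hd_ode_exists hρ2 hM0 hgd hgb y₀
  have hsub4 : ball x₀ (ρ / 2 / 2) ⊆ ball x₀ (ρ / 2) := ball_subset_ball (by linarith)
  refine ⟨u, fun y hy => (hu y hy).2.differentiableAt.differentiableWithinAt, ?_, fun y hy => ?_⟩
  · -- uniqueness near `y₀`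
    have hvc : ContinuousAt v y₀ := (hv.self_of_nhds).1.continuousAt
    have hv4 : ∀ᶠ y in 𝓝 y₀, v y ∈ ball x₀ (ρ / 2 / 2) :=
      hvc (ball_mem_nhds _ (by positivity))
    have hr₁ : ∀ᶠ y in 𝓝 y₀, y ∈ ball y₀ (ρ / 2 / (4 * M)) := ball_mem_nhds _ (by positivity)
    obtain ⟨ε, hε, hεb⟩ := Metric.eventually_nhds_iff_ball.1 (hv.and (hv4.and hr₁))
    have hvd : ∀ y ∈ ball y₀ ε, HasDerivAt v (g (v y)) y := by
      intro y hy
      rw [hasDerivAt_pi]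
      intro i
      have hcomp : ∀ y ∈ ball y₀ ε, DifferentiableAt ℂ (fun y' => v y' i) y := fun y hy =>
        (differentiableAt_pi.1 (hεb y hy).1.1) i
      have hdon : DifferentiableOn ℂ (fun y' => v y' i) (ball y₀ ε) := fun y hy =>
        (hcomp y hy).differentiableWithinAt
      have hc1 : ContinuousOn (deriv fun y' => v y' i) (ball y₀ ε) :=
        (hdon.deriv isOpen_ball).continuousOn
      have hc2 : ContinuousOn (fun y => g (v y) i) (ball y₀ ε) := by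
        have h1 : ContinuousOn (fun x => g x i) (ball x₀ (ρ / 2)) :=
          ((differentiableOn_pi.1 hgd) i).continuousOn
        have h2 : ContinuousOn v (ball y₀ ε) := fun y hy =>
          (hεb y hy).1.1.continuousAt.continuousWithinAt
        exact h1.comp h2 fun y hy => hsub4 (hεb y hy).2.1
      have heq : EqOn (deriv fun y' => v y' i) (fun y => g (v y) i) (ball y₀ ε) := by
        refine (convex_ball y₀ ε).isPreconnected.eq_of_sq_eq hc1 hc2 ?_ ?_ (mem_ball_self hε) ?_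
        · intro y hy
          simp only [Pi.pow_apply]
          rw [(hεb y hy).1.2 i, hgsq _ (hsub (hsub4 (hεb y hy).2.1)) i]
        · intro y hy h0
          have h1 := hgsq _ (hsub (hsub4 (hεb y hy).2.1)) i
          rw [h0] at h1
          exact hG0 i _ (hball _ (hsub (hsub4 (hεb y hy).2.1))).1 (by rw [← h1]; simp)
        · show γ i = g x₀ i
          rw [hgx₀]
      have h5 : deriv (fun y' => v y' i) y = g (v y) i := heq hy
      rw [← h5]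
      exact (hcomp y hy).hasDerivAt
    have huniq : EqOn u v (ball y₀ ε) :=
      hd_ode_unique hρ2 hgd hgb (convex_ball y₀ ε) (mem_ball_self hε)
        (fun y hy => hu y (hεb y hy).2.2) (fun y hy => ⟨(hεb y hy).2.1, hvd y hy⟩) hu0
    exact Filter.eventuallyEq_of_mem (ball_mem_nhds _ hε) huniq
  · obtain ⟨h1, h2⟩ := hu y hy
    have hmem : u y ∈ ball xs ρ := hsub (hsub4 h1)
    refine ⟨(hball _ hmem).1, fun i => ?_⟩
    rw [((hasDerivAt_pi.1 h2) i).deriv]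
    intro h0
    have h3 := hgsq _ hmem i
    rw [h0] at h3
    exact hG0 i _ (hball _ hmem).1 (by rw [← h3]; simp)

namespace Slice

variable (Sl : Slice)

/-- an extension of the slice to a disc about the wall point `l`, nondegenerate. -/
structure s10bExt (l : ℂ) (ε : ℝ) (S : ℤ → ℂ → ℂ) : Prop where
  ε_pos : 0 < ε
  ε_le : ε ≤ Sl.h
  diff : ∀ j, DifferentiableOn ℂ (S j) (ball l ε)
  eq : ∀ j, ∀ y ∈ ball l ε, y ∈ Sl.strip → S j y = Sl.s j y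
  mem : ∀ j, ∀ y ∈ ball l ε, S j y ∈ Sl.Sh.D
  f_ne : ∀ j, ∀ y ∈ ball l ε, Sl.Sh.f (S j y) ≠ 0
  per : ∀ j, ∀ y ∈ ball l ε, S (j + Sl.N) y = S j y + 2 * π
  tr_ne : ∀ j, ∀ y ∈ ball l ε, crossC (evecC (Sl.Sh.φ (S (j + 2) y)))
    (reflC (Sl.Sh.φ (S (j + 1) y)) (Sl.Sh.Γ (S (j + 1) y) - Sl.Sh.Γ (S j y))) ≠ 0
  d_ne : ∀ y ∈ ball l ε, deriv (S 0) y ≠ 0

variable (hS : Sl.Hyp)
include hS

/-! ## input from BP-S10a -/

/-- the cofactor normalisation (P1 Lemma 10.2), complex form. -/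
theorem s10b_in_cofactor : ∃ κ : ℂ, κ ≠ 0 ∧ ∀ y ∈ Sl.reg, ∀ i : Fin Sl.N,
    Sl.w ⟪i⟫ y ^ 2 = κ * (∏ j : Fin Sl.N, Sl.ℓ ⟪j⟫ y) * (Sl.Bmat (Finset.univ.erase i) ∅ y).det :=
  ⟨_, hS.nice.s10g_κ_ne, fun _ hy i => hS.nice.s10g_cofactor_eq (Sl.s10g_reg_subset_reg1 hy) i⟩

omit hS in
theorem s10b_strip_T (j : ℤ) {y : ℂ} (hy : y ∈ Sl.strip) :
    (y + j * (Sl.t₀ : ℂ), (Sl.t₀ : ℂ)) ∈ Sl.Sh.T := Sl.s10g_mem_tube (Sl.s10g_shift_mem j hy)

omit hS in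
theorem s10b_sseq (y : ℂ) (hy : y ∈ Sl.strip) : Sl.sseq y = Sl.cext (Sl.stup y) :=
  Sl.eq_cext_of_quasi (Sl.sseq y) fun j => Sl.s10g_s_add_N j hy

omit hS in
theorem s10b_stup_cV₀ (y : ℂ) (hy : y ∈ Sl.reg) : Sl.stup y ∈ Sl.cV₀ := fun i =>
  ⟨Sl.s10g_s_mem ⟪i⟫ hy.1, (hy.2.1 i).1⟩

/-! ## LEAF LF-S10b-slice -/

omit hS in
theorem s10b_sq {κ : ℂ} (hκ : ∀ y ∈ Sl.reg, ∀ i : Fin Sl.N,
      Sl.w ⟪i⟫ y ^ 2 = κ * (∏ j : Fin Sl.N, Sl.ℓ ⟪j⟫ y) * (Sl.Bmat (Finset.univ.erase i) ∅ y).det)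
    (y : ℂ) (hy : y ∈ Sl.reg) (i : Fin Sl.N) :
    Sl.s' ⟪i⟫ y ^ 2 = Sl.cG κ (Sl.cext (Sl.stup y)) i := by
  rw [← Sl.s10b_sseq y hy.1]
  show Sl.s' ⟪i⟫ y ^ 2 = κ * (∏ j : Fin Sl.N, Sl.ℓ ⟪j⟫ y) * (Sl.Bmat (Finset.univ.erase i) ∅ y).det
    * Sl.fj ⟪i⟫ y ^ 4 / ((Sl.Sh.G.c : ℂ) ^ 2 * Sl.sd ⟪i⟫ y ^ 2)
  rw [← hκ y hy i]
  obtain ⟨n1, n2, -⟩ := hy.2.1 i
  have n3 : (Sl.Sh.G.c : ℂ) ≠ 0 := by exact_mod_cast Sl.Sh.G.c_pos.ne'
  unfold Slice.w
  field_simp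

omit hS in
theorem s10b_exp_le {x B : ℝ} (hx : 0 < x) (h : |Real.log x| ≤ B) : Real.exp (-B) ≤ x :=
  (Real.le_log_iff_exp_le hx).1 (abs_le.1 h).1

omit hS in
/-- the transversality on the slice: `- ℓ_j sin d_{j+2}`. -/
theorem s10b_ctr_eq (j : ℤ) {y : ℂ} (hy : y ∈ Sl.reg0) : Sl.ctr (Sl.sseq y) j = -(Sl.ℓ j y * Sl.sd (j + 2) y) := by
  show crossC (evecC (Sl.ψ (j + 2) y)) (reflC (Sl.ψ (j + 1) y) (Sl.X (j + 1) y - Sl.X j y)) = _
  have h1 := Sl.s10g_angle (j + 1) hy.1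
  rw [add_sub_cancel_right] at h1
  have h2 := Sl.s10g_θ_succ (j + 1) hy.1
  have e : j + 1 + 1 = j + 2 := by ring
  rw [e] at h2
  have h3 : 2 * Sl.ψ (j + 1) y - Sl.θ j y = Sl.θ (j + 1) y := by linear_combination -h1
  have h4 : Sl.θ (j + 1) y - Sl.ψ (j + 2) y = -Sl.d (j + 2) y := by rw [h2]; ring
  rw [Sl.s10g_chord j hy, reflC_smul, reflC_evec, crossC_smul_right, crossC_evec, h3, h4, Complex.sin_neg]
  unfold Slice.sd
  ring

omit hS in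
theorem s10b_cBdd (B : ℝ) (y : ℂ) (hy : y ∈ Sl.reg) (hB : Sl.Bdd B y) : Sl.cBdd B (Sl.stup y) := by
  have hy1 := Sl.s10g_reg_subset_reg1 hy
  have hy0 := Sl.s10g_reg1_subset_reg0 hy1
  have hsd : ∀ j : ℤ, Real.exp (-B) ≤ ‖Sl.sd j y‖ :=
    s10g_forall_int (P := fun j => Real.exp (-B) ≤ ‖Sl.sd j y‖) (fun j => by rw [Sl.s10g_sd_add_N j hy.1])
      fun i => s10b_exp_le (norm_pos_iff.2 (hy.2.1 i).2.1) (hB.1 i).2.2.1
  intro i
  rw [← Sl.s10b_sseq y hy.1]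
  obtain ⟨b1, b2, b3, b4⟩ := hB.1 i
  obtain ⟨n1, n2, n3⟩ := hy.2.1 i
  have hadm : Sl.Adm (Finset.univ.erase i) ∅ :=
    ⟨fun h => by have := Finset.mem_univ i; rw [← h] at this; simp at this, Finset.disjoint_empty_right _⟩
  have hℓ : Real.exp (-B) ≤ ‖Sl.ℓ ⟪i⟫ y‖ := s10b_exp_le (norm_pos_iff.2 n3) b4
  refine ⟨?_, s10b_exp_le (norm_pos_iff.2 n1) b2, hsd _, hℓ,
    s10b_exp_le (norm_pos_iff.2 (hy.2.2 _ _ hadm)) (hB.2 _ _ hadm), ?_⟩
  · have hδ := Sl.s10g_δ_pos ⟪i⟫ hy.1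
    have h1 : Real.exp (-B) ≤ Sl.δ ⟪i⟫ y := (Real.le_log_iff_exp_le hδ).1 (by unfold Slice.k at b1; linarith)
    unfold Slice.δ at h1
    show |(Sl.s ⟪i⟫ y).im| ≤ _
    linarith
  · rw [Sl.s10b_ctr_eq ⟪i⟫ hy0, norm_neg, norm_mul]
    have e : Real.exp (-(2 * B)) = Real.exp (-B) * Real.exp (-B) := by rw [← Real.exp_add]; ring_nf
    rw [e]
    exact mul_le_mul hℓ (hsd _) (Real.exp_pos _).le (norm_nonneg _)

/-! ## glue -/

omit hS in
theorem cshift_cshift_neg (x : Fin Sl.N → ℂ) (m : Fin Sl.N → ℤ) :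
    Sl.cshift (Sl.cshift x m) (-m) = x := by
  funext i
  simp [cshift]

/-- **Step A**: the slice extends across the wall point. -/
theorem s10b_extend (B : ℝ) (y : ℕ → ℂ) (l : ℂ) (hy : ∀ n, y n ∈ Sl.reg)
    (ht : Tendsto y atTop (𝓝 l)) (hB : ∀ n, Sl.Bdd B (y n)) :
    ∃ (ε : ℝ) (S : ℤ → ℂ → ℂ), Sl.s10bExt l ε S := by
  obtain ⟨κ, hκ0, hκ⟩ := Sl.s10b_in_cofactor hS
  have hH : Sl.Sh.H ≠ ⊤ := Sl.H_fin
  have hπ : (0 : ℝ) < 2 * π := by positivity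
  -- normalising shifts
  set m : ℕ → Fin Sl.N → ℤ := fun n i => -⌊(Sl.stup (y n) i).re / (2 * π)⌋ with hm
  set x : ℕ → Fin Sl.N → ℂ := fun n => Sl.cshift (Sl.stup (y n)) (m n) with hx
  have hxB : ∀ n, Sl.cBdd B (x n) := fun n =>
    Sl.cBdd_cshift hH (Sl.s10b_cBdd B (y n) (hy n) (hB n)) (m n)
  have hxre : ∀ n i, 0 ≤ (x n i).re ∧ (x n i).re ≤ 2 * π := by
    intro n i
    have h1 : (x n i).re = (Sl.stup (y n) i).re - 2 * π * ⌊(Sl.stup (y n) i).re / (2 * π)⌋ := by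
      simp only [hx, hm, cshift, Complex.add_re, Complex.mul_re, Complex.intCast_re,
        Complex.intCast_im, Int.cast_neg]
      simp
      ring
    have h2 := Int.floor_le ((Sl.stup (y n) i).re / (2 * π))
    have h3 := Int.lt_floor_add_one ((Sl.stup (y n) i).re / (2 * π))
    rw [le_div_iff₀ hπ] at h2
    rw [div_lt_iff₀ hπ] at h3
    rw [h1]
    constructor <;> nlinarith
  have hxim : ∀ n i, |(x n i).im| ≤ Sl.H := by
    intro n i
    have := (hxB n i).1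
    have h2 := Real.exp_pos (-B)
    linarith
  have hbdd : ∀ n, x n ∈ closedBall (0 : Fin Sl.N → ℂ) (2 * π + Sl.H) := by
    intro n
    rw [mem_closedBall_zero_iff]
    have hH0 : 0 ≤ Sl.H := le_trans (abs_nonneg _) (hxim n ⟨0, by have := Sl.N_ge; omega⟩)
    refine (pi_norm_le_iff_of_nonneg (by positivity)).2 fun i => ?_
    have h1 := Complex.norm_le_abs_re_add_abs_im (x n i)
    have h2 : |(x n i).re| ≤ 2 * π := by
      rw [abs_of_nonneg (hxre n i).1]; exact (hxre n i).2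
    linarith [hxim n i]
  obtain ⟨xs, -, φ, hφ, hxs⟩ := tendsto_subseq_of_bounded isBounded_closedBall hbdd
  have hxsU : xs ∈ Sl.cU := Sl.cU_of_tendsto hH (fun n => hxB (φ n)) hxs
  obtain ⟨r₁, δ, hr₁, hδ, hode⟩ := hd_sqrt_ode Sl.isOpen_cU (Sl.cG_diff κ)
    (fun i x hx => Sl.cG_ne hκ0 hx i) hxsU
  -- choice of the index
  have hev1 : ∀ᶠ k in atTop, x (φ k) ∈ ball xs δ := hxs.eventually (ball_mem_nhds xs hδ)
  have hev2 : ∀ᶠ k in atTop, y (φ k) ∈ ball l (r₁ / 2) :=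
    (ht.comp hφ.tendsto_atTop).eventually (ball_mem_nhds l (by positivity))
  obtain ⟨k, hk1, hk2⟩ := (hev1.and hev2).exists
  set n := φ k with hn
  set v : ℂ → Fin Sl.N → ℂ := fun y' => Sl.cshift (Sl.stup y') (m n) with hv
  have hregstrip : ∀ y', y' ∈ Sl.reg → y' ∈ Sl.strip := fun y' h => h.1
  have hstripo : IsOpen Sl.strip := s4c_isOpen_hstrip _
  have hvd : ∀ y' ∈ Sl.strip, DifferentiableAt ℂ v y' := by
    intro y' hy'
    rw [differentiableAt_pi]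
    intro i
    have h1 : DifferentiableAt ℂ (Sl.s ⟪i⟫) y' :=
      (Sl.s10g_s_diff ⟪i⟫).differentiableAt (hstripo.mem_nhds hy')
    exact h1.add_const _
  have hvev : ∀ᶠ y' in 𝓝 (y n), DifferentiableAt ℂ v y' ∧
      ∀ i, deriv (fun y'' => v y'' i) y' ^ 2 = Sl.cG κ (Sl.cext (v y')) i := by
    filter_upwards [Sl.s10g_isOpen_reg.mem_nhds (hy n)] with y' hy'
    refine ⟨hvd y' (hregstrip y' hy'), fun i => ?_⟩
    have h1 : deriv (fun y'' => v y'' i) y' = Sl.s' ⟪i⟫ y' := by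
      show deriv (fun y'' => Sl.s ⟪i⟫ y'' + 2 * π * (m n i : ℂ)) y' = _
      rw [deriv_add_const]
      rfl
    rw [h1, Sl.s10b_sq hκ y' hy' i]
    exact (Sl.cG_cshift κ (Sl.s10b_stup_cV₀ y' hy') (m n) i).symm
  obtain ⟨u, hud, huv, huU⟩ := hode (y n) v hk1 hvev
  have hh := Sl.s10g_h_pos
  set ε : ℝ := min (r₁ / 2) Sl.h with hε
  have hε0 : 0 < ε := lt_min (by positivity) hh
  have hball : ball l ε ⊆ ball (y n) r₁ := by
    intro y' hy'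
    rw [mem_ball] at hy' ⊢
    have h1 : dist y' (y n) ≤ dist y' l + dist l (y n) := dist_triangle _ _ _
    have h2 : dist l (y n) < r₁ / 2 := by rw [dist_comm]; exact hk2
    have h3 : ε ≤ r₁ / 2 := min_le_left _ _
    linarith
  -- identification on the part below the wall
  have huv' : EqOn u v (ball (y n) r₁ ∩ Sl.strip) := by
    have ho : IsOpen (ball (y n) r₁ ∩ Sl.strip) := isOpen_ball.inter hstripo
    have hc : IsPreconnected (ball (y n) r₁ ∩ Sl.strip) :=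
      ((convex_ball _ _).inter (s4c_convex_hstrip _)).isPreconnected
    have h1 : AnalyticOnNhd ℂ u (ball (y n) r₁ ∩ Sl.strip) :=
      (hud.mono inter_subset_left).analyticOnNhd ho
    have h2 : AnalyticOnNhd ℂ v (ball (y n) r₁ ∩ Sl.strip) :=
      DifferentiableOn.analyticOnNhd (fun y' hy' => (hvd y' hy'.2).differentiableWithinAt) ho
    exact h1.eqOn_of_preconnected_of_eventuallyEq h2 hc
      ⟨mem_ball_self hr₁, hregstrip _ (hy n)⟩ huv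
  refine ⟨ε, fun j y' => Sl.cext (Sl.cshift (u y') (-(m n))) j, ?_⟩
  have hUs : ∀ y' ∈ ball l ε, Sl.cshift (u y') (-(m n)) ∈ Sl.cU := fun y' hy' =>
    Sl.cU_cshift (huU y' (hball hy')).1 _
  have hform : ∀ (j : ℤ) (y' : ℂ), Sl.cext (Sl.cshift (u y') (-(m n))) j =
      u y' (Sl.cidx j) + (2 * π * ((-(m n)) (Sl.cidx j) : ℂ) + 2 * π * ((j / (Sl.N : ℤ) : ℤ) : ℂ)) := by
    intro j y'
    simp only [cext, cshift]
    ring
  have hui : ∀ (i : Fin Sl.N), ∀ y' ∈ ball (y n) r₁, DifferentiableAt ℂ (fun y'' => u y'' i) y' := by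
    intro i y' hy'
    exact differentiableAt_pi.1 (hud.differentiableAt (isOpen_ball.mem_nhds hy')) i
  refine ⟨hε0, min_le_right _ _, ?_, ?_, ?_, ?_, ?_, ?_, ?_⟩
  · intro j y' hy'
    have h1 : DifferentiableAt ℂ (fun y'' => Sl.cext (Sl.cshift (u y'') (-(m n))) j) y' := by
      simp only [hform]
      exact (hui _ y' (hball hy')).add_const _
    exact h1.differentiableWithinAt
  · intro j y' hy' hys
    show Sl.cext (Sl.cshift (u y') (-(m n))) j = Sl.s j y'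
    rw [huv' ⟨hball hy', hys⟩]
    show Sl.cext (Sl.cshift (Sl.cshift (Sl.stup y') (m n)) (-(m n))) j = Sl.s j y'
    rw [cshift_cshift_neg, ← Sl.s10b_sseq y' hys]
    rfl
  · intro j y' hy'
    exact (Sl.cV₀_ext (hUs y' hy').1.1 j).1
  · intro j y' hy'
    exact (Sl.cV₀_ext (hUs y' hy').1.1 j).2
  · intro j y' _
    exact Sl.cext_add_N _ j
  · intro j y' hy'
    exact Sl.cU_ext (hUs y' hy') j
  · intro y' hy'
    have h1 : deriv (fun y'' => Sl.cext (Sl.cshift (u y'') (-(m n))) 0) y' =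
        deriv (fun y'' => u y'' (Sl.cidx 0)) y' := by
      simp only [hform]
      rw [deriv_add_const]
    rw [h1]
    exact (huU y' (hball hy')).2 _

end Slice

end Claimed.Agent.R269
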