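/-
Row 269, P1 Theorem 10.3 (boundary contact), parts B and C: RETURN MAP, CLIMB, FILLING, CONCLUSION.   Statements: helper34 (BP-S10b-contact).

INPUT: `E : Sl.s10bExt l ε S` (S10/ContactExt.lean): the slice `y ↦ (s_j y)_j` extends holomorphically and nondegenerately to `ball l ε`, `l` a point of the upper wall `Im l = h = h_X(t₀)`.
OUTPUT: `False`.

(B1) `s10bExt.rel_zero`  [LEAF LF-S10b-relz]: the three-point relation holds for the extension (identity theorem).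
(B2) `s10bO`, `Shape.s10bZ`, `s10b_isOpen_O`, `s10b_Z_diff`, `s10b_O_rel`, `s10b_O_per`  [LEAF LF-S10b-O]: the joint data `Z (y,t) = (𝔰(y,t), 𝔰(y+t,t))` on the open set `O` of those `(y,t)` whose first `N+2` impacts stay `δ`-close to the
      limiting ones.
(B3) `s10bExt.climb` (glue, PROVED): the `N`-step return map `R = Rn - (2π,2π)` (`hd_chain`, Lib/HolDyn.lean) and `(S 0, S 1, O, Z)` satisfy `HdClimb` (Lib/HolClimb.lean) with `κ = N`.
(B4) `Shape.s10b_passage`  [LEAF LF-S10b-pass]: the extension given by `hd_climb` is a passage.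
(C)  `Shape.s10b_fill`     [LEAF LF-S10b-fill]: a passage over `trapezoid × upper steep sector` at a wall point of a REAL parameter is impossible (Kontinuitaetssatz `s9k_konti` + `s6_passage_width`).
(D)  `s10bExt.conj`        [LEAF LF-S10b-conj]: reflection of an extension at the lower wall.
`s10bExt.upper`, `s10b_boundary_contact` (glue, PROVED).

PLANS.
(relz) `W := ball l ε ∩ strip` is open and contains `l - (ε/2) i` (`Im = h - ε/2 ∈ (-h,h)` because `0 < ε ≤ h`).  On `W`: `S j y = s j y = 𝔰(y + j t₀, t₀)` (`E.eq`); `Sl.s10j_rel3` with `t = t₀` (real: `|Im t₀| = 0 < s/8`, `Sl.Sh.G.s4c_s_pos`)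
       at the middle point `y + (j+1) t₀`; membership: `Sl.s10b_strip_T`; `f ≠ 0`: `E.f_ne` rewritten with `E.eq`.  (`y + (j+1) t₀ - t₀ = y + j t₀` etc.: `push_cast; ring`.)
       `Φ y := rel3 (S j y) (S (j+1) y) (S (j+2) y)` is analytic on `ball l ε`: `Sl.s10j_rel3_an` composed with `y ↦ ((S j y, S (j+1) y), S (j+2) y)` (`E.diff`, `DifferentiableOn.analyticOnNhd`, `AnalyticAt.prodMk`/`.prod`, `AnalyticAt.comp`).
       `AnalyticOnNhd.eqOn_zero_of_preconnected_of_eventuallyEq_zero` on the convex ball.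
(O)    `s10b_isOpen_O`: finite intersection over `j ∈ Finset.range (N+2)` (`isOpen_biInter_finset` or rewrite with `∀ j : Fin (N+2)`); for one `j`: `e_j z = (z.1 + j z.2, z.2)` is continuous, `T` is open (`Sh.s9k_T_open`), `lift` is continuous on `T`,
       `f` is continuous on `D` (`Sl.s10g_f_diff`), `lift` maps `T` to `D`: `ContinuousOn.isOpen_inter_preimage`.  `|Im z.2| < s/8` is open.
       `s10b_Z_diff`: `lift_diff` composed with `e_0 = id` (`j = 0`: `z.1 + 0 * z.2 = z.1`) and `e_1`.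
       `s10b_O_rel`: `Sl.s10j_rel3` with `t = z.2`, `y = z.1 + (j+1) z.2`.
       `s10b_O_per`: `N t₀ = 2π` (`Sl.s10g_N_mul_t₀`): `z.1 + N z.2 = w + 2π`, `w = z.1 + N (z.2 - t₀)`; `Sh.lift_per` at `(w, z.2)` and `(w + z.2, z.2)`, both in `T` by `hz'` (`j = 0, 1`).
(pass) `hdW y₂ t₀ η r` is open (strict inequalities between continuous functions).  `attached`: for `z ∈ hdW` take `η' := min z.1.im (y₂.im - 5η/2)`; the points `(⟨z.1.re, τ⟩, z.2)`, `η' ≤ τ ≤ z.1.im`, are in `hdW` (the three conditions of `hdTz`: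
       `τ ≥ η' > y₂.im - 3η`; `τ ≤ z.1.im`; the third is monotone in `τ`); the base point is low (`η' < y₂.im - 2η`), and `{z ∈ hdW | z.1.im < y₂.im - 2η}` is an open set on which `(Zt z).1 = lift z`.
(fill) `h := y₂.im`.  By `lsc_X` at `t₀` (`ofReal (h - η/36) < ofReal h = hX t₀`) there is `r₁ > 0`, `ball t₀ r₁ ⊆ ball 0 ρ`, with `ofReal (h - η/36) < hX t` on `ball t₀ r₁`.  `r' := min r r₁ / 2`, `Ω := ball t₀ r'`, `closure Ω = closedBall`, `frontier Ω = sphere`.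
       (T) if `‖t - t₀‖ ≤ r'` and `0 < Im y < h - η/36` then `(y,t) ∈ T ⊆ Rmax` (`conj t` is also in the ball as `t₀` is real; `ofReal (-Im y) = 0 < hX (conj t)`; `(Sh.s9k_max_spec Sh.s9k_tube).1`).
       `ζ := (t - t₀)/r'`, `q ζ := i ζ + ζ²/2`, `g t := y₂ - i η q ζ`, `s₀ := 2η`, `r₀ := η/36`.  `‖q ζ‖ ≤ 3/2` for `‖ζ‖ ≤ 1`.  `Im (g t) = h - η Re q`, `Re (g t) = Re y₂ + η Im q`.
       `hdeep`: `Im (g t - 2η i) ∈ [h - 7η/2, h - η/2]`: (T) (`4η < h`).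
       `hbd`: `‖ζ‖ = 1`, `ζ = a + i b`: `Re q = -b + (a² - b²)/2 = 1/2 - b - b²`.  Let `y ∈ ball (g t - s i) (η/36)`, `0 ≤ s ≤ 2η`.  Always `Im y > h - 3η/2 - 2η - η/36 > 0`.
          If `Im y < h - η/36`: (T).   Otherwise `b > 1/3` [for `-1 ≤ b ≤ 1/3`: `1/2 - b - b² ≥ 1/18` (`nlinarith`), so `Im y < h - η/18 + η/36`], hence `t ∈ hdSteep t₀ r` (`‖t - t₀‖ = r' < r`, `Im (t - t₀) = r' b > r'/3`), and `y ∈ hdTz y₂ η`:
          `h - 3η < h - η/36 ≤ Im y < h + 3η/2 + η/36 < h + 2η`, `|Re y - Re y₂| < 3η/2 + η/36`, `|Re y - Re y₂| + 3 (Im y - h) < 4 (3η/2 + η/36) < 8η`.  `hst`.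
       Conclusion of `s9k_konti` at `t = t₀`, `s = 0`: `g t₀ = y₂`, `(y₂,t₀) ∈ Rmax`; `Sh.s6_passage_width Sh.s9k_max t₀ y₂` gives `ofReal h < hX t₀ = ofReal h`.
(conj) `S' j y = conj (S j (conj y))`; `conj` maps `ball (conj l) ε` to `ball l ε` (isometry) and preserves `strip`, `D`.  `diff`: `DifferentiableAt.conj_conj`.  `eq`: `Sl.s10g_L_conj` (`s j y = L (y + j t₀)`, `t₀` real).  `f_ne`: `Sl.s10j_f_conj`.
       `per`: `conj (2π) = 2π`.  `tr_ne`: `Sl.s10j_tr_conj`.  `d_ne`: `deriv_conj_conj`-type lemma (`HasDerivAt.conj_conj`).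
-/
import Claimed.Agent.R269.S10.ContactExt
import Claimed.Agent.R269.Lib.HolClimb
import Claimed.Agent.R269.S9.Konti
import Claimed.Agent.R269.S6.Width

set_option autoImplicit false

namespace Claimed.Agent.R269

open Complex ComplexConjugate Filter Topology Set Metric
open scoped Real ENNReal

local notation "⟪" i "⟫" => ((Fin.val i : ℕ) : ℤ)

namespace Shape

variable (Sh : Shape)

/-- the joint data: two consecutive impacts. -/
noncomputable def s10bZ (z : ℂ × ℂ) : ℂ × ℂ := (Sh.lift z, Sh.lift (z.1 + z.2, z.2))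

/-! ## LEAF LF-S10b-pass -/

omit Sh in
theorem s10b_isOpen_W (y₂ t₀ : ℂ) (η r : ℝ) : IsOpen (hdW y₂ t₀ η r) := by
  have h1 : Continuous fun z : ℂ × ℂ => z.1.im := Complex.continuous_im.comp continuous_fst
  have h2 : Continuous fun z : ℂ × ℂ => z.1.re := Complex.continuous_re.comp continuous_fst
  have h3 : Continuous fun z : ℂ × ℂ => ‖z.2 - t₀‖ := (continuous_snd.sub continuous_const).norm
  have h4 : Continuous fun z : ℂ × ℂ => (z.2 - t₀).im :=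
    Complex.continuous_im.comp (continuous_snd.sub continuous_const)
  exact ((isOpen_lt continuous_const h1).inter ((isOpen_lt h1 continuous_const).inter
    (isOpen_lt (((h2.sub continuous_const).abs).add (continuous_const.mul (h1.sub continuous_const)))
      continuous_const))).inter
    ((isOpen_lt h3 continuous_const).inter (isOpen_lt h3 (continuous_const.mul h4)))

theorem s10b_passage {y₂ t₀ : ℂ} {η r : ℝ} (hη : 0 < η) (hr : ball t₀ r ⊆ ball (0 : ℂ) Sh.ρ)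
    {Zt : ℂ × ℂ → ℂ × ℂ} (hd : DifferentiableOn ℂ Zt (hdW y₂ t₀ η r))
    (hm : ∀ z ∈ hdW y₂ t₀ η r, (Zt z).1 ∈ Sh.D)
    (hlow : ∀ z ∈ hdW y₂ t₀ η r, z.1.im < y₂.im - 2 * η → z ∈ Sh.T ∧ (Zt z).1 = Sh.lift z) :
    Sh.IsPassage (hdW y₂ t₀ η r) (fun z => (Zt z).1) := by
  have h1 : Continuous fun z : ℂ × ℂ => z.1.im := Complex.continuous_im.comp continuous_fst
  refine ⟨s10b_isOpen_W y₂ t₀ η r, hd.fst, hm, fun z hz => hr ?_, fun z hz => ?_⟩
  · rw [mem_ball, dist_eq_norm]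
    exact hz.2.1
  · obtain ⟨⟨hz1, hz2, hz3⟩, hz4⟩ := hz
    obtain ⟨η', hη'⟩ : ∃ η', η' = min z.1.im (y₂.im - 5 * η / 2) := ⟨_, rfl⟩
    have hη'1 : η' ≤ z.1.im := hη' ▸ min_le_left _ _
    have hη'2 : η' ≤ y₂.im - 5 * η / 2 := hη' ▸ min_le_right _ _
    have hη'3 : y₂.im - 3 * η < η' := hη' ▸ lt_min hz1 (by linarith)
    have hseg : ∀ τ ∈ Icc η' z.1.im, ((⟨z.1.re, τ⟩ : ℂ), z.2) ∈ hdW y₂ t₀ η r := by
      intro τ hτ
      refine ⟨⟨?_, ?_, ?_⟩, hz4⟩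
      · show y₂.im - 3 * η < τ
        linarith [hτ.1]
      · show τ < y₂.im + 2 * η
        linarith [hτ.2]
      · show |z.1.re - y₂.re| + 3 * (τ - y₂.im) < 8 * η
        linarith [hτ.2]
    have hb := hseg η' ⟨le_rfl, hη'1⟩
    have hblow : ((⟨z.1.re, η'⟩ : ℂ), z.2).1.im < y₂.im - 2 * η := by
      show η' < y₂.im - 2 * η
      linarith
    refine ⟨η', hη'1, hseg, (hlow _ hb hblow).1, ?_⟩
    filter_upwards [((s10b_isOpen_W y₂ t₀ η r).inter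
      (isOpen_lt h1 continuous_const)).mem_nhds ⟨hb, hblow⟩] with w hw
    exact (hlow w hw.1 hw.2).2

/-! ## LEAF LF-S10b-fill -/

omit Sh in
theorem s10b_fill_g (y₂ : ℂ) (η a b : ℝ) :
    (y₂ - I * (η : ℂ) * (I * (⟨a, b⟩ : ℂ) + (⟨a, b⟩ : ℂ) ^ 2 / 2)).re = y₂.re + η * (a + a * b) ∧
    (y₂ - I * (η : ℂ) * (I * (⟨a, b⟩ : ℂ) + (⟨a, b⟩ : ℂ) ^ 2 / 2)).im =
      y₂.im - η * (-b + (a ^ 2 - b ^ 2) / 2) := by
  constructor <;>
  · simp only [pow_two, Complex.sub_re, Complex.sub_im, Complex.mul_re, Complex.mul_im,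
      Complex.add_re, Complex.add_im, Complex.I_re, Complex.I_im, Complex.ofReal_re,
      Complex.ofReal_im, Complex.div_ofNat_re, Complex.div_ofNat_im]
    ring

set_option maxHeartbeats 1000000 in
theorem s10b_fill (hH : Sh.H ≠ ⊤) (t₀ : ℝ) (ht₀ : |t₀| < Sh.ρ) (y₂ : ℂ)
    (hy₂ : ENNReal.ofReal y₂.im = Sh.G.hX (t₀ : ℂ)) (η r : ℝ) (hη : 0 < η) (hη' : 4 * η < y₂.im)
    (hr : 0 < r) (hst : hdW y₂ (t₀ : ℂ) η r ⊆ Sh.s9Rmax) : False := by
  have ht₀ρ : (t₀ : ℂ) ∈ ball (0 : ℂ) Sh.ρ := by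
    rw [mem_ball_zero_iff, Complex.norm_real]; exact ht₀
  have hlt : ENNReal.ofReal (y₂.im - η / 36) < Sh.G.hX (t₀ : ℂ) := by
    rw [← hy₂]; exact (ENNReal.ofReal_lt_ofReal_iff (by linarith)).2 (by linarith)
  have hev := Sh.lsc_X (t₀ : ℂ) ht₀ρ _ hlt
  rw [isOpen_ball.nhdsWithin_eq ht₀ρ] at hev
  obtain ⟨r₁, hr₁, hr₁b⟩ := Metric.eventually_nhds_iff_ball.1
    (hev.and (isOpen_ball.eventually_mem ht₀ρ))
  obtain ⟨r', hr'def⟩ : ∃ r', r' = min r r₁ / 2 := ⟨_, rfl⟩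
  have hmin : 0 < min r r₁ := lt_min hr hr₁
  have hr'0 : 0 < r' := by rw [hr'def]; positivity
  have hr'r : r' < r := by rw [hr'def]; linarith [min_le_left r r₁]
  have hr'r₁ : r' < r₁ := by rw [hr'def]; linarith [min_le_right r r₁]
  -- (T)
  have hT : ∀ t y : ℂ, ‖t - t₀‖ ≤ r' → 0 < y.im → y.im < y₂.im - η / 36 → (y, t) ∈ Sh.s9Rmax := by
    intro t y ht hy0 hy1
    apply (Sh.s9k_max_spec Sh.s9k_tube).1
    have h1 : t ∈ ball (t₀ : ℂ) r₁ := by rw [mem_ball, dist_eq_norm]; linarith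
    have h2 : conj t ∈ ball (t₀ : ℂ) r₁ := by
      rw [mem_ball, dist_eq_norm]
      have : conj t - (t₀ : ℂ) = conj (t - t₀) := by simp
      rw [this, Complex.norm_conj]; linarith
    refine ⟨(hr₁b t h1).2, ?_, ?_⟩
    · exact lt_of_le_of_lt (ENNReal.ofReal_le_ofReal hy1.le) (hr₁b t h1).1
    · show ENNReal.ofReal (-y.im) < Sh.G.hX (conj t)
      rw [ENNReal.ofReal_of_nonpos (by linarith)]
      exact lt_of_le_of_lt zero_le (hr₁b _ h2).1
  -- the discs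
  obtain ⟨g, hg⟩ : ∃ g : ℂ → ℂ, g = fun t =>
      y₂ - I * (η : ℂ) * (I * ((t - t₀) / r') + ((t - t₀) / r') ^ 2 / 2) := ⟨_, rfl⟩
  have hgd : Differentiable ℂ g := by rw [hg]; fun_prop
  have hζ : ∀ t : ℂ, (t - t₀) / (r' : ℂ) = ⟨(t.re - t₀) / r', t.im / r'⟩ := by
    intro t
    apply Complex.ext
    · rw [Complex.div_ofReal_re]; simp
    · rw [Complex.div_ofReal_im]; simp
  have hgre : ∀ t : ℂ, (g t).re =
      y₂.re + η * ((t.re - t₀) / r' + (t.re - t₀) / r' * (t.im / r')) := by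
    intro t
    rw [hg]
    simp only [hζ]
    exact (s10b_fill_g y₂ η _ _).1
  have hgim : ∀ t : ℂ, (g t).im =
      y₂.im - η * (-(t.im / r') + (((t.re - t₀) / r') ^ 2 - (t.im / r') ^ 2) / 2) := by
    intro t
    rw [hg]
    simp only [hζ]
    exact (s10b_fill_g y₂ η _ _).2
  have hab : ∀ t : ℂ, ((t.re - t₀) / r') ^ 2 + (t.im / r') ^ 2 = (‖t - t₀‖ / r') ^ 2 := by
    intro t
    rw [div_pow, div_pow, div_pow, Complex.sq_norm, Complex.normSq_apply]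
    simp only [Complex.sub_re, Complex.sub_im, Complex.ofReal_re, Complex.ofReal_im, sub_zero]
    ring
  -- bounds for `a² + b² ≤ 1`
  have hq : ∀ a b : ℝ, a ^ 2 + b ^ 2 ≤ 1 →
      |(-b + (a ^ 2 - b ^ 2) / 2)| ≤ 3 / 2 ∧ |a + a * b| ≤ 3 / 2 := by
    intro a b h
    have h1 : -1 ≤ b := by nlinarith [sq_nonneg (b + 1), sq_nonneg a]
    have h2 : b ≤ 1 := by nlinarith [sq_nonneg (b - 1), sq_nonneg a]
    have h3 : -1 ≤ a := by nlinarith [sq_nonneg (a + 1), sq_nonneg b]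
    have h4 : a ≤ 1 := by nlinarith [sq_nonneg (a - 1), sq_nonneg b]
    have h5 : a * b ≤ 1 / 2 := by nlinarith [sq_nonneg (a - b)]
    have h6 : -(1 / 2) ≤ a * b := by nlinarith [sq_nonneg (a + b)]
    constructor
    · rw [abs_le]; constructor <;> nlinarith [sq_nonneg a, sq_nonneg b]
    · rw [abs_le]; constructor <;> linarith
  have hcl : closure (ball (t₀ : ℂ) r') = closedBall (t₀ : ℂ) r' := closure_ball _ hr'0.ne'
  have hfr : frontier (ball (t₀ : ℂ) r') = sphere (t₀ : ℂ) r' := frontier_ball _ hr'0.ne'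
  have hkonti := Sh.s9k_konti hH (ball (t₀ : ℂ) r') isOpen_ball
    (by
      rw [hcl]
      intro t ht
      exact (hr₁b t (closedBall_subset_ball hr'r₁ ht)).2)
    g hgd.diffContOnCl (2 * η) (η / 36) (by positivity) (by positivity)
    (by
      -- deep
      intro t ht
      rw [hcl, mem_closedBall, dist_eq_norm] at ht
      have h1 : ((t.re - t₀) / r') ^ 2 + (t.im / r') ^ 2 ≤ 1 := by
        rw [hab]
        have : ‖t - t₀‖ / r' ≤ 1 := (div_le_one hr'0).2 ht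
        have h0 : 0 ≤ ‖t - t₀‖ / r' := by positivity
        nlinarith
      have h2 := abs_le.1 (hq _ _ h1).1
      have him : (g t - ((2 * η : ℝ) : ℂ) * I).im = (g t).im - 2 * η := by simp
      have h3 : η * (-(t.im / r') + (((t.re - t₀) / r') ^ 2 - (t.im / r') ^ 2) / 2) ≤ η * (3 / 2) :=
        mul_le_mul_of_nonneg_left h2.2 hη.le
      have h4 : η * (-(3 / 2)) ≤ η * (-(t.im / r') + (((t.re - t₀) / r') ^ 2 - (t.im / r') ^ 2) / 2) :=
        mul_le_mul_of_nonneg_left h2.1 hη.le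
      apply hT t _ ht
      · rw [him, hgim]; linarith
      · rw [him, hgim]; linarith)
    (by
      -- boundary
      intro t ht s hs y hy
      rw [hfr, mem_sphere, dist_eq_norm] at ht
      obtain ⟨a, ha⟩ : ∃ a, a = (t.re - t₀) / r' := ⟨_, rfl⟩
      obtain ⟨b, hb⟩ : ∃ b, b = t.im / r' := ⟨_, rfl⟩
      have h1 : a ^ 2 + b ^ 2 = 1 := by
        rw [ha, hb, hab, ht, div_self hr'0.ne', one_pow]
      have h2 := hq a b h1.le
      have h2a := abs_le.1 h2.1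
      have h2b := abs_le.1 h2.2
      have hgre' := hgre t
      have hgim' := hgim t
      rw [← ha, ← hb] at hgre' hgim'
      rw [mem_ball, dist_eq_norm] at hy
      have hyre := abs_lt.1 (lt_of_le_of_lt (Complex.abs_re_le_norm _) hy)
      have hyim := abs_lt.1 (lt_of_le_of_lt (Complex.abs_im_le_norm _) hy)
      have e1 : (y - (g t - (s : ℂ) * I)).re = y.re - (g t).re := by simp
      have e2 : (y - (g t - (s : ℂ) * I)).im = y.im - (g t).im + s := by simp; ring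
      rw [e1, hgre'] at hyre
      rw [e2, hgim'] at hyim
      have m1 : η * (-b + (a ^ 2 - b ^ 2) / 2) ≤ η * (3 / 2) := mul_le_mul_of_nonneg_left h2a.2 hη.le
      have m2 : η * (-(3 / 2)) ≤ η * (-b + (a ^ 2 - b ^ 2) / 2) :=
        mul_le_mul_of_nonneg_left h2a.1 hη.le
      have m3 : η * (a + a * b) ≤ η * (3 / 2) := mul_le_mul_of_nonneg_left h2b.2 hη.le
      have m4 : η * (-(3 / 2)) ≤ η * (a + a * b) := mul_le_mul_of_nonneg_left h2b.1 hη.le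
      rcases lt_or_ge y.im (y₂.im - η / 36) with hlow | hhigh
      · exact hT t y ht.le (by linarith [hyim.1, hs.2]) hlow
      · have hb3 : 1 / 3 < b := by
          by_contra hcon
          rw [not_lt] at hcon
          have hb1 : -1 ≤ b := by nlinarith [sq_nonneg (b + 1), sq_nonneg a]
          have h3 : 1 / 18 ≤ -b + (a ^ 2 - b ^ 2) / 2 := by nlinarith
          have h4 : η * (1 / 18) ≤ η * (-b + (a ^ 2 - b ^ 2) / 2) :=
            mul_le_mul_of_nonneg_left h3 hη.le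
          linarith [hyim.2, hs.1]
        apply hst
        refine ⟨⟨?_, ?_, ?_⟩, ?_, ?_⟩
        · show y₂.im - 3 * η < y.im
          linarith
        · show y.im < y₂.im + 2 * η
          linarith [hyim.2, hs.1]
        · show |y.re - y₂.re| + 3 * (y.im - y₂.im) < 8 * η
          have : |y.re - y₂.re| < 3 * η / 2 + η / 36 := by
            rw [abs_lt]; constructor <;> linarith [hyre.1, hyre.2]
          linarith [hyim.2, hs.1]
        · show ‖t - (t₀ : ℂ)‖ < r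
          rw [ht]; exact hr'r
        · show ‖t - (t₀ : ℂ)‖ < 3 * (t - (t₀ : ℂ)).im
          have : (t - (t₀ : ℂ)).im = r' * b := by
            rw [hb]; simp; field_simp
          rw [ht, this]
          have h5 : r' * (1 / 3) < r' * b := mul_lt_mul_of_pos_left hb3 hr'0
          linarith)
  have hfin := hkonti (t₀ : ℂ) (mem_ball_self hr'0) 0 ⟨le_rfl, by positivity⟩
  have hg0 : g (t₀ : ℂ) - ((0 : ℝ) : ℂ) * I = y₂ := by rw [hg]; simp
  rw [hg0] at hfin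
  have := Sh.s6_passage_width Sh.s9k_max t₀ y₂ hfin
  rw [hy₂] at this
  exact lt_irrefl _ this

end Shape

namespace Slice

variable (Sl : Slice)

/-- the parameters `(y,t)` whose first `N + 2` impacts are `δ`-close to the points `a j` and regular. -/
def s10bO (a : ℕ → ℂ) (δ : ℝ) : Set (ℂ × ℂ) :=
  {z | |z.2.im| < Sl.Sh.G.s / 8 ∧ ∀ j : ℕ, j ≤ Sl.N + 1 → (z.1 + j * z.2, z.2) ∈ Sl.Sh.T ∧
    Sl.Sh.lift (z.1 + j * z.2, z.2) ∈ ball (a j) δ ∧ Sl.Sh.f (Sl.Sh.lift (z.1 + j * z.2, z.2)) ≠ 0}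

/-! ## LEAF LF-S10b-O -/

theorem s10b_isOpen_O (a : ℕ → ℂ) (δ : ℝ) : IsOpen (Sl.s10bO a δ) := by
  have hT : IsOpen Sl.Sh.T := Sl.Sh.s9k_T_open
  have hV : ∀ j : ℕ, IsOpen (ball (a j) δ ∩ (Sl.Sh.D ∩ Sl.Sh.f ⁻¹' {0}ᶜ)) := fun j =>
    isOpen_ball.inter (Sl.s10g_f_diff.continuousOn.isOpen_inter_preimage Sl.s10g_isOpen_D
      isOpen_compl_singleton)
  have hP : ∀ j : ℕ, IsOpen (Sl.Sh.T ∩
      Sl.Sh.lift ⁻¹' (ball (a j) δ ∩ (Sl.Sh.D ∩ Sl.Sh.f ⁻¹' {0}ᶜ))) := fun j =>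
    Sl.Sh.lift_diff.continuousOn.isOpen_inter_preimage hT (hV j)
  have he : ∀ j : ℕ, Continuous fun z : ℂ × ℂ => (z.1 + (j : ℂ) * z.2, z.2) := fun j => by fun_prop
  have heq : Sl.s10bO a δ = {z : ℂ × ℂ | |z.2.im| < Sl.Sh.G.s / 8} ∩
      ⋂ j ∈ Finset.range (Sl.N + 2), (fun z : ℂ × ℂ => (z.1 + (j : ℂ) * z.2, z.2)) ⁻¹'
        (Sl.Sh.T ∩ Sl.Sh.lift ⁻¹' (ball (a j) δ ∩ (Sl.Sh.D ∩ Sl.Sh.f ⁻¹' {0}ᶜ))) := by
    ext z
    constructor
    · rintro ⟨h1, h2⟩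
      refine ⟨h1, mem_iInter₂.2 fun j hj => ?_⟩
      obtain ⟨h3, h4, h5⟩ := h2 j (by have := Finset.mem_range.1 hj; omega)
      exact ⟨h3, h4, Sl.Sh.lift_mem _ h3, h5⟩
    · rintro ⟨h1, h2⟩
      refine ⟨h1, fun j hj => ?_⟩
      obtain ⟨h3, h4, _, h5⟩ := mem_iInter₂.1 h2 j (Finset.mem_range.2 (by omega))
      exact ⟨h3, h4, h5⟩
  rw [heq]
  exact (isOpen_lt (continuous_abs.comp (Complex.continuous_im.comp continuous_snd))
    continuous_const).inter (isOpen_biInter_finset fun j _ => (hP j).preimage (he j))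

theorem s10b_O_sub (a : ℕ → ℂ) (δ : ℝ) : Sl.s10bO a δ ⊆ Sl.Sh.T := by
  intro z hz
  have := (hz.2 0 (Nat.zero_le _)).1
  simpa using this

theorem s10b_Z_diff (a : ℕ → ℂ) (δ : ℝ) : DifferentiableOn ℂ Sl.Sh.s10bZ (Sl.s10bO a δ) := by
  have h1 : DifferentiableOn ℂ Sl.Sh.lift (Sl.s10bO a δ) :=
    Sl.Sh.lift_diff.mono (Sl.s10b_O_sub a δ)
  have h2 : DifferentiableOn ℂ (fun z : ℂ × ℂ => Sl.Sh.lift (z.1 + z.2, z.2)) (Sl.s10bO a δ) := by
    refine Sl.Sh.lift_diff.comp (f := fun z : ℂ × ℂ => (z.1 + z.2, z.2)) (by fun_prop) ?_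
    intro z hz
    have := (hz.2 1 (by omega)).1
    show (z.1 + z.2, z.2) ∈ Sl.Sh.T
    simpa using this
  exact h1.prodMk h2

theorem s10b_O_rel {a : ℕ → ℂ} {δ : ℝ} {z : ℂ × ℂ} (hz : z ∈ Sl.s10bO a δ) (j : ℕ) (hj : j < Sl.N) :
    Sl.Sh.rel3 (Sl.Sh.lift (z.1 + j * z.2, z.2)) (Sl.Sh.lift (z.1 + (j + 1 : ℕ) * z.2, z.2))
      (Sl.Sh.lift (z.1 + (j + 2 : ℕ) * z.2, z.2)) = 0 := by
  have e1 : z.1 + ((j + 1 : ℕ) : ℂ) * z.2 - z.2 = z.1 + (j : ℂ) * z.2 := by push_cast; ring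
  have e3 : z.1 + ((j + 1 : ℕ) : ℂ) * z.2 + z.2 = z.1 + ((j + 2 : ℕ) : ℂ) * z.2 := by
    push_cast; ring
  obtain ⟨a1, -, a3⟩ := hz.2 j (by omega)
  obtain ⟨b1, -, b3⟩ := hz.2 (j + 1) (by omega)
  obtain ⟨c1, -, c3⟩ := hz.2 (j + 2) (by omega)
  have := Sl.s10j_rel3 (t := z.2) (y := z.1 + ((j + 1 : ℕ) : ℂ) * z.2) hz.1 (by rw [e1]; exact a1) b1
    (by rw [e3]; exact c1) (by rw [e1]; exact a3) b3 (by rw [e3]; exact c3)
  rwa [e1, e3] at this

theorem s10b_O_per {a : ℕ → ℂ} {δ : ℝ} {z : ℂ × ℂ}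
    (hz' : (z.1 + (Sl.N : ℂ) * (z.2 - (Sl.t₀ : ℂ)), z.2) ∈ Sl.s10bO a δ) :
    (Sl.Sh.lift (z.1 + (Sl.N : ℕ) * z.2, z.2), Sl.Sh.lift (z.1 + (Sl.N + 1 : ℕ) * z.2, z.2)) =
      Sl.Sh.s10bZ (z.1 + (Sl.N : ℂ) * (z.2 - (Sl.t₀ : ℂ)), z.2) + ((2 * π : ℂ), (2 * π : ℂ)) := by
  obtain ⟨w, hw⟩ : ∃ w, w = z.1 + (Sl.N : ℂ) * (z.2 - (Sl.t₀ : ℂ)) := ⟨_, rfl⟩
  rw [← hw] at hz' ⊢
  have hN := Sl.s10g_N_mul_t₀
  have e0 : z.1 + ((Sl.N : ℕ) : ℂ) * z.2 = w + 2 * π := by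
    rw [hw, ← hN]; ring
  have e1 : z.1 + ((Sl.N + 1 : ℕ) : ℂ) * z.2 = w + z.2 + 2 * π := by
    rw [hw, ← hN]; push_cast; ring
  have t0 : (w, z.2) ∈ Sl.Sh.T := Sl.s10b_O_sub a δ hz'
  have t1 : (w + z.2, z.2) ∈ Sl.Sh.T := by
    have := (hz'.2 1 (by omega)).1
    simpa using this
  have p0 := Sl.Sh.lift_per _ t0
  have p1 := Sl.Sh.lift_per _ t1
  simp only [] at p0 p1
  rw [e0, e1, p0, p1]
  rfl

variable {Sl}
variable {l : ℂ} {ε : ℝ} {S : ℤ → ℂ → ℂ}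

/-! ## LEAF LF-S10b-relz -/

theorem s10bExt.rel_zero (E : Sl.s10bExt l ε S) (hl : l.im = Sl.h) (j : ℤ) :
    ∀ y ∈ ball l ε, Sl.Sh.rel3 (S j y) (S (j + 1) y) (S (j + 2) y) = 0 := by
  have han : AnalyticOnNhd ℂ (fun y => Sl.Sh.rel3 (S j y) (S (j + 1) y) (S (j + 2) y)) (ball l ε) := by
    intro y hy
    have hS : ∀ k, AnalyticAt ℂ (S k) y := fun k => (E.diff k).analyticAt (isOpen_ball.mem_nhds hy)
    have h1 := Sl.s10j_rel3_an (E.mem j y hy) (E.mem (j + 1) y hy) (E.mem (j + 2) y hy)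
      (E.f_ne j y hy) (E.f_ne (j + 1) y hy) (E.f_ne (j + 2) y hy)
    exact h1.comp (f := fun y => ((S j y, S (j + 1) y), S (j + 2) y))
      (((hS j).prod (hS (j + 1))).prod (hS (j + 2)))
  have hε := E.ε_pos
  have hεh := E.ε_le
  obtain ⟨y₀, hy₀⟩ : ∃ y₀ : ℂ, y₀ = l - ((ε / 2 : ℝ) : ℂ) * I := ⟨_, rfl⟩
  have hy₀b : y₀ ∈ ball l ε := by
    rw [mem_ball, dist_eq_norm, hy₀, sub_sub_cancel_left, norm_neg, norm_mul, Complex.norm_I,
      Complex.norm_real, Real.norm_of_nonneg (by positivity)]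
    linarith
  have hy₀s : y₀ ∈ Sl.strip := by
    show |y₀.im| < Sl.h
    have : y₀.im = Sl.h - ε / 2 := by rw [hy₀, ← hl]; simp
    rw [this, abs_lt]
    constructor <;> linarith
  have hzero : (fun y => Sl.Sh.rel3 (S j y) (S (j + 1) y) (S (j + 2) y)) =ᶠ[𝓝 y₀] 0 := by
    filter_upwards [(isOpen_ball.inter (s4c_isOpen_hstrip Sl.h)).mem_nhds ⟨hy₀b, hy₀s⟩] with y hy
    obtain ⟨hy1, hy2⟩ := hy
    have hy2' : y ∈ Sl.strip := hy2
    have e1 : y + ((j + 1 : ℤ) : ℂ) * (Sl.t₀ : ℂ) - (Sl.t₀ : ℂ) = y + (j : ℂ) * (Sl.t₀ : ℂ) := by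
      push_cast; ring
    have e3 : y + ((j + 1 : ℤ) : ℂ) * (Sl.t₀ : ℂ) + (Sl.t₀ : ℂ) =
        y + ((j + 2 : ℤ) : ℂ) * (Sl.t₀ : ℂ) := by
      push_cast; ring
    have q : ∀ k : ℤ, S k y = Sl.Sh.lift (y + (k : ℂ) * (Sl.t₀ : ℂ), (Sl.t₀ : ℂ)) := fun k =>
      E.eq k y hy1 hy2'
    have fq : ∀ k : ℤ, Sl.Sh.f (Sl.Sh.lift (y + (k : ℂ) * (Sl.t₀ : ℂ), (Sl.t₀ : ℂ))) ≠ 0 := fun k => by
      rw [← q k]; exact E.f_ne k y hy1
    have ht : |((Sl.t₀ : ℝ) : ℂ).im| < Sl.Sh.G.s / 8 := by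
      have := Sl.Sh.G.s4c_s_pos
      rw [Complex.ofReal_im, abs_zero]
      linarith
    have := Sl.s10j_rel3 (t := (Sl.t₀ : ℂ)) (y := y + ((j + 1 : ℤ) : ℂ) * (Sl.t₀ : ℂ)) ht
      (by rw [e1]; exact Sl.s10b_strip_T j hy2') (Sl.s10b_strip_T (j + 1) hy2')
      (by rw [e3]; exact Sl.s10b_strip_T (j + 2) hy2') (by rw [e1]; exact fq j) (fq (j + 1))
      (by rw [e3]; exact fq (j + 2))
    rw [e1, e3] at this
    show Sl.Sh.rel3 (S j y) (S (j + 1) y) (S (j + 2) y) = 0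
    rw [q j, q (j + 1), q (j + 2)]
    exact this
  intro y hy
  exact han.eqOn_zero_of_preconnected_of_eventuallyEq_zero (convex_ball l ε).isPreconnected hy₀b
    hzero hy

/-! ## LEAF LF-S10b-conj -/

theorem s10bExt.conj (E : Sl.s10bExt l ε S) :
    Sl.s10bExt (conj l) ε (fun j y => conj (S j (conj y))) := by
  have hb : ∀ y ∈ ball (conj l) ε, conj y ∈ ball l ε := by
    intro y hy
    rw [mem_ball] at hy ⊢
    rwa [← Complex.dist_conj_conj, Complex.conj_conj]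
  have hD : ∀ s ∈ Sl.Sh.D, conj s ∈ Sl.Sh.D := by
    intro s hs
    show ENNReal.ofReal |(conj s).im| < Sl.Sh.G.Hs
    rw [Complex.conj_im, abs_neg]
    exact hs
  have hst : ∀ y ∈ Sl.strip, conj y ∈ Sl.strip := by
    intro y hy
    show |(conj y).im| < Sl.h
    rw [Complex.conj_im, abs_neg]
    exact hy
  refine ⟨E.ε_pos, E.ε_le, ?_, ?_, ?_, ?_, ?_, ?_, ?_⟩
  · intro j y hy
    have h1 : DifferentiableAt ℂ (S j) (conj y) :=
      (E.diff j).differentiableAt (isOpen_ball.mem_nhds (hb y hy))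
    have h2 := h1.conj_conj
    rw [Complex.conj_conj] at h2
    exact h2.differentiableWithinAt
  · intro j y hy hys
    show conj (S j (conj y)) = Sl.s j y
    rw [E.eq j _ (hb y hy) (hst y hys), Sl.s10g_s_eq, Sl.s10g_s_eq]
    have h1 : conj y + (j : ℂ) * (Sl.t₀ : ℂ) = conj (y + (j : ℂ) * (Sl.t₀ : ℂ)) := by simp
    rw [h1, Sl.s10g_L_conj (Sl.s10g_shift_mem j hys), Complex.conj_conj]
  · intro j y hy
    exact hD _ (E.mem j _ (hb y hy))
  · intro j y hy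
    show Sl.Sh.f (conj (S j (conj y))) ≠ 0
    rw [Sl.s10j_f_conj (E.mem j _ (hb y hy))]
    exact (map_ne_zero _).2 (E.f_ne j _ (hb y hy))
  · intro j y hy
    show conj (S (j + Sl.N) (conj y)) = conj (S j (conj y)) + 2 * π
    rw [E.per j _ (hb y hy), map_add, map_mul, Complex.conj_ofReal]
    congr 2
    exact Complex.conj_ofReal 2
  · intro j y hy
    show crossC (evecC (Sl.Sh.φ (conj (S (j + 2) (conj y)))))
      (reflC (Sl.Sh.φ (conj (S (j + 1) (conj y))))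
        (Sl.Sh.Γ (conj (S (j + 1) (conj y))) - Sl.Sh.Γ (conj (S j (conj y))))) ≠ 0
    rw [Sl.s10j_tr_conj (E.mem j _ (hb y hy)) (E.mem (j + 1) _ (hb y hy)) (E.mem (j + 2) _ (hb y hy))
      (E.f_ne j _ (hb y hy)) (E.f_ne (j + 1) _ (hb y hy))]
    exact (map_ne_zero _).2 (E.tr_ne j _ (hb y hy))
  · intro y hy
    have h1 : (fun y => conj (S 0 (conj y))) = conj ∘ S 0 ∘ conj := rfl
    rw [h1, deriv_conj_conj]
    exact (map_ne_zero _).2 (E.d_ne _ (hb y hy))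

/-! ## glue -/

/-- (B3) the data of the climbing theorem. -/
theorem s10bExt.climb (E : Sl.s10bExt l ε S) (hl : l.im = Sl.h) :
    ∃ (ε' : ℝ) (R : ℂ × ℂ → ℂ × ℂ) (O : Set (ℂ × ℂ)), O ⊆ Sl.Sh.T ∧
      HdClimb l (Sl.t₀ : ℂ) (Sl.N : ℝ) ε' (S 0) (S 1) R O Sl.Sh.s10bZ := by
  have hl0 : l ∈ ball l ε := mem_ball_self E.ε_pos
  set a : ℕ → ℂ := fun j => S (j : ℤ) l with ha
  have hc : (Sl.Sh.G.c : ℂ) ≠ 0 := by exact_mod_cast Sl.Sh.G.c_pos.ne'
  obtain ⟨Rn, δ, hδ, hRan, hRn⟩ := hd_chain Sl.Sh.rel3 Sl.N a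
    (fun j _ => by
      have := Sl.s10j_rel3_an (E.mem j l hl0) (E.mem (j + 1) l hl0) (E.mem (j + 2) l hl0)
        (E.f_ne j l hl0) (E.f_ne (j + 1) l hl0) (E.f_ne (j + 2) l hl0)
      simpa [ha] using this)
    (fun j _ => by
      have := E.rel_zero hl j l hl0
      simpa [ha] using this)
    (fun j _ => by
      have h1 := Sl.s10j_rel3_deriv (a := S j l) (b := S (j + 1) l) (E.mem (j + 2) l hl0)
        (E.f_ne (j + 2) l hl0)
      have h2 := E.tr_ne j l hl0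
      have h3 : deriv (fun c => Sl.Sh.rel3 (S j l) (S (j + 1) l) c) (S (j + 2) l) ≠ 0 := by
        rw [h1]
        exact mul_ne_zero (div_ne_zero hc (pow_ne_zero _ (E.f_ne (j + 2) l hl0))) h2
      simpa [ha] using h3)
  -- the radius
  have hcont : ∀ j : ℕ, ∀ᶠ y in 𝓝 l, S (j : ℤ) y ∈ ball (a j) δ := by
    intro j
    have h1 : ContinuousAt (S (j : ℤ)) l :=
      ((E.diff j).differentiableAt (isOpen_ball.mem_nhds hl0)).continuousAt
    exact h1 (ball_mem_nhds _ hδ)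
  have hall : ∀ᶠ y in 𝓝 l, ∀ j ∈ Finset.range (Sl.N + 2), S (j : ℤ) y ∈ ball (a j) δ :=
    (Finset.eventually_all _).2 fun j _ => hcont j
  obtain ⟨ε₁, hε₁, hε₁b⟩ := Metric.eventually_nhds_iff_ball.1 hall
  set ε' : ℝ := min ε ε₁ with hε'
  have hε'0 : 0 < ε' := lt_min E.ε_pos hε₁
  have hsub : ball l ε' ⊆ ball l ε := ball_subset_ball (min_le_left _ _)
  have hclose : ∀ y ∈ ball l ε', ∀ j : ℕ, j ≤ Sl.N + 1 → S (j : ℤ) y ∈ ball (a j) δ := by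
    intro y hy j hj
    exact hε₁b y (ball_subset_ball (min_le_right _ _) hy) j (Finset.mem_range.2 (by omega))
  refine ⟨ε', fun z => Rn z - ((2 * π : ℂ), (2 * π : ℂ)), Sl.s10bO a δ, Sl.s10b_O_sub a δ, ?_⟩
  have hN : ((Sl.N : ℝ) : ℂ) = (Sl.N : ℂ) := by push_cast; rfl
  refine ⟨Sl.s10g_N_pos, hε'0, (E.diff 0).mono hsub, (E.diff 1).mono hsub, E.d_ne l hl0, ?_, ?_,
    Sl.s10b_isOpen_O a δ, Sl.s10b_Z_diff a δ, ?_, ?_⟩
  · have : AnalyticAt ℂ Rn (S 0 l, S 1 l) := by simpa [ha] using hRan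
    exact this.sub analyticAt_const
  · intro y hy
    have h1 := hRn (fun j => S (j : ℤ) y) (fun j hj => hclose y hy j hj)
      (fun j _ => by
        have := E.rel_zero hl j y (hsub hy)
        simpa using this)
    have h2 : Rn (S 0 y, S 1 y) = (S (Sl.N : ℤ) y, S ((Sl.N : ℤ) + 1) y) := by simpa using h1
    have h3 := E.per 0 y (hsub hy)
    have h4 := E.per 1 y (hsub hy)
    rw [zero_add] at h3
    rw [add_comm] at h4
    show Rn (S 0 y, S 1 y) - ((2 * π : ℂ), (2 * π : ℂ)) = (S 0 y, S 1 y)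
    rw [h2, h3, h4]
    simp
  · intro y hy hyl
    have hys : y ∈ Sl.strip := by
      have h1 : |(y - l).im| ≤ ‖y - l‖ := Complex.abs_im_le_norm _
      have h2 : ‖y - l‖ < ε := by rw [← dist_eq_norm]; exact hsub hy
      have h3 := E.ε_le
      rw [Complex.sub_im] at h1
      have h4 := (abs_le.1 h1).1
      show |y.im| < Sl.h
      rw [abs_lt]
      constructor <;> linarith
    have hs : ∀ j : ℕ, Sl.Sh.lift (y + (j : ℂ) * (Sl.t₀ : ℂ), (Sl.t₀ : ℂ)) = S (j : ℤ) y := by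
      intro j
      rw [E.eq j y (hsub hy) hys]
      show _ = Sl.Sh.lift (y + ((j : ℤ) : ℂ) * (Sl.t₀ : ℂ), (Sl.t₀ : ℂ))
      push_cast
      rfl
    refine ⟨⟨?_, fun j hj => ⟨?_, ?_, ?_⟩⟩, ?_⟩
    · have := Sl.Sh.G.s4c_s_pos
      simp only [Complex.ofReal_im, abs_zero]
      linarith
    · have := Sl.s10b_strip_T (j : ℤ) hys
      simpa using this
    · show Sl.Sh.lift (y + (j : ℂ) * (Sl.t₀ : ℂ), (Sl.t₀ : ℂ)) ∈ ball (a j) δ
      rw [hs j]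
      exact hclose y hy j hj
    · show Sl.Sh.f (Sl.Sh.lift (y + (j : ℂ) * (Sl.t₀ : ℂ), (Sl.t₀ : ℂ))) ≠ 0
      rw [hs j]
      exact E.f_ne j y (hsub hy)
    · have h0 := hs 0
      have h1 := hs 1
      simp only [Nat.cast_zero, zero_mul, add_zero, Nat.cast_one, one_mul] at h0 h1
      show (Sl.Sh.lift (y, (Sl.t₀ : ℂ)), Sl.Sh.lift (y + (Sl.t₀ : ℂ), (Sl.t₀ : ℂ))) = (S 0 y, S 1 y)
      rw [h0, h1]
  · intro z hz hz'
    rw [hN] at hz' ⊢
    have h1 := hRn (fun j => Sl.Sh.lift (z.1 + (j : ℂ) * z.2, z.2)) (fun j hj => (hz.2 j hj).2.1)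
      (fun j hj => Sl.s10b_O_rel hz j hj)
    have h2 := Sl.s10b_O_per hz'
    have h3 : Sl.Sh.s10bZ z = (Sl.Sh.lift (z.1 + ((0 : ℕ) : ℂ) * z.2, z.2),
        Sl.Sh.lift (z.1 + ((1 : ℕ) : ℂ) * z.2, z.2)) := by
      simp [Shape.s10bZ]
    show Rn (Sl.Sh.s10bZ z) - ((2 * π : ℂ), (2 * π : ℂ)) = _
    rw [h3, h1, h2]
    simp

/-- the upper wall. -/
theorem s10bExt.upper (E : Sl.s10bExt l ε S) (hl : l.im = Sl.h) : False := by
  obtain ⟨ε', R, O, hOT, hC⟩ := E.climb hl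
  have hD : Sl.Sh.D ∈ 𝓝 (S 0 l) := Sl.s10g_isOpen_D.mem_nhds (E.mem 0 l (mem_ball_self E.ε_pos))
  obtain ⟨ε₂, hε₂, hball⟩ := Metric.mem_nhds_iff.1 hD
  obtain ⟨y₂, hy₂im, -, η₀, hη₀, hclimb⟩ := hd_climb hC ε₂ hε₂
  have hh := Sl.s10g_h_pos
  set η : ℝ := min (η₀ / 2) (Sl.h / 8) with hη
  have hη0 : 0 < η := lt_min (by positivity) (by positivity)
  have hη1 : η < η₀ := lt_of_le_of_lt (min_le_left _ _) (by linarith)
  have hη2 : η ≤ Sl.h / 8 := min_le_right _ _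
  obtain ⟨r, hr, Zt, hZd, hZn, hZl⟩ := hclimb η hη0 hη1
  have ht₀ : Sl.t₀ < Sl.Sh.ρ := Sl.t₀_lt
  have ht₀p := Sl.s10g_t₀_pos
  set r' : ℝ := min r (Sl.Sh.ρ - Sl.t₀) with hr'
  have hr'0 : 0 < r' := lt_min hr (by linarith)
  have hsub : hdW y₂ (Sl.t₀ : ℂ) η r' ⊆ hdW y₂ (Sl.t₀ : ℂ) η r := by
    intro z hz
    exact ⟨hz.1, lt_of_lt_of_le hz.2.1 (min_le_left _ _), hz.2.2⟩
  have hρ : ball (Sl.t₀ : ℂ) r' ⊆ ball (0 : ℂ) Sl.Sh.ρ := by
    apply ball_subset_ball'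
    have h1 : dist (Sl.t₀ : ℂ) 0 = Sl.t₀ := by
      rw [dist_zero_right, Complex.norm_real, Real.norm_eq_abs, abs_of_pos ht₀p]
    have h2 : r' ≤ Sl.Sh.ρ - Sl.t₀ := min_le_right _ _
    linarith
  have hP := Sl.Sh.s10b_passage hη0 hρ (hZd.mono hsub)
    (fun z hz => hball (by
      rw [mem_ball, dist_eq_norm]
      exact lt_of_le_of_lt (norm_fst_le (Zt z - (S 0 l, S 1 l))) (hZn z (hsub hz))))
    (fun z hz hlow => by
      obtain ⟨h1, h2⟩ := hZl z (hsub hz) hlow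
      exact ⟨hOT h1, by rw [h2]; rfl⟩)
  refine Sl.Sh.s10b_fill Sl.H_fin Sl.t₀ (by rw [abs_of_pos ht₀p]; exact ht₀) y₂ ?_ η r' hη0 ?_ hr'0
    (Sl.Sh.s9k_max_spec hP).1
  · rw [hy₂im, hl]; exact Sl.s10g_ofReal_h
  · rw [hy₂im, hl]; linarith

variable (Sl)

/-- **Boundary contact (P1 Theorem 10.3), sequence form** = `Slice.boundary_contact` of S10/Facts.lean. -/
theorem s10b_boundary_contact (hS : Sl.Hyp) (B : ℝ) (y : ℕ → ℂ) (l : ℂ) (hl : |l.im| = Sl.h)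
    (hy : ∀ n, y n ∈ Sl.reg) (ht : Tendsto y atTop (𝓝 l)) (hB : ∀ n, Sl.Bdd B (y n)) : False := by
  obtain ⟨ε, S, E⟩ := Sl.s10b_extend hS B y l hy ht hB
  rcases abs_eq Sl.s10g_h_pos.le |>.1 hl with h | h
  · exact E.upper h
  · exact E.conj.upper (by rw [Complex.conj_im, h, neg_neg])

end Slice

end Claimed.Agent.R269
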