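/-
Row 269, P1 Section 10.1, package BP-S10a (architect: helper230).  LEAF LF-S10g-dens (~150 lines, no paper).
PROVED (helper230); auxiliary lemmas prefix `s10gd_`.

CLAIM.  The initial law of a site has bounded density: `x ↦ s_i(x)` is an increasing analytic circle diffeomorphism.

PROOF.  Fix `i`.  `g x = (Sl.s ⟪i⟫ x).re`, `g' x = (Sl.s' ⟪i⟫ x).re`.
 * `HasDerivAt g (g' x) x`: `s10g_hasDerivAt_re` (GeoTool) with `Sl.s10g_s_diffAt` (GeoBasic); `Sl.s' j y = deriv (Sl.s j) y` by definition.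
 * `g'` is continuous: `Sl.s' ⟪i⟫ = deriv (Sl.s ⟪i⟫)` is holomorphic on the open strip (`(Sl.s10g_s_diff _).deriv Sl.s10g_isOpen_strip`), compose with `x ↦ (x : ℂ)`
   (`Sl.s10g_real_mem_strip`).
 * `g' > 0` (`(hN.real x _).2.1`), so `m_i = min_{[0,2π]} g' > 0` (`isCompact_Icc.exists_isMinOn`).
 * `g (2π) = g 0 + 2π`: `Sl.s10g_s_eq`, `Sl.s10g_L_per` (`s_i(y + 2π) = s_i(y) + 2π` on the strip), real parts.
 * `Sl.s ⟪i⟫ x = ((g x : ℝ) : ℂ)` since the imaginary part vanishes (`(hN.real x _).1`, `s10g_eq_ofReal_re'`).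
 * apply `s10g_density` (GeoTool) to the function `fun u : ℝ => V (u : ℂ)`; `C = ∑ i, (m_i)⁻¹` (each term is `≥ 0`, and `∫ V ≥ 0`), or `C = (min_i m_i)⁻¹`.
-/
import Claimed.Agent.R269.S10.GeoReal

set_option autoImplicit false

namespace Claimed.Agent.R269

open Complex ComplexConjugate Metric Set Filter Topology MeasureTheory
open scoped Real ENNReal

local notation "⟪" i "⟫" => ((Fin.val i : ℕ) : ℤ)

namespace Slice

variable {Sl : Slice}

theorem Nice.s10gd_one (hN : Sl.Nice) (j : ℤ) : ∃ m : ℝ, 0 < m ∧ ∀ V : ℂ → ℝ, Continuous V → (∀ x : ℝ, 0 ≤ V x) →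
    (∀ x : ℝ, V ((x : ℂ) + 2 * π) = V x) →
    ∫ x in (0 : ℝ)..(2 * π), V (Sl.s j x) ≤ m⁻¹ * ∫ x in (0 : ℝ)..(2 * π), V (x : ℂ) := by
  have hcont : Continuous (fun x : ℝ => (Sl.s' j x).re) := by
    have h1 : ContinuousOn (Sl.s' j) Sl.strip := ((Sl.s10g_s_diff j).deriv Sl.s10g_isOpen_strip).continuousOn
    have h2 : Continuous (fun x : ℝ => Sl.s' j (x : ℂ)) :=
      h1.comp_continuous Complex.continuous_ofReal fun x => Sl.s10g_real_mem_strip x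
    exact Complex.continuous_re.comp h2
  obtain ⟨x₀, -, hmin⟩ := isCompact_Icc.exists_isMinOn (nonempty_Icc.2 (by positivity : (0 : ℝ) ≤ 2 * π))
    hcont.continuousOn
  refine ⟨(Sl.s' j x₀).re, (hN.real x₀ j).2.1, fun V hV h0 hper => ?_⟩
  have h := s10g_density (g := fun x : ℝ => (Sl.s j x).re) (g' := fun x : ℝ => (Sl.s' j x).re) (hN.real x₀ j).2.1
    (fun x => s10g_hasDerivAt_re (Sl.s10g_s_diffAt j (Sl.s10g_real_mem_strip x))) hcont (fun x hx => hmin hx) ?_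
    (V := fun u : ℝ => V (u : ℂ)) (hV.comp Complex.continuous_ofReal) h0 (fun x => by push_cast; exact hper x)
  · have e : ∀ x : ℝ, V (((Sl.s j x).re : ℝ) : ℂ) = V (Sl.s j x) := fun x => by
      rw [← s10g_eq_ofReal_re' (hN.real x j).1]
    simp only [e] at h
    exact h
  · have h1 := Sl.s10g_L_per (Sl.s10g_shift_mem j (Sl.s10g_real_mem_strip 0))
    have e : (((2 * π : ℝ) : ℂ)) + j * (Sl.t₀ : ℂ) = ((0 : ℝ) : ℂ) + j * (Sl.t₀ : ℂ) + 2 * π := by push_cast; ring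
    show (Sl.s j ((2 * π : ℝ) : ℂ)).re = (Sl.s j ((0 : ℝ) : ℂ)).re + 2 * π
    rw [Sl.s10g_s_eq, Sl.s10g_s_eq, e, h1]
    simp

/-- **LF-S10g-dens.** -/
theorem Nice.s10g_start_density (hN : Sl.Nice) : ∃ C : ℝ, 0 < C ∧ ∀ (i : Fin Sl.N) (V : ℂ → ℝ), Continuous V →
    (∀ x : ℝ, 0 ≤ V x) → (∀ x : ℝ, V ((x : ℂ) + 2 * π) = V x) →
    ∫ x in (0 : ℝ)..(2 * π), V (Sl.s ⟪i⟫ x) ≤ C * ∫ x in (0 : ℝ)..(2 * π), V (x : ℂ) := by
  choose m hm hV using fun i : Fin Sl.N => hN.s10gd_one ⟪i⟫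
  have hpos : ∀ i : Fin Sl.N, 0 < (m i)⁻¹ := fun i => inv_pos.2 (hm i)
  refine ⟨∑ i, (m i)⁻¹, Finset.sum_pos (fun i _ => hpos i) ⟨0, Finset.mem_univ _⟩, fun i V h1 h2 h3 => ?_⟩
  refine (hV i V h1 h2 h3).trans (mul_le_mul_of_nonneg_right ?_ ?_)
  · exact Finset.single_le_sum (f := fun i => (m i)⁻¹) (fun k _ => (hpos k).le) (Finset.mem_univ i)
  · exact intervalIntegral.integral_nonneg (by positivity) fun x _ => h2 x

end Slice

end Claimed.Agent.R269
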