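/-
Row 269, P1 Section 10.1, package BP-S10a (architect: helper230).  LEAF LF-S10g-angle (~250 lines, real analysis on `Glance`, no paper).
PROVED (helper230); auxiliary lemmas prefix `s10ga_`.

CLAIM.  For small real `t > 0` the line angle increases by less than `π/2` and by more than `0` in one step `x ↦ x + t`, uniformly in `x ∈ ℝ`.

PROOF.  Put `g(y,t) = deriv (fun y' => G.Θ y' t) y`.
 1. `(y,t) ↦ G.Θ y t` is analytic on the open set `W = hstrip (2 s) ×ˢ ball 0 r₁` (`Glance.s4c_Θ_analytic`, S4/WidthBase.lean); so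
    `(y,t) ↦ g(y,t)` is continuous on `W`: `g(y,t) = fderiv ℂ (fun z => G.Θ z.1 z.2) (y,t) (1,0)` (chain rule with `y' ↦ (y',t)`), and the
    `fderiv` of an analytic function is analytic (`AnalyticOnNhd.fderiv`), or use `SCV.continuousOn_fderiv_apply` (Lib/SCV0.lean).
 2. `0 < (g(x,0)).re` for real `x` (`G.φ'_pos`).  `K = [0,2π]` is compact: with `m = min_K Re g(·,0) > 0` and `M = max_K ‖g(·,0)‖`,
    `IsCompact.eventually_forall_of_forall_eventually` gives `τ₁ > 0` such that `m/2 < Re g(x,t) < M + 1` for `x ∈ K`, real `|t| < τ₁`.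
 3. `g(x + 2π, t) = g(x,t)` (differentiate `G.Θ_per`), so the bounds hold for all real `x` (reduce `x` mod `2π`: `x - 2π ⌊x/(2π)⌋ ∈ [0,2π)`,
    induction over integer multiples of the period, or `Function.Periodic` API: `Function.Periodic.exists_mem_Ico₀`).
 4. For fixed real `t`, `u ↦ (G.Θ (u : ℂ) t).re` has the derivative `(g(u,t)).re` (`s10g_hasDerivAt_re`, S10/GeoTool.lean).  Mean value
    inequalities (`Convex.mul_sub_lt_image_sub_of_lt_deriv`, `Convex.image_sub_lt_mul_sub_of_deriv_lt` on `Set.univ` or `Icc x (x+t)`):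
    `(m/2) t < Re Θ(x+t,t) - Re Θ(x,t) < (M+1) t`.   Take `τ = min (min τ₁ r₁) (π / (2 (M+1)))`.
-/
import Claimed.Agent.R269.S10.GeoBasic

set_option autoImplicit false

namespace Claimed.Agent.R269

open Complex ComplexConjugate Metric Set Filter Topology
open scoped Real ENNReal

namespace Glance

variable (G : Glance)

theorem s10ga_isOpen : IsOpen (hstrip (2 * G.s) ×ˢ ball (0 : ℂ) G.r₁) := (s4c_isOpen_hstrip _).prod isOpen_ball

theorem s10ga_mem (x : ℝ) {t : ℝ} (ht : |t| < G.r₁) : ((x : ℂ), (t : ℂ)) ∈ hstrip (2 * G.s) ×ˢ ball (0 : ℂ) G.r₁ :=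
  ⟨s10g_real_mem_hstrip (by have := G.s4c_s_pos; linarith) x, by
    rw [mem_ball_zero_iff, Complex.norm_real]; exact ht⟩

/-- the partial derivative in `y` is a directional derivative. -/
theorem s10ga_hasDerivAt {z : ℂ × ℂ} (hz : z ∈ hstrip (2 * G.s) ×ˢ ball (0 : ℂ) G.r₁) :
    HasDerivAt (fun y' => G.Θ y' z.2) (fderiv ℂ (fun z : ℂ × ℂ => G.Θ z.1 z.2) z (1, 0)) z.1 := by
  have hF := (G.Θ_diff.differentiableAt (G.s10ga_isOpen.mem_nhds hz)).hasFDerivAt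
  exact hF.comp_hasDerivAt z.1 ((hasDerivAt_id z.1).prodMk (hasDerivAt_const z.1 z.2))

/-- the real `y`-derivative of the line angle. -/
noncomputable def s10gaD (t x : ℝ) : ℝ := (deriv (fun y' => G.Θ y' (t : ℂ)) (x : ℂ)).re

theorem s10ga_continuousOn : ContinuousOn (fun q : ℝ × ℝ => G.s10gaD q.1 q.2) (Ioo (-G.r₁) G.r₁ ×ˢ univ) := by
  have h1 := SCV.continuousOn_fderiv_apply G.s10ga_isOpen G.Θ_diff ((1, 0) : ℂ × ℂ)
  have h2 : Continuous (fun q : ℝ × ℝ => (((q.2 : ℝ) : ℂ), ((q.1 : ℝ) : ℂ))) := by fun_prop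
  have h3 : MapsTo (fun q : ℝ × ℝ => (((q.2 : ℝ) : ℂ), ((q.1 : ℝ) : ℂ))) (Ioo (-G.r₁) G.r₁ ×ˢ univ)
      (hstrip (2 * G.s) ×ˢ ball (0 : ℂ) G.r₁) := fun q hq => G.s10ga_mem q.2 (abs_lt.2 hq.1)
  refine (Complex.continuous_re.comp_continuousOn (h1.comp h2.continuousOn h3)).congr fun q hq => ?_
  show (deriv (fun y' => G.Θ y' (q.1 : ℂ)) (q.2 : ℂ)).re = _
  rw [(G.s10ga_hasDerivAt (h3 hq)).deriv]
  rfl

theorem s10ga_periodic {t : ℝ} (ht : |t| < G.r₁) : Function.Periodic (G.s10gaD t) (2 * π) := by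
  intro x
  unfold s10gaD
  have h1 : (fun y' => G.Θ (y' + 2 * π) (t : ℂ)) =ᶠ[𝓝 (x : ℂ)] fun y' => G.Θ y' (t : ℂ) + 2 * π := by
    filter_upwards [(s4c_isOpen_hstrip _).mem_nhds (G.s10ga_mem x ht).1] with y hy
    exact G.Θ_per y hy _ (G.s10ga_mem x ht).2
  have h2 := deriv_comp_add_const (fun y' => G.Θ y' (t : ℂ)) (2 * π) (x : ℂ)
  rw [h1.deriv_eq, deriv_add_const] at h2
  push_cast
  rw [← h2]

theorem s10ga_hasDerivAt_re {t : ℝ} (ht : |t| < G.r₁) (x : ℝ) :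
    HasDerivAt (fun u : ℝ => (G.Θ (u : ℂ) (t : ℂ)).re) (G.s10gaD t x) x :=
  s10g_hasDerivAt_re (G.s10ga_hasDerivAt (G.s10ga_mem x ht)).differentiableAt

/-- **LF-S10g-angle.** -/
theorem s10g_small_angle : ∃ τ : ℝ, 0 < τ ∧ τ ≤ G.r₁ ∧ ∀ t : ℝ, 0 < t → t < τ → ∀ x : ℝ,
    0 < (G.Θ ((x : ℂ) + t) t).re - (G.Θ x t).re ∧ (G.Θ ((x : ℂ) + t) t).re - (G.Θ x t).re < π / 2 := by
  have hr := G.r₁_pos
  have hopen : IsOpen (Ioo (-G.r₁) G.r₁ ×ˢ (univ : Set ℝ)) := isOpen_Ioo.prod isOpen_univ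
  -- positivity near `t = 0`
  have hpos : ∀ᶠ t in 𝓝 (0 : ℝ), ∀ x ∈ Icc (0 : ℝ) (2 * π), 0 < G.s10gaD t x := by
    refine isCompact_Icc.eventually_forall_of_forall_eventually fun x _ => ?_
    have hmem : ((0 : ℝ), x) ∈ Ioo (-G.r₁) G.r₁ ×ˢ (univ : Set ℝ) := ⟨⟨by linarith, hr⟩, mem_univ _⟩
    have hc : ContinuousAt (fun q : ℝ × ℝ => G.s10gaD q.1 q.2) (0, x) :=
      G.s10ga_continuousOn.continuousAt (hopen.mem_nhds hmem)
    have h0 : 0 < G.s10gaD 0 x := by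
      have := G.φ'_pos x
      unfold s10gaD
      simpa using this
    exact hc.eventually (lt_mem_nhds h0)
  -- an upper bound
  obtain ⟨C, hC⟩ := ((isCompact_Icc (a := -(G.r₁ / 2)) (b := G.r₁ / 2)).prod
    (isCompact_Icc (a := (0 : ℝ)) (b := 2 * π))).exists_bound_of_continuousOn
    (G.s10ga_continuousOn.mono fun q hq => ⟨⟨by linarith [hq.1.1], by linarith [hq.1.2]⟩, mem_univ _⟩)
  obtain ⟨ε, hε, hball⟩ := Metric.eventually_nhds_iff.1 hpos
  have hC0 : 0 ≤ C := (norm_nonneg _).trans (hC ((0 : ℝ), (0 : ℝ)) ⟨⟨by linarith, by linarith⟩, ⟨le_rfl, by positivity⟩⟩)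
  refine ⟨min (min ε (G.r₁ / 2)) (π / (2 * (C + 1))), by positivity, ?_, fun t ht0 ht x => ?_⟩
  · exact (min_le_left _ _).trans ((min_le_right _ _).trans (by linarith))
  have ht1 : t < ε := lt_of_lt_of_le ht ((min_le_left _ _).trans (min_le_left _ _))
  have ht2 : t < G.r₁ / 2 := lt_of_lt_of_le ht ((min_le_left _ _).trans (min_le_right _ _))
  have ht3 : t < π / (2 * (C + 1)) := lt_of_lt_of_le ht (min_le_right _ _)
  have habs : |t| < G.r₁ := by rw [abs_of_pos ht0]; linarith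
  have hD : ∀ u : ℝ, 0 < G.s10gaD t u ∧ G.s10gaD t u ≤ C := by
    intro u
    obtain ⟨y, hy, hu⟩ := (G.s10ga_periodic habs).exists_mem_Ico₀ (by positivity) u
    rw [hu]
    have hy' : y ∈ Icc (0 : ℝ) (2 * π) := ⟨hy.1, hy.2.le⟩
    refine ⟨hball (by rw [Real.dist_eq, sub_zero, abs_of_pos ht0]; exact ht1) y hy', ?_⟩
    exact (le_abs_self _).trans (hC (t, y) ⟨⟨by linarith, ht2.le⟩, hy'⟩)
  have hder : ∀ u : ℝ, deriv (fun u : ℝ => (G.Θ (u : ℂ) (t : ℂ)).re) u = G.s10gaD t u := fun u =>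
    (G.s10ga_hasDerivAt_re habs u).deriv
  have e : (x : ℂ) + t = ((x + t : ℝ) : ℂ) := by push_cast; ring
  rw [e]
  constructor
  · have hm : StrictMono (fun u : ℝ => (G.Θ (u : ℂ) (t : ℂ)).re) :=
      strictMono_of_deriv_pos fun u => by rw [hder]; exact (hD u).1
    exact sub_pos.2 (hm (by linarith))
  · have h1 := image_sub_le_mul_sub_of_deriv_le (f := fun u : ℝ => (G.Θ (u : ℂ) (t : ℂ)).re)
      (fun u => (G.s10ga_hasDerivAt_re habs u).differentiableAt) (C := C) (fun u => by rw [hder]; exact (hD u).2)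
      (show x ≤ x + t by linarith)
    have h2 : C * (x + t - x) < π / 2 := by
      have h3 : t * (2 * (C + 1)) < π := (lt_div_iff₀ (by positivity)).1 ht3
      nlinarith
    exact lt_of_le_of_lt h1 h2

end Glance

end Claimed.Agent.R269
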