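/-
Row 269, P1 Section 10.1, package BP-S10a (architect: helper230).  LEAF LF-S10g-chordpos (~200 lines, real analysis on `Glance`, no paper).
PROVED (helper230); auxiliary lemmas prefix `s10gc_`.

CLAIM.  The directed length of a short chord of the (strictly convex) table is real and positive.

PROOF.  `k(ψ) = dotC (suppPt G.hc ψ) (evecC θ) = hc ψ * sin (ψ - θ) + deriv hc ψ * cos (ψ - θ)`  (`s10g_suppPt_dot_e`, S10/GeoCollar.lean; copy the
one-line proof if you do not want the import) is holomorphic on `hstrip σ` with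
   `k'(ψ) = (hc ψ + deriv (deriv hc) ψ) * cos (ψ - θ)`     (the terms `± deriv hc ψ * sin (ψ - θ)` cancel).
 1. `hc` is real on the real axis (`G.hc_conj` at `z = x`, `Complex.conj_eq_iff_im`); so are `deriv hc` and `deriv (deriv hc)`
    (`s10g_deriv_im_eq_zero`, S10/GeoTool.lean; `hc`, `deriv hc` are differentiable on the open strip `hstrip σ`); `sin`, `cos` of real numbers are
    real (`Complex.ofReal_sin`, `Complex.ofReal_cos`).  Hence `k` is real on the real axis: this is the statement on the imaginary part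
    (`dotC (a - b) e = dotC a e - dotC b e`: `s10g_dot_sub`, S10/GeoCurve.lean).
 2. `u ↦ (k u).re` has the derivative `(k' u).re = (hc u + hc'' u).re * Real.cos (u - θ)` (`s10g_hasDerivAt_re`), which is `> 0` for
    `u ∈ [ψ₁,ψ₂] ⊆ (θ - π/2, θ + π/2)`  (`G.rad_pos`, `Real.cos_pos_of_mem_Ioo`).  So it is strictly increasing on `[ψ₁,ψ₂]`
    (`strictMonoOn_of_deriv_pos` on `Icc ψ₁ ψ₂`).
-/
import Claimed.Agent.R269.S10.GeoCollar

set_option autoImplicit false

namespace Claimed.Agent.R269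

open Complex ComplexConjugate Metric Set Filter Topology
open scoped Real ENNReal

namespace Glance

variable (G : Glance)

theorem s10gc_mem_nhds (x : ℝ) : hstrip G.σ ∈ 𝓝 (x : ℂ) :=
  (s4c_isOpen_hstrip _).mem_nhds (s10g_real_mem_hstrip G.σ_pos x)

theorem s10gc_hc_real (x : ℝ) : (G.hc x).im = 0 := by
  have h := G.hc_conj x (s10g_real_mem_hstrip G.σ_pos x)
  rw [Complex.conj_ofReal] at h
  exact Complex.conj_eq_iff_im.1 h.symm

theorem s10gc_hc_diffAt (x : ℝ) : DifferentiableAt ℂ G.hc x := G.hc_diff.differentiableAt (G.s10gc_mem_nhds x)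

theorem s10gc_hc'_diffAt (x : ℝ) : DifferentiableAt ℂ (deriv G.hc) x :=
  (G.hc_diff.deriv (s4c_isOpen_hstrip _)).differentiableAt (G.s10gc_mem_nhds x)

theorem s10gc_hc'_real (x : ℝ) : (deriv G.hc x).im = 0 :=
  s10g_deriv_im_eq_zero (G.s10gc_hc_diffAt x) G.s10gc_hc_real

theorem s10gc_hc''_real (x : ℝ) : (deriv (deriv G.hc) x).im = 0 :=
  s10g_deriv_im_eq_zero (G.s10gc_hc'_diffAt x) G.s10gc_hc'_real

/-- derivative of the tangential component of the support point. -/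
theorem s10gc_hasDerivAt (θ u : ℝ) :
    HasDerivAt (fun ψ : ℂ => dotC (suppPt G.hc ψ) (evecC (θ : ℂ)))
      ((G.hc u + deriv (deriv G.hc) u) * Complex.cos ((u : ℂ) - θ)) u := by
  have e : (fun ψ : ℂ => dotC (suppPt G.hc ψ) (evecC (θ : ℂ)))
      = fun ψ => G.hc ψ * Complex.sin (ψ - θ) + deriv G.hc ψ * Complex.cos (ψ - θ) :=
    funext fun ψ => s10g_suppPt_dot_e _ _ _
  rw [e]
  have hsub : HasDerivAt (fun ψ : ℂ => ψ - θ) 1 u := (hasDerivAt_id (u : ℂ)).sub_const _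
  have h1 := ((G.s10gc_hc_diffAt u).hasDerivAt.mul hsub.csin).add ((G.s10gc_hc'_diffAt u).hasDerivAt.mul hsub.ccos)
  refine h1.congr_deriv ?_
  ring

theorem s10gc_im (θ u : ℝ) : (dotC (suppPt G.hc (u : ℂ)) (evecC (θ : ℂ))).im = 0 := by
  rw [s10g_suppPt_dot_e, ← Complex.ofReal_sub, ← Complex.ofReal_sin, ← Complex.ofReal_cos]
  rw [Complex.add_im, Complex.im_mul_ofReal, Complex.im_mul_ofReal, G.s10gc_hc_real u, G.s10gc_hc'_real u]
  ring

theorem s10gc_hasDerivAt_re (θ u : ℝ) :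
    HasDerivAt (fun v : ℝ => (dotC (suppPt G.hc (v : ℂ)) (evecC (θ : ℂ))).re)
      ((G.hc u + deriv (deriv G.hc) u).re * Real.cos (u - θ)) u := by
  have h := G.s10gc_hasDerivAt θ u
  have h1 := s10g_hasDerivAt_re h.differentiableAt
  rw [h.deriv] at h1
  refine h1.congr_deriv ?_
  rw [← Complex.ofReal_sub, ← Complex.ofReal_cos, Complex.re_mul_ofReal]

/-- **LF-S10g-chordpos.** -/
theorem s10g_chord_pos {ψ₁ ψ₂ θ : ℝ} (h12 : ψ₁ < ψ₂) (h1 : θ - π / 2 < ψ₁) (h2 : ψ₂ < θ + π / 2) :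
    0 < (dotC (suppPt G.hc (ψ₂ : ℂ) - suppPt G.hc (ψ₁ : ℂ)) (evecC (θ : ℂ))).re ∧
      (dotC (suppPt G.hc (ψ₂ : ℂ) - suppPt G.hc (ψ₁ : ℂ)) (evecC (θ : ℂ))).im = 0 := by
  rw [s10g_dot_sub, Complex.sub_re, Complex.sub_im, G.s10gc_im, G.s10gc_im]
  refine ⟨?_, sub_zero _⟩
  have hmono : StrictMonoOn (fun v : ℝ => (dotC (suppPt G.hc (v : ℂ)) (evecC (θ : ℂ))).re) (Icc ψ₁ ψ₂) := by
    refine strictMonoOn_of_deriv_pos (convex_Icc _ _)
      (fun u _ => (G.s10gc_hasDerivAt_re θ u).continuousAt.continuousWithinAt) fun u hu => ?_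
    rw [interior_Icc] at hu
    rw [(G.s10gc_hasDerivAt_re θ u).deriv]
    exact mul_pos (G.rad_pos u) (Real.cos_pos_of_mem_Ioo ⟨by linarith [hu.1], by linarith [hu.2]⟩)
  exact sub_pos.2 (hmono (left_mem_Icc.2 h12.le) (right_mem_Icc.2 h12.le) h12)

end Glance

end Claimed.Agent.R269
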