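/-
Row 269, P1 Section 10.1, package BP-S10a (architect: helper230).  GeoNice: a nice slice exists (`N` large).

Two leaves (real analysis on `Glance`, no paper):
* LF-S10g-angle = `Glance.s10g_small_angle` (file S10/GeoAngle.lean);
* LF-S10g-chordpos = `Glance.s10g_chord_pos` (file S10/GeoChordPos.lean).
Everything else (the reality statements, the assembly `s10g_nice_of_small`, the choice of `N`) is proved here.
-/
import Claimed.Agent.R269.S10.GeoChord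
import Claimed.Agent.R269.S10.GeoAngle
import Claimed.Agent.R269.S10.GeoChordPos

set_option autoImplicit false

namespace Claimed.Agent.R269

open Complex ComplexConjugate Metric Set Filter Topology
open scoped Real ENNReal

local notation "⟪" i "⟫" => ((Fin.val i : ℕ) : ℤ)

theorem s10g_eq_ofReal_re {z : ℂ} (h : z.im = 0) : z = ((z.re : ℝ) : ℂ) := Complex.ext (by simp) (by simp [h])

namespace Slice

variable (Sl : Slice)

/-! ### reality on the real axis (no smallness needed) -/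

theorem s10g_abs_t₀_lt : |Sl.t₀| < Sl.Sh.ρ := by rw [abs_of_pos Sl.s10g_t₀_pos]; exact Sl.t₀_lt

theorem s10g_L_real (x : ℝ) : (Sl.L x).im = 0 := by
  have h := Sl.s10g_L_conj (Sl.s10g_real_mem_strip x)
  rw [Complex.conj_ofReal] at h
  exact Complex.conj_eq_iff_im.1 h.symm

theorem s10g_shift_real (j : ℤ) (x : ℝ) : (x : ℂ) + j * (Sl.t₀ : ℂ) = ((x + j * Sl.t₀ : ℝ) : ℂ) := by push_cast; ring

theorem s10g_s_real (j : ℤ) (x : ℝ) : (Sl.s j x).im = 0 := by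
  rw [s10g_s_eq, s10g_shift_real]; exact Sl.s10g_L_real _

theorem s10g_s'_im (j : ℤ) (x : ℝ) : (Sl.s' j x).im = 0 :=
  s10g_deriv_im_eq_zero (Sl.s10g_s_diffAt j (Sl.s10g_real_mem_strip x)) fun u => Sl.s10g_s_real j u

theorem s10g_s'_re_pos (j : ℤ) (x : ℝ) : 0 < (Sl.s' j x).re := by
  rw [s10g_s'_eq, s10g_shift_real]
  exact Sl.Sh.lift_mono Sl.t₀ Sl.s10g_abs_t₀_lt _

theorem s10g_real_mem_D (u : ℝ) : (u : ℂ) ∈ estrip Sl.Sh.G.Hs := by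
  rw [Sl.s10g_estrip_eq]; exact s10g_real_mem_hstrip Sl.s10g_H_pos u

theorem s10g_φ_real (u : ℝ) : (Sl.Sh.φ u).im = 0 := by
  have h := Sl.Sh.φ_conj u (Sl.s10g_real_mem_D u)
  rw [Complex.conj_ofReal] at h
  exact Complex.conj_eq_iff_im.1 h.symm

theorem s10g_f_im (u : ℝ) : (Sl.Sh.f u).im = 0 :=
  s10g_deriv_im_eq_zero (Sl.s10g_φ_diffAt (Sl.s10g_real_mem_D u)) Sl.s10g_φ_real

theorem s10g_f_re_pos (u : ℝ) : 0 < (Sl.Sh.f u).re := by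
  have hs := Sl.Sh.G.s4c_s_pos
  have h1 : Sl.Sh.φ =ᶠ[𝓝 (u : ℂ)] fun y => Sl.Sh.G.Θ y 0 := by
    filter_upwards [(s4c_isOpen_hstrip _).mem_nhds (s10g_real_mem_hstrip (by linarith : 0 < Sl.Sh.G.s / 2) u)]
      with y hy
    exact Sl.Sh.φ_base y hy
  show 0 < (deriv Sl.Sh.φ u).re
  rw [h1.deriv_eq]
  exact Sl.Sh.G.φ'_pos u

theorem s10g_fj_real (j : ℤ) (x : ℝ) : 0 < (Sl.fj j x).re ∧ (Sl.fj j x).im = 0 := by
  show 0 < (Sl.Sh.f (Sl.s j x)).re ∧ (Sl.Sh.f (Sl.s j x)).im = 0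
  rw [s10g_eq_ofReal_re (Sl.s10g_s_real j x)]
  exact ⟨Sl.s10g_f_re_pos _, Sl.s10g_f_im _⟩

theorem s10g_real_mem_base (x : ℝ) : (x : ℂ) ∈ Sl.base :=
  s10g_real_mem_hstrip (by have := Sl.Sh.G.s4c_s_pos; linarith) x

/-- the real edge angle. -/
noncomputable def Tr (j : ℤ) (x : ℝ) : ℝ := (Sl.Θe j x).re

theorem s10g_Θe_real (j : ℤ) (x : ℝ) : Sl.Θe j x = (Sl.Tr j x : ℂ) := by
  apply s10g_eq_ofReal_re
  unfold Θe
  have e : (x : ℂ) + j * (Sl.t₀ : ℂ) + (Sl.t₀ : ℂ) / 2 = ((x + j * Sl.t₀ + Sl.t₀ / 2 : ℝ) : ℂ) := by push_cast; ring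
  rw [e]
  exact Sl.Sh.G.s10g_Θ_real _ _ Sl.s10g_t₀_mem'

theorem s10g_θ_real (j : ℤ) (x : ℝ) : Sl.θ j x = (Sl.Tr j x : ℂ) := by
  rw [Sl.s10g_θ_base j (Sl.s10g_real_mem_base x), s10g_Θe_real]

theorem s10g_ψ_real (j : ℤ) (x : ℝ) : Sl.ψ j x = (((Sl.Tr (j - 1) x + Sl.Tr j x) / 2 : ℝ) : ℂ) := by
  rw [Sl.s10g_ψ_base' j (Sl.s10g_real_mem_base x), s10g_Θe_real, s10g_Θe_real]; push_cast; ring

theorem s10g_d_real (j : ℤ) (x : ℝ) : Sl.d j x = (((Sl.Tr j x - Sl.Tr (j - 1) x) / 2 : ℝ) : ℂ) := by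
  unfold Slice.d
  rw [s10g_θ_real, s10g_ψ_real]; push_cast; ring

theorem s10g_X_real (j : ℤ) (x : ℝ) :
    Sl.X j x = suppPt Sl.Sh.G.hc (((Sl.Tr (j - 1) x + Sl.Tr j x) / 2 : ℝ) : ℂ) := by
  rw [Sl.s10g_X_base j (Sl.s10g_real_mem_base x), ← s10g_ψ_real, Sl.s10g_ψ_base j (Sl.s10g_real_mem_base x)]
  rfl

/-- consecutive edge angles. -/
theorem s10g_Tr_step (j : ℤ) (x : ℝ) :
    Sl.Tr j x - Sl.Tr (j - 1) x
      = (Sl.Sh.G.Θ (((x + (j - 1) * Sl.t₀ + Sl.t₀ / 2 : ℝ) : ℂ) + (Sl.t₀ : ℂ)) (Sl.t₀ : ℂ)).re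
        - (Sl.Sh.G.Θ ((x + (j - 1) * Sl.t₀ + Sl.t₀ / 2 : ℝ) : ℂ) (Sl.t₀ : ℂ)).re := by
  unfold Tr Θe
  congr 3
  · push_cast; ring
  · push_cast; ring

/-! ### the assembly -/

/-- a slice with small parameter is nice. -/
theorem s10g_nice_of_small {τ : ℝ}
    (hτ : ∀ t : ℝ, 0 < t → t < τ → ∀ x : ℝ, 0 < (Sl.Sh.G.Θ ((x : ℂ) + t) t).re - (Sl.Sh.G.Θ x t).re ∧
      (Sl.Sh.G.Θ ((x : ℂ) + t) t).re - (Sl.Sh.G.Θ x t).re < π / 2)
    (ht : Sl.t₀ < τ) (hA : Sl.Sh.G.A (Sl.t₀ : ℂ) ≠ 0) : Sl.Nice := by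
  have hstep : ∀ (j : ℤ) (x : ℝ), 0 < Sl.Tr j x - Sl.Tr (j - 1) x ∧ Sl.Tr j x - Sl.Tr (j - 1) x < π / 2 := by
    intro j x
    rw [s10g_Tr_step]
    exact hτ Sl.t₀ Sl.s10g_t₀_pos ht _
  refine ⟨hA, fun x j => ⟨Sl.s10g_s_real j x, Sl.s10g_s'_re_pos j x, Sl.s10g_s'_im j x, (Sl.s10g_fj_real j x).1,
    (Sl.s10g_fj_real j x).2, ?_, ?_, ?_⟩⟩
  · unfold Slice.sd
    rw [s10g_d_real, ← Complex.ofReal_sin, Complex.ofReal_re]
    obtain ⟨h1, h2⟩ := hstep j x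
    exact Real.sin_pos_of_pos_of_lt_pi (by linarith) (by linarith [Real.pi_pos])
  · unfold Slice.sd
    rw [s10g_d_real, ← Complex.ofReal_sin, Complex.ofReal_im]
  · unfold Slice.ℓ
    rw [s10g_X_real, s10g_X_real, s10g_θ_real, add_sub_cancel_right]
    obtain ⟨h1, h2⟩ := hstep j x
    obtain ⟨h3, h4⟩ := hstep (j + 1) x
    rw [add_sub_cancel_right] at h3 h4
    exact Sl.Sh.G.s10g_chord_pos (by linarith) (by linarith) (by linarith)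

end Slice

/-- **a nice slice exists.** -/
theorem s10g_exists_nice (Sh : Shape) (hH : Sh.H ≠ ⊤) : ∃ Sl : Slice, Sl.Sh = Sh ∧ Sl.Nice := by
  obtain ⟨τ, hτ0, -, hτ⟩ := Sh.G.s10g_small_angle
  -- `A ≠ 0` on a punctured neighbourhood of `0`
  have hAd : HasDerivAt Sh.G.A ((Sh.G.c : ℂ) / 4) 0 := by
    have h := (Sh.G.A_diff.differentiableAt (isOpen_ball.mem_nhds (mem_ball_self Sh.G.r₁_pos))).hasDerivAt
    rwa [Sh.G.A_deriv] at h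
  have hc : (Sh.G.c : ℂ) / 4 ≠ 0 := by
    have : (Sh.G.c : ℂ) ≠ 0 := by exact_mod_cast Sh.G.c_pos.ne'
    exact div_ne_zero this (by norm_num)
  have hne : ∀ᶠ z in 𝓝[≠] (0 : ℂ), Sh.G.A z ≠ 0 := hAd.eventually_ne hc
  rw [eventually_nhdsWithin_iff, Metric.eventually_nhds_iff] at hne
  obtain ⟨ε, hε, hne⟩ := hne
  -- the choice of `N`
  set μ : ℝ := min (min Sh.ρ τ) ε with hμ
  have hμ0 : 0 < μ := lt_min (lt_min Sh.ρ_pos hτ0) hε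
  obtain ⟨k, hk⟩ := exists_nat_gt (2 * π / μ)
  have hN0 : (0 : ℝ) < ((2 * k + 3 : ℕ) : ℝ) := by positivity
  have hlt : 2 * π / ((2 * k + 3 : ℕ) : ℝ) < μ := by
    rw [div_lt_iff₀ hN0]
    rw [div_lt_iff₀ hμ0] at hk
    have : (k : ℝ) ≤ ((2 * k + 3 : ℕ) : ℝ) := by push_cast; linarith [(Nat.cast_nonneg k : (0 : ℝ) ≤ k)]
    nlinarith
  let Sl : Slice := ⟨Sh, hH, 2 * k + 3, ⟨k + 1, by ring⟩, by omega,
    hlt.trans_le ((min_le_left _ _).trans (min_le_left _ _))⟩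
  have ht₀ : Sl.t₀ < μ := hlt
  refine ⟨Sl, rfl, Sl.s10g_nice_of_small hτ (ht₀.trans_le ((min_le_left _ _).trans (min_le_right _ _))) ?_⟩
  apply hne
  · rw [dist_zero_right, Complex.norm_real, Real.norm_eq_abs, abs_of_pos Sl.s10g_t₀_pos]
    exact ht₀.trans_le (min_le_right _ _)
  · intro h0
    have : (Sl.t₀ : ℂ) = 0 := h0
    exact Sl.s10g_t₀_pos.ne' (by exact_mod_cast this)

end Claimed.Agent.R269
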