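/-
Row 269, P1 Section 10.1, package BP-S10a (architect: helper230).  LEAF LF-S10g-realbd (~200 lines, compactness, no paper).
The claimer owns this file; auxiliary lemmas above the statement, prefix `s10gr_`; do not change the statement.

CLAIM.  All observables of a nice slice are bounded on the real period `[0,2π]`.

PROOF.
 0. Generic lemma: for a `Fintype ι` and `g : ι → ℝ → ℝ` with `ContinuousOn (g a) (Icc 0 (2π))` for all `a` there is `C` with `|g a x| ≤ C` for all `a`,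
    `x ∈ Icc 0 (2π)` (`isCompact_Icc.exists_bound_of_continuousOn` for each `a`, `choose`, then `C = ∑ a, |C a|` or `Finset.exists_le`).
    Apply it to each of the seven families (the last one with `ι = Finset (Fin N) × Finset (Fin N)` and the function `0` for non admissible pairs, or
    with the subtype of admissible pairs) and take `C0 = 1 + ` the sum of the absolute values of the seven constants.
 1. `x ↦ (x : ℂ)` is continuous and maps `ℝ` into `Sl.reg ⊆ Sl.reg1 ⊆ Sl.reg0 ⊆ Sl.strip` (`hN.s10g_real_mem_reg`, `hN.s10g_real_mem_reg1`).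
    Continuity on these OPEN sets: `s10g_s_diff`, `s10g_ψ_diff`, `s10g_fj_diff`, `s10g_sd_diff` (GeoBasic, on `strip`), `s10g_X_hasDerivAt₁/₂`, `s10g_ℓ_diff`
    (GeoCurve, on `reg0`; `‖X‖` is the sup norm of the pair: `Continuous.prodMk`/`continuous_norm`), `s10g_detB_diff` (GeoReal, on `reg1`).
 2. the logarithms: `Real.continuousOn_log`/`ContinuousOn.log` need `‖q x‖ ≠ 0`, i.e. `q x ≠ 0`: membership in `Sl.reg` (`Slice.a j y = Real.log ‖fj j y‖`).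
 3. `(Sl.s ⟪i⟫ x).im = 0` is `(hN.real x ⟪i⟫).1`.
-/
import Claimed.Agent.R269.S10.GeoReal

set_option autoImplicit false

namespace Claimed.Agent.R269

open Complex ComplexConjugate Metric Set Filter Topology
open scoped Real ENNReal

local notation "⟪" i "⟫" => ((Fin.val i : ℕ) : ℤ)

namespace Slice

variable {Sl : Slice}

theorem s10gr_bound {ι : Type*} [Finite ι] (g : ι → ℝ → ℝ) (hg : ∀ a, Continuous (g a)) :
    ∃ C : ℝ, ∀ a, ∀ x ∈ Icc (0 : ℝ) (2 * π), |g a x| ≤ C := by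
  have h : ∀ a, ∃ C : ℝ, ∀ x ∈ Icc (0 : ℝ) (2 * π), ‖g a x‖ ≤ C := fun a =>
    isCompact_Icc.exists_bound_of_continuousOn (hg a).continuousOn
  choose C hC using h
  obtain ⟨M, hM⟩ := Finite.exists_le C
  exact ⟨M, fun a x hx => (hC a x hx).trans (hM a)⟩

theorem s10gr_cont_norm {E : Type*} [SeminormedAddCommGroup E] {q : ℂ → E} {U : Set ℂ} (hq : ContinuousOn q U)
    (hU : ∀ x : ℝ, (x : ℂ) ∈ U) : Continuous fun x : ℝ => ‖q x‖ :=
  (hq.comp_continuous Complex.continuous_ofReal hU).norm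

theorem s10gr_cont_log {q : ℂ → ℂ} {U : Set ℂ} (hq : ContinuousOn q U)
    (hU : ∀ x : ℝ, (x : ℂ) ∈ U) (hne : ∀ x : ℝ, q x ≠ 0) : Continuous fun x : ℝ => Real.log ‖q x‖ :=
  (s10gr_cont_norm hq hU).log fun x => norm_ne_zero_iff.2 (hne x)

/-- **LF-S10g-realbd.** -/
theorem Nice.s10g_real_bounds (hN : Sl.Nice) : ∃ C0 : ℝ, 0 < C0 ∧ ∀ x ∈ Icc (0 : ℝ) (2 * π), ∀ i : Fin Sl.N,
    ‖Sl.s ⟪i⟫ x‖ ≤ C0 ∧ (Sl.s ⟪i⟫ x).im = 0 ∧ ‖Sl.ψ ⟪i⟫ x‖ ≤ C0 ∧ ‖Sl.X ⟪i⟫ x‖ ≤ C0 ∧ |Sl.a ⟪i⟫ x| ≤ C0 ∧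
    |Real.log ‖Sl.sd ⟪i⟫ x‖| ≤ C0 ∧ |Real.log ‖Sl.ℓ ⟪i⟫ x‖| ≤ C0 ∧
    ∀ I F : Finset (Fin Sl.N), Sl.Adm I F → |Real.log ‖(Sl.Bmat I F x).det‖| ≤ C0 := by
  classical
  have hst : ∀ x : ℝ, (x : ℂ) ∈ Sl.strip := Sl.s10g_real_mem_strip
  have hr1 : ∀ x : ℝ, (x : ℂ) ∈ Sl.reg1 := hN.s10g_real_mem_reg1
  have hr0 : ∀ x : ℝ, (x : ℂ) ∈ Sl.reg0 := fun x => Sl.s10g_reg1_subset_reg0 (hr1 x)
  have hXc : ∀ j : ℤ, ContinuousOn (Sl.X j) Sl.reg0 := fun j y hy =>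
    ((Sl.s10g_X_hasDerivAt₁ j hy).continuousAt.prodMk (Sl.s10g_X_hasDerivAt₂ j hy).continuousAt).continuousWithinAt
  obtain ⟨C1, h1⟩ := s10gr_bound (fun (i : Fin Sl.N) (x : ℝ) => ‖Sl.s ⟪i⟫ x‖)
    (fun i => s10gr_cont_norm (Sl.s10g_s_diff ⟪i⟫).continuousOn hst)
  obtain ⟨C2, h2⟩ := s10gr_bound (fun (i : Fin Sl.N) (x : ℝ) => ‖Sl.ψ ⟪i⟫ x‖)
    (fun i => s10gr_cont_norm (Sl.s10g_ψ_diff ⟪i⟫).continuousOn hst)
  obtain ⟨C3, h3⟩ := s10gr_bound (fun (i : Fin Sl.N) (x : ℝ) => ‖Sl.X ⟪i⟫ x‖)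
    (fun i => s10gr_cont_norm (hXc ⟪i⟫) hr0)
  obtain ⟨C4, h4⟩ := s10gr_bound (fun (i : Fin Sl.N) (x : ℝ) => Real.log ‖Sl.fj ⟪i⟫ x‖)
    (fun i => s10gr_cont_log (Sl.s10g_fj_diff ⟪i⟫).continuousOn hst fun x => ((hr1 x).2 i).1)
  obtain ⟨C5, h5⟩ := s10gr_bound (fun (i : Fin Sl.N) (x : ℝ) => Real.log ‖Sl.sd ⟪i⟫ x‖)
    (fun i => s10gr_cont_log (Sl.s10g_sd_diff ⟪i⟫).continuousOn hst fun x => ((hr1 x).2 i).2.1)
  obtain ⟨C6, h6⟩ := s10gr_bound (fun (i : Fin Sl.N) (x : ℝ) => Real.log ‖Sl.ℓ ⟪i⟫ x‖)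
    (fun i => s10gr_cont_log (Sl.s10g_ℓ_diff ⟪i⟫).continuousOn hr0 fun x => ((hr1 x).2 i).2.2)
  obtain ⟨C7, h7⟩ := s10gr_bound
    (fun (P : {P : Finset (Fin Sl.N) × Finset (Fin Sl.N) // Sl.Adm P.1 P.2}) (x : ℝ) =>
      Real.log ‖(Sl.Bmat P.1.1 P.1.2 x).det‖)
    (fun P => s10gr_cont_log (q := fun y => (Sl.Bmat P.1.1 P.1.2 y).det) (Sl.s10g_detB_diff P.1.1 P.1.2).continuousOn hr1
      fun x => (hN.s10g_real_mem_reg x).2.2 P.1.1 P.1.2 P.2)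
  refine ⟨1 + |C1| + |C2| + |C3| + |C4| + |C5| + |C6| + |C7|, by positivity, fun x hx i => ?_⟩
  have a1 := abs_nonneg C1
  have a2 := abs_nonneg C2
  have a3 := abs_nonneg C3
  have a4 := abs_nonneg C4
  have a5 := abs_nonneg C5
  have a6 := abs_nonneg C6
  have a7 := abs_nonneg C7
  have b1 := (le_abs_self _).trans ((h1 i x hx).trans (le_abs_self C1))
  have b2 := (le_abs_self _).trans ((h2 i x hx).trans (le_abs_self C2))
  have b3 := (le_abs_self _).trans ((h3 i x hx).trans (le_abs_self C3))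
  have b4 := (h4 i x hx).trans (le_abs_self C4)
  have b5 := (h5 i x hx).trans (le_abs_self C5)
  have b6 := (h6 i x hx).trans (le_abs_self C6)
  refine ⟨by linarith, (hN.real x ⟪i⟫).1, by linarith, by linarith, ?_, by linarith, by linarith, fun I F hA => ?_⟩
  · show |Real.log ‖Sl.fj ⟪i⟫ x‖| ≤ _
    linarith
  · have b7 := (h7 ⟨(I, F), hA⟩ x hx).trans (le_abs_self C7)
    simp only at b7
    linarith

end Slice

end Claimed.Agent.R269
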