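/-
Row 269, P1 Section 10.1, package BP-S10a (architect: helper230).  LEAF LF-S10g-recon (~250 lines, explicit estimates, no paper).
The claimer owns this file; auxiliary lemmas above the statement, prefix `s10gx_`; do not change the statement.

CLAIM (P1 (10.8)).  Positions from supports:  `max |X_i| ≤ exp (C (1 + B)) max |H_i⁰|`.

PROOF.  Black boxes (GeoChord, GeoCurve, GeoBasic):
   `s10g_X_frame`    `X_j = H_j • n_{ψ_j} + ((p_j - p_{j-1}) / (2 sin d_j)) • e_{ψ_j}`                         (on `reg1`, all `j : ℤ`)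
   `s10g_pj_formula` `p_j = Σ_{m<N} (-1)^m H_{j-m} cos d_{j-m}`                                              (on `reg0`, all `j : ℤ`)
   `s10g_Hs_add_N`, `s10g_d_add_N`  periodicity in `j`;  `s10g_forall_int` passes from sites `⟪i⟫` to all integers
   `s10g_θ_le`       `∃ C₁ > 0, ‖d ⟪i⟫ y‖ ≤ C₁ (1 + B)` if `‖ψ ⟪i⟫ y‖ ≤ B` for all sites.
 1. `‖cos z‖ ≤ exp ‖z‖`, `‖sin z‖ ≤ exp ‖z‖`  (`cos z = (exp (iz) + exp (-iz)) / 2`, `Complex.norm_exp_le_exp_norm`; or `Complex.norm_exp`,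
    `|Im z| ≤ ‖z‖`).  So the sup norms `‖nvecC ψ‖, ‖evecC ψ‖ ≤ exp ‖ψ‖` (`Prod.norm_def`, `max_le`).
 2. for all `j : ℤ`:  `‖H_j‖ ≤ S`, `‖d_j‖ ≤ C₁ (1 + B)`; hence `‖p_j‖ ≤ N S exp (C₁ (1 + B))` (`norm_sum_le`, `s10g_norm_neg_one_pow_mul`).
 3. `|log ‖sin d_i‖| ≤ B` gives `exp (-B) ≤ ‖sin d_i‖` (`Real.exp_log`, `sd ≠ 0` on `reg1`), so `‖(2 sin d_i)⁻¹‖ ≤ exp B / 2`.
 4. `‖X_i‖ ≤ S exp B + (2 N S exp (C₁ (1+B))) (exp B / 2) exp B ≤ (N + 1) S exp ((C₁ + 2)(1 + B)) ≤ S exp ((C₁ + 2 + N)(1 + B))`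
    (`N + 1 ≤ exp N`: `Real.add_one_le_exp`; `S ≥ 0` because `‖H‖ ≤ S`).   `C = C₁ + 2 + N`.
-/
import Claimed.Agent.R269.S10.GeoChord

set_option autoImplicit false

namespace Claimed.Agent.R269

open Complex ComplexConjugate Metric Set Filter Topology
open scoped Real ENNReal

local notation "⟪" i "⟫" => ((Fin.val i : ℕ) : ℤ)

theorem s10gx_norm_cos_le (z : ℂ) : ‖Complex.cos z‖ ≤ Real.exp ‖z‖ := by
  have h1 : ‖Complex.exp (z * I)‖ ≤ Real.exp ‖z‖ := by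
    refine (Complex.norm_exp_le_exp_norm _).trans ?_
    rw [norm_mul, Complex.norm_I, mul_one]
  have h2 : ‖Complex.exp (-z * I)‖ ≤ Real.exp ‖z‖ := by
    refine (Complex.norm_exp_le_exp_norm _).trans ?_
    rw [norm_mul, Complex.norm_I, mul_one, norm_neg]
  unfold Complex.cos
  rw [norm_div]
  have h3 : ‖(2 : ℂ)‖ = 2 := by simp
  rw [h3, div_le_iff₀ (by norm_num)]
  refine (norm_add_le _ _).trans ?_
  linarith

theorem s10gx_norm_sin_le (z : ℂ) : ‖Complex.sin z‖ ≤ Real.exp ‖z‖ := by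
  have h1 : ‖Complex.exp (z * I)‖ ≤ Real.exp ‖z‖ := by
    refine (Complex.norm_exp_le_exp_norm _).trans ?_
    rw [norm_mul, Complex.norm_I, mul_one]
  have h2 : ‖Complex.exp (-z * I)‖ ≤ Real.exp ‖z‖ := by
    refine (Complex.norm_exp_le_exp_norm _).trans ?_
    rw [norm_mul, Complex.norm_I, mul_one, norm_neg]
  unfold Complex.sin
  rw [norm_div, norm_mul, Complex.norm_I, mul_one]
  have h3 : ‖(2 : ℂ)‖ = 2 := by simp
  rw [h3, div_le_iff₀ (by norm_num)]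
  refine (norm_sub_le _ _).trans ?_
  linarith

theorem s10gx_norm_nvec_le (z : ℂ) : ‖nvecC z‖ ≤ Real.exp ‖z‖ := by
  unfold nvecC
  rw [Prod.norm_def]
  exact max_le (s10gx_norm_cos_le z) (s10gx_norm_sin_le z)

theorem s10gx_norm_evec_le (z : ℂ) : ‖evecC z‖ ≤ Real.exp ‖z‖ := by
  unfold evecC
  rw [Prod.norm_def]
  refine max_le ?_ (s10gx_norm_cos_le z)
  simp only
  rw [norm_neg]
  exact s10gx_norm_sin_le z

namespace Slice

variable (Sl : Slice)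

/-- **LF-S10g-recon.** -/
theorem s10g_reconstruction : ∃ C : ℝ, 0 < C ∧ ∀ y ∈ Sl.reg1, ∀ B S : ℝ, 0 ≤ B →
    (∀ i : Fin Sl.N, ‖Sl.ψ ⟪i⟫ y‖ ≤ B ∧ |Real.log ‖Sl.sd ⟪i⟫ y‖| ≤ B) → (∀ i : Fin Sl.N, ‖Sl.Hs ⟪i⟫ y‖ ≤ S) →
    ∀ i : Fin Sl.N, ‖Sl.X ⟪i⟫ y‖ ≤ Real.exp (C * (1 + B)) * S := by
  obtain ⟨C₁, hC₁, hθ⟩ := Sl.s10g_θ_le
  have hN := Sl.s10g_N_pos
  refine ⟨C₁ + 2 + Sl.N, by positivity, ?_⟩
  intro y hy B S hB0 h hH i
  have hy0 := Sl.s10g_reg1_subset_reg0 hy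
  have hys : y ∈ Sl.strip := hy.1
  have hS0 : 0 ≤ S := (norm_nonneg _).trans (hH i)
  have HJ : ∀ j : ℤ, ‖Sl.Hs j y‖ ≤ S :=
    s10g_forall_int (P := fun j => ‖Sl.Hs j y‖ ≤ S) (fun j => by rw [Sl.s10g_Hs_add_N j hy0]) hH
  have DJ : ∀ j : ℤ, ‖Sl.d j y‖ ≤ C₁ * (1 + B) :=
    s10g_forall_int (P := fun j => ‖Sl.d j y‖ ≤ C₁ * (1 + B)) (fun j => by rw [Sl.s10g_d_add_N j hys])
      (fun i => (hθ y hys B (fun i => (h i).1) i).2)
  set E₁ := Real.exp (C₁ * (1 + B)) with hE₁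
  have hE₁0 : 0 < E₁ := Real.exp_pos _
  have PJ : ∀ j : ℤ, ‖Sl.pj j y‖ ≤ Sl.N * (S * E₁) := by
    intro j
    rw [Sl.s10g_pj_formula j hy0]
    refine (norm_sum_le _ _).trans ?_
    have : ∀ m ∈ Finset.range Sl.N, ‖(-1 : ℂ) ^ m * (Sl.Hs (j - m) y * Complex.cos (Sl.d (j - m) y))‖ ≤ S * E₁ := by
      intro m _
      rw [s10g_norm_neg_one_pow_mul, norm_mul]
      refine mul_le_mul (HJ _) ?_ (norm_nonneg _) hS0
      exact (s10gx_norm_cos_le _).trans (Real.exp_le_exp.mpr (DJ _))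
    refine (Finset.sum_le_sum this).trans ?_
    rw [Finset.sum_const, Finset.card_range, nsmul_eq_mul]
  have hsd0 := Sl.s10g_sd_ne hy ⟪i⟫
  have hsdpos : 0 < ‖Sl.sd ⟪i⟫ y‖ := norm_pos_iff.mpr hsd0
  have hsd : Real.exp (-B) ≤ ‖Sl.sd ⟪i⟫ y‖ := by
    have h1 := (abs_le.mp (h i).2).1
    rw [← Real.exp_log hsdpos]
    exact Real.exp_le_exp.mpr h1
  have hEB : 0 < Real.exp B := Real.exp_pos _
  have hq : ‖(Sl.pj ⟪i⟫ y - Sl.pj (⟪i⟫ - 1) y) / (2 * Sl.sd ⟪i⟫ y)‖ ≤ Sl.N * (S * E₁) * Real.exp B := by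
    rw [norm_div, norm_mul]
    have h3 : ‖(2 : ℂ)‖ = 2 := by simp
    rw [h3, div_le_iff₀ (by positivity)]
    have h4 : ‖Sl.pj ⟪i⟫ y - Sl.pj (⟪i⟫ - 1) y‖ ≤ 2 * (Sl.N * (S * E₁)) := by
      refine (norm_sub_le _ _).trans ?_
      linarith [PJ ⟪i⟫, PJ (⟪i⟫ - 1)]
    refine h4.trans ?_
    have h5 : 1 ≤ Real.exp B * ‖Sl.sd ⟪i⟫ y‖ := by
      have : Real.exp B * Real.exp (-B) = 1 := by rw [← Real.exp_add]; simp
      rw [← this]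
      exact mul_le_mul_of_nonneg_left hsd hEB.le
    have h6 : 0 ≤ Sl.N * (S * E₁) := by positivity
    calc 2 * (Sl.N * (S * E₁)) = 2 * (Sl.N * (S * E₁)) * 1 := by ring
      _ ≤ 2 * (Sl.N * (S * E₁)) * (Real.exp B * ‖Sl.sd ⟪i⟫ y‖) := mul_le_mul_of_nonneg_left h5 (by positivity)
      _ = _ := by ring
  have hn : ‖nvecC (Sl.ψ ⟪i⟫ y)‖ ≤ Real.exp B := (s10gx_norm_nvec_le _).trans (Real.exp_le_exp.mpr (h i).1)
  have he : ‖evecC (Sl.ψ ⟪i⟫ y)‖ ≤ Real.exp B := (s10gx_norm_evec_le _).trans (Real.exp_le_exp.mpr (h i).1)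
  have hX : ‖Sl.X ⟪i⟫ y‖ ≤ S * Real.exp B + Sl.N * (S * E₁) * Real.exp B * Real.exp B := by
    rw [Sl.s10g_X_frame ⟪i⟫ hy]
    refine (norm_add_le _ _).trans ?_
    rw [norm_smul, norm_smul]
    refine add_le_add (mul_le_mul (hH i) hn (norm_nonneg _) hS0) ?_
    exact mul_le_mul hq he (norm_nonneg _) (by positivity)
  set E₂ := Real.exp ((C₁ + 2) * (1 + B)) with hE₂
  have hE₂0 : 0 < E₂ := Real.exp_pos _
  have b1 : Real.exp B ≤ E₂ := Real.exp_le_exp.mpr (by nlinarith)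
  have b2 : E₁ * Real.exp B * Real.exp B ≤ E₂ := by
    rw [hE₁, ← Real.exp_add, ← Real.exp_add]
    exact Real.exp_le_exp.mpr (by nlinarith)
  have b3 : (Sl.N : ℝ) + 1 ≤ Real.exp (Sl.N * (1 + B)) := by
    refine (Real.add_one_le_exp _).trans (Real.exp_le_exp.mpr ?_)
    nlinarith
  calc ‖Sl.X ⟪i⟫ y‖ ≤ S * Real.exp B + Sl.N * (S * E₁) * Real.exp B * Real.exp B := hX
    _ = S * Real.exp B + Sl.N * S * (E₁ * Real.exp B * Real.exp B) := by ring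
    _ ≤ S * E₂ + Sl.N * S * E₂ := add_le_add (mul_le_mul_of_nonneg_left b1 hS0) (mul_le_mul_of_nonneg_left b2 (by positivity))
    _ = ((Sl.N : ℝ) + 1) * (E₂ * S) := by ring
    _ ≤ Real.exp (Sl.N * (1 + B)) * (E₂ * S) := mul_le_mul_of_nonneg_right b3 (by positivity)
    _ = Real.exp ((C₁ + 2 + Sl.N) * (1 + B)) * S := by
        rw [hE₂, ← mul_assoc, ← Real.exp_add]
        congr 2
        ring

end Slice

end Claimed.Agent.R269
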