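/-
Row 269, P1 Section 10, package BP-S10s (shape-level inputs; writer helper7).  ShapeIn: the angle budget on rows
(`Shape.si_row_budget`, consumed by `Slice.row_budget` of S10/Facts.lean).  Sorry-free.
-/
import Claimed.Agent.R269.S10.Reg
import Claimed.Agent.R269.ShapeBasic
import Claimed.Agent.R269.Lib.CARowMean

set_option autoImplicit false

namespace Claimed.Agent.R269

open Complex ComplexConjugate Filter Topology MeasureTheory Set Metric
open scoped ENNReal Real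

namespace Shape

variable (Sh : Shape)

/-- **The angle budget on rows.**  `k₀` must be so large that the rows `k ≥ k₀` lie in the strip. -/
theorem si_row_budget (hH : Sh.H ≠ ⊤) {ε C k₀ : ℝ} (hε : 0 < ε) (hk1 : 1 ≤ k₀)
    (hk₀ : Real.exp (-k₀) < Sh.Hr)
    (hb : ∀ K, k₀ ≤ K → ∫ k in k₀..K, Sh.μf k ^ 2 ≤ C * K ^ (2 - ε)) :
    ∃ C' ρ L0 : ℝ, 0 < C' ∧ 0 < ρ ∧ ρ < 1 ∧ ∀ L : ℝ, L0 ≤ L → ∀ σ : ℝ, (σ = 1 ∨ σ = -1) →
      ∫ x in (0 : ℝ)..(2 * π), ‖Sh.φ (⟨x, σ * (Sh.Hr - Real.exp (-L))⟩ : ℂ)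
        - (⟨x, σ * (Sh.Hr - Real.exp (-L))⟩ : ℂ)‖ ^ 2 ≤ C' * L ^ (2 * ρ) := by
  set H : ℝ := Sh.Hr with hHdef
  have hπ : (0 : ℝ) < 2 * π := Real.two_pi_pos
  set p : ℂ → ℂ := fun z => Sh.φ z - z with hpdef
  have hD : Sh.D = {z : ℂ | |z.im| < H} := Sh.sb_D_eq hH
  have hmem : ∀ z : ℂ, |z.im| < H → z ∈ Sh.D := fun z hz => (Sh.sb_mem_D_iff hH z).2 hz
  have hp : DifferentiableOn ℂ p {z | |z.im| < H} := by
    rw [← hD]; exact Sh.φ_diff.sub differentiableOn_id
  have hper : ∀ z : ℂ, |z.im| < H → p (z + 2 * π) = p z := by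
    intro z hz
    simp only [hpdef]
    rw [Sh.φ_per z (hmem z hz)]; ring
  have hconj : ∀ z : ℂ, |z.im| < H → p (conj z) = conj (p z) := by
    intro z hz
    simp only [hpdef]
    rw [Sh.φ_conj z (hmem z hz), map_sub]
  have hdp : ∀ z : ℂ, |z.im| < H → deriv p z = Sh.f z - 1 := by
    intro z hz
    have h1 : HasDerivAt p (deriv Sh.φ z - 1) z :=
      (Sh.sb_φ_at (hmem z hz)).hasDerivAt.sub (hasDerivAt_id z)
    exact h1.deriv
  -- the row integrals
  set E : ℝ → ℝ := fun τ => ∫ x in (0 : ℝ)..(2 * π), ‖deriv p ((x : ℂ) + (τ : ℂ) * I)‖ ^ 2 with hE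
  set F : ℝ → ℝ := fun τ => ∫ x in (0 : ℝ)..(2 * π), ‖Sh.f ((x : ℂ) + (τ : ℂ) * I)‖ ^ 2 with hF
  have cdp : ContinuousOn (fun q : ℝ × ℝ => ‖deriv p ((q.1 : ℂ) + (q.2 : ℂ) * I)‖ ^ 2)
      {q | |q.2| < H} :=
    (carm_continuousOn (hp.deriv (ca_strip_isOpen H)).continuousOn).norm.pow 2
  have cf : ContinuousOn (fun q : ℝ × ℝ => ‖Sh.f ((q.1 : ℂ) + (q.2 : ℂ) * I)‖ ^ 2)
      {q | |q.2| < H} := by
    have : ContinuousOn Sh.f {z : ℂ | |z.im| < H} := by
      rw [← hD]; exact Sh.sb_f_diff.continuousOn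
    exact (carm_continuousOn this).norm.pow 2
  have cE : ∀ c, c < H → ContinuousOn E (Icc (-c) c) := fun c hc =>
    carm_rowInt_continuousOn cdp 0 (2 * π) hc
  have cF : ∀ c, c < H → ContinuousOn F (Icc (-c) c) := fun c hc =>
    carm_rowInt_continuousOn cf 0 (2 * π) hc
  have E_nonneg : ∀ τ, 0 ≤ E τ := fun τ =>
    intervalIntegral.integral_nonneg hπ.le fun x _ => by positivity
  have rowcont : ∀ {G : ℝ × ℝ → ℝ}, ContinuousOn G {q | |q.2| < H} → ∀ t, |t| < H →
      Continuous fun x : ℝ => G (x, t) := by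
    intro G hG t ht
    exact hG.comp_continuous (by fun_prop) (fun x => ht)
  have E_le : ∀ τ, |τ| < H → E τ ≤ 2 * F τ + 4 * π := by
    intro τ hτ
    have h1 : ∀ x ∈ Icc (0 : ℝ) (2 * π), ‖deriv p ((x : ℂ) + (τ : ℂ) * I)‖ ^ 2 ≤
        2 * ‖Sh.f ((x : ℂ) + (τ : ℂ) * I)‖ ^ 2 + 2 := by
      intro x _
      rw [hdp _ (carm_mem hτ x)]
      have h2 : ‖Sh.f ((x : ℂ) + (τ : ℂ) * I) - 1‖ ≤ ‖Sh.f ((x : ℂ) + (τ : ℂ) * I)‖ + 1 := by
        simpa using norm_sub_le (Sh.f ((x : ℂ) + (τ : ℂ) * I)) 1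
      have h3 := norm_nonneg (Sh.f ((x : ℂ) + (τ : ℂ) * I) - 1)
      nlinarith [sq_nonneg (‖Sh.f ((x : ℂ) + (τ : ℂ) * I)‖ - 1)]
    have i1 : IntervalIntegrable (fun x : ℝ => ‖deriv p ((x : ℂ) + (τ : ℂ) * I)‖ ^ 2) volume 0
        (2 * π) := (rowcont cdp τ hτ).intervalIntegrable _ _
    have i2 : IntervalIntegrable (fun x : ℝ => 2 * ‖Sh.f ((x : ℂ) + (τ : ℂ) * I)‖ ^ 2) volume 0
        (2 * π) := (continuous_const.mul (rowcont cf τ hτ)).intervalIntegrable _ _
    have i3 : IntervalIntegrable (fun _ : ℝ => (2 : ℝ)) volume 0 (2 * π) :=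
      continuous_const.intervalIntegrable _ _
    have h4 := intervalIntegral.integral_mono_on hπ.le i1 (i2.add i3) h1
    rw [intervalIntegral.integral_add i2 i3, intervalIntegral.integral_const_mul,
      intervalIntegral.integral_const] at h4
    simp only [hE, hF]
    have e : (2 * π - 0) • (2 : ℝ) = 4 * π := by rw [smul_eq_mul]; ring
    rw [e] at h4
    exact h4
  -- the starting row
  set τ₁ : ℝ := H - Real.exp (-k₀) with hτ₁
  have hτ₁0 : 0 < τ₁ := by rw [hτ₁]; linarith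
  have hτ₁H : τ₁ < H := by rw [hτ₁]; linarith [Real.exp_pos (-k₀)]
  set P : ℝ → ℝ := fun η => ∫ x in (0 : ℝ)..(2 * π), ‖p ((x : ℂ) + (η : ℂ) * I)‖ ^ 2 with hP
  set A : ℝ := P 0 + 4 * ∫ τ in (0 : ℝ)..τ₁, (H - τ) * E τ with hA
  have F_nonneg : ∀ τ, 0 ≤ F τ := fun τ =>
    intervalIntegral.integral_nonneg hπ.le fun x _ => by positivity
  have hμf : ∀ k, Sh.μf k ^ 2 = Real.exp (-k) ^ 2 * ((2 * π)⁻¹ * F (H - Real.exp (-k))) := by
    intro k
    have e : (∫ x in (0 : ℝ)..(2 * π), ‖Sh.f (⟨x, Sh.Hr - Real.exp (-k)⟩ : ℂ)‖ ^ 2)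
        = F (H - Real.exp (-k)) := by
      simp only [hF, Complex.mk_eq_add_mul_I]
      rfl
    rw [μf, e, mul_pow, Real.sq_sqrt (mul_nonneg (by positivity) (F_nonneg _))]
  have main : ∀ L, k₀ ≤ L →
      P (H - Real.exp (-L)) ≤ A + 16 * π * (C * L ^ (2 - ε)) + 16 * π * L := by
    intro L hL
    set η : ℝ := H - Real.exp (-L) with hη
    have hτη : τ₁ ≤ η := by
      rw [hτ₁, hη]
      have := Real.exp_le_exp.2 (neg_le_neg hL)
      linarith
    have hηH : η < H := by rw [hη]; linarith [Real.exp_pos (-L)]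
    have hη0 : 0 ≤ η := hτ₁0.le.trans hτη
    have hsym : P η = P 0 + 4 * ∫ τ in (0 : ℝ)..η, (η - τ) * E τ := carm_sym hp hper hconj hη0 hηH
    have cEη : ContinuousOn E (Icc 0 η) := (cE η hηH).mono (Icc_subset_Icc (by linarith) le_rfl)
    have c1 : ContinuousOn (fun τ => (η - τ) * E τ) (Icc 0 η) :=
      (continuousOn_const.sub continuousOn_id).mul cEη
    have c2 : ContinuousOn (fun τ => (H - τ) * E τ) (Icc 0 η) :=
      (continuousOn_const.sub continuousOn_id).mul cEη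
    have i1 : IntervalIntegrable (fun τ => (η - τ) * E τ) volume 0 η :=
      c1.intervalIntegrable_of_Icc hη0
    have i2 : IntervalIntegrable (fun τ => (H - τ) * E τ) volume 0 η :=
      c2.intervalIntegrable_of_Icc hη0
    have i2a : IntervalIntegrable (fun τ => (H - τ) * E τ) volume 0 τ₁ :=
      (c2.mono (Icc_subset_Icc le_rfl hτη)).intervalIntegrable_of_Icc hτ₁0.le
    have i2b : IntervalIntegrable (fun τ => (H - τ) * E τ) volume τ₁ η :=
      (c2.mono (Icc_subset_Icc hτ₁0.le le_rfl)).intervalIntegrable_of_Icc hτη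
    have s1 : ∫ τ in (0 : ℝ)..η, (η - τ) * E τ ≤ ∫ τ in (0 : ℝ)..η, (H - τ) * E τ :=
      intervalIntegral.integral_mono_on hη0 i1 i2
        (fun τ _ => mul_le_mul_of_nonneg_right (by linarith) (E_nonneg τ))
    have s2 : ∫ τ in (0 : ℝ)..η, (H - τ) * E τ =
        (∫ τ in (0 : ℝ)..τ₁, (H - τ) * E τ) + ∫ τ in τ₁..η, (H - τ) * E τ :=
      (intervalIntegral.integral_add_adjacent_intervals i2a i2b).symm
    -- the rows `k ∈ [k₀, L]`
    have hu : ∀ k ∈ Icc k₀ L, H - Real.exp (-k) ∈ Icc τ₁ η := by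
      intro k hk
      have h1 := Real.exp_le_exp.2 (neg_le_neg hk.1)
      have h2 := Real.exp_le_exp.2 (neg_le_neg hk.2)
      constructor
      · rw [hτ₁]; linarith
      · rw [hη]; linarith
    have cu : Continuous fun k : ℝ => H - Real.exp (-k) := by fun_prop
    have s3 : ∫ k in k₀..L, (H - (H - Real.exp (-k))) * E (H - Real.exp (-k)) * Real.exp (-k) =
        ∫ τ in τ₁..η, (H - τ) * E τ := by
      have h := intervalIntegral.integral_comp_mul_deriv' (a := k₀) (b := L)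
        (f := fun k => H - Real.exp (-k)) (f' := fun k => Real.exp (-k))
        (g := fun τ => (H - τ) * E τ)
        (by
          intro k _
          have h1 : HasDerivAt (fun k : ℝ => Real.exp (-k)) (Real.exp (-k) * -1) k :=
            (Real.hasDerivAt_exp (-k)).comp k (hasDerivAt_neg k)
          simpa using h1.const_sub H)
        (by fun_prop)
        (by
          refine c2.mono ?_
          rintro _ ⟨k, hk, rfl⟩
          rw [uIcc_of_le hL] at hk
          exact ⟨hτ₁0.le.trans (hu k hk).1, (hu k hk).2⟩)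
      exact h
    have cEu : ContinuousOn (fun k => E (H - Real.exp (-k))) (Icc k₀ L) :=
      (cE η hηH).comp cu.continuousOn fun k hk =>
        ⟨by linarith [(hu k hk).1], (hu k hk).2⟩
    have cFu : ContinuousOn (fun k => F (H - Real.exp (-k))) (Icc k₀ L) :=
      (cF η hηH).comp cu.continuousOn fun k hk =>
        ⟨by linarith [(hu k hk).1], (hu k hk).2⟩
    have j1 : IntervalIntegrable
        (fun k => (H - (H - Real.exp (-k))) * E (H - Real.exp (-k)) * Real.exp (-k)) volume k₀ L := by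
      refine ContinuousOn.intervalIntegrable_of_Icc hL ?_
      exact ((continuousOn_const.sub cu.continuousOn).mul cEu).mul (by fun_prop)
    have j2 : IntervalIntegrable (fun k => Sh.μf k ^ 2) volume k₀ L := by
      refine ContinuousOn.intervalIntegrable_of_Icc hL ?_
      have : (fun k => Sh.μf k ^ 2) =
          fun k => Real.exp (-k) ^ 2 * ((2 * π)⁻¹ * F (H - Real.exp (-k))) := funext hμf
      rw [this]
      exact ContinuousOn.mul (by fun_prop) (continuousOn_const.mul cFu)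
    have j3 : IntervalIntegrable (fun k => 4 * π * Sh.μf k ^ 2) volume k₀ L := j2.const_mul _
    have j4 : IntervalIntegrable (fun _ : ℝ => 4 * π) volume k₀ L :=
      continuous_const.intervalIntegrable _ _
    have s4 : ∫ k in k₀..L, (H - (H - Real.exp (-k))) * E (H - Real.exp (-k)) * Real.exp (-k) ≤
        ∫ k in k₀..L, (4 * π * Sh.μf k ^ 2 + 4 * π) := by
      refine intervalIntegral.integral_mono_on hL j1 (j3.add j4) ?_
      intro k hk
      have hk' := hu k hk
      have habs : |H - Real.exp (-k)| < H := by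
        rw [abs_of_nonneg (hτ₁0.le.trans hk'.1)]
        exact hk'.2.trans_lt hηH
      have hEk := E_le _ habs
      have he0 := Real.exp_pos (-k)
      have he1 : Real.exp (-k) ≤ 1 := by
        rw [Real.exp_le_one_iff]
        linarith [hk.1]
      rw [hμf k]
      have hπ0 : π ≠ 0 := Real.pi_ne_zero
      have e1 : 4 * π * (Real.exp (-k) ^ 2 * ((2 * π)⁻¹ * F (H - Real.exp (-k)))) =
          Real.exp (-k) ^ 2 * (2 * F (H - Real.exp (-k))) := by
        field_simp
        ring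
      rw [e1]
      have e2 : (H - (H - Real.exp (-k))) * E (H - Real.exp (-k)) * Real.exp (-k) =
          Real.exp (-k) ^ 2 * E (H - Real.exp (-k)) := by ring
      rw [e2]
      have hsq : Real.exp (-k) ^ 2 ≤ 1 := by nlinarith
      have hsq0 : 0 ≤ Real.exp (-k) ^ 2 := by positivity
      calc Real.exp (-k) ^ 2 * E (H - Real.exp (-k))
          ≤ Real.exp (-k) ^ 2 * (2 * F (H - Real.exp (-k)) + 4 * π) :=
            mul_le_mul_of_nonneg_left hEk hsq0
        _ = Real.exp (-k) ^ 2 * (2 * F (H - Real.exp (-k))) + Real.exp (-k) ^ 2 * (4 * π) := by ring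
        _ ≤ Real.exp (-k) ^ 2 * (2 * F (H - Real.exp (-k))) + 4 * π := by
            have : Real.exp (-k) ^ 2 * (4 * π) ≤ 1 * (4 * π) :=
              mul_le_mul_of_nonneg_right hsq (by positivity)
            linarith
    have s5 : ∫ k in k₀..L, (4 * π * Sh.μf k ^ 2 + 4 * π) ≤ 4 * π * (C * L ^ (2 - ε)) + 4 * π * L := by
      rw [intervalIntegral.integral_add j3 j4, intervalIntegral.integral_const_mul,
        intervalIntegral.integral_const, smul_eq_mul]
      have h1 := hb L hL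
      have h2 : 4 * π * ∫ k in k₀..L, Sh.μf k ^ 2 ≤ 4 * π * (C * L ^ (2 - ε)) :=
        mul_le_mul_of_nonneg_left h1 (by positivity)
      have h3 : (L - k₀) * (4 * π) ≤ 4 * π * L := by
        have : 0 ≤ k₀ * (4 * π) := by positivity
        nlinarith
      linarith
    rw [hsym, hA]
    linarith
  -- the exponents
  set ε' : ℝ := min ε 1 with hε'
  have hε'0 : 0 < ε' := lt_min hε one_pos
  have hε'1 : ε' ≤ 1 := min_le_right _ _
  have hε'ε : ε' ≤ ε := min_le_left _ _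
  refine ⟨|A| + 16 * π * |C| + 16 * π + 1, 1 - ε' / 2, k₀, by positivity, by linarith, by linarith, ?_⟩
  intro L hL σ hσ
  have hL1 : 1 ≤ L := hk1.trans hL
  have hL0 : 0 < L := by linarith
  have hηH : H - Real.exp (-L) < H := by linarith [Real.exp_pos (-L)]
  have hη0 : 0 ≤ H - Real.exp (-L) := by
    have := Real.exp_le_exp.2 (neg_le_neg hL)
    linarith
  -- reduction to `σ = 1`
  have hred : ∫ x in (0 : ℝ)..(2 * π), ‖Sh.φ (⟨x, σ * (H - Real.exp (-L))⟩ : ℂ)
      - (⟨x, σ * (H - Real.exp (-L))⟩ : ℂ)‖ ^ 2 = P (H - Real.exp (-L)) := by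
    simp only [hP]
    apply intervalIntegral.integral_congr
    intro x _
    simp only
    rcases hσ with rfl | rfl
    · rw [one_mul, Complex.mk_eq_add_mul_I]
    · have hz : |((x : ℂ) + ((H - Real.exp (-L) : ℝ) : ℂ) * I).im| < H :=
        carm_mem (by rw [abs_of_nonneg hη0]; exact hηH) x
      have e : (⟨x, -1 * (H - Real.exp (-L))⟩ : ℂ) =
          conj ((x : ℂ) + ((H - Real.exp (-L) : ℝ) : ℂ) * I) := by
        generalize (H - Real.exp (-L)) = w
        apply Complex.ext <;> simp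
      rw [e]
      have := hconj _ hz
      simp only [hpdef] at this
      rw [this, Complex.norm_conj]
  rw [hred]
  have e2ρ : 2 * (1 - ε' / 2) = 2 - ε' := by ring
  rw [e2ρ]
  have hX1 : 1 ≤ L ^ (2 - ε') := Real.one_le_rpow hL1 (by linarith)
  have hX2 : L ^ (2 - ε) ≤ L ^ (2 - ε') := Real.rpow_le_rpow_of_exponent_le hL1 (by linarith)
  have hX3 : L ≤ L ^ (2 - ε') := by
    calc L = L ^ (1 : ℝ) := (Real.rpow_one L).symm
      _ ≤ L ^ (2 - ε') := Real.rpow_le_rpow_of_exponent_le hL1 (by linarith)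
  have hX0 : 0 ≤ L ^ (2 - ε) := Real.rpow_nonneg hL0.le _
  have hm := main L hL
  have t1 : A ≤ |A| * L ^ (2 - ε') := by
    calc A ≤ |A| := le_abs_self A
      _ = |A| * 1 := (mul_one _).symm
      _ ≤ |A| * L ^ (2 - ε') := mul_le_mul_of_nonneg_left hX1 (abs_nonneg A)
  have t2 : C * L ^ (2 - ε) ≤ |C| * L ^ (2 - ε') := by
    calc C * L ^ (2 - ε) ≤ |C| * L ^ (2 - ε) := mul_le_mul_of_nonneg_right (le_abs_self C) hX0
      _ ≤ |C| * L ^ (2 - ε') := mul_le_mul_of_nonneg_left hX2 (abs_nonneg C)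
  have hπ0 : 0 < π := Real.pi_pos
  calc P (H - Real.exp (-L)) ≤ A + 16 * π * (C * L ^ (2 - ε)) + 16 * π * L := hm
    _ ≤ |A| * L ^ (2 - ε') + 16 * π * (|C| * L ^ (2 - ε')) + 16 * π * L ^ (2 - ε') := by
        have h1 : 16 * π * (C * L ^ (2 - ε)) ≤ 16 * π * (|C| * L ^ (2 - ε')) :=
          mul_le_mul_of_nonneg_left t2 (by positivity)
        have h2 : 16 * π * L ≤ 16 * π * L ^ (2 - ε') :=
          mul_le_mul_of_nonneg_left hX3 (by positivity)
        linarith
    _ ≤ (|A| + 16 * π * |C| + 16 * π + 1) * L ^ (2 - ε') := by nlinarith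

end Shape

end Claimed.Agent.R269
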