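/-
Row 269, P1 Section 10, package BP-S10s (shape-level inputs; writer helper7).  ShapeIn2: amplitude bound (10.21), bounds on compact substrips,
closedness of the regular set under bounded observables.  Consumed by section B of S10/Facts.lean.
-/
import Claimed.Agent.R269.S10.ShapeIn
import Claimed.Agent.R269.S10.GeoCurve

set_option autoImplicit false

namespace Claimed.Agent.R269

open Complex ComplexConjugate Filter Topology MeasureTheory Set Metric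
open scoped ENNReal Real

local notation "⟪" i "⟫" => ((Fin.val i : ℕ) : ℤ)

namespace Shape

variable (Sh : Shape)

/-- (10.21) at the level of the shape: `log |f| ≤ κ⁺ + C log (2 + κ⁺) + C`, `κ = -log (H - |Im z|)`. -/
theorem si_amp_upper (hH : Sh.H ≠ ⊤) {C₀ k₀ : ℝ} (hk1 : 1 ≤ k₀)
    (hp : ∀ k, k₀ ≤ k → Real.exp (-k) * Sh.rowMax (Sh.Hr - Real.exp (-k)) ≤ C₀ * (1 + k) ^ 2) :
    ∃ C : ℝ, 0 < C ∧ ∀ z ∈ Sh.D, Real.log ‖Sh.f z‖ ≤ max (-Real.log (Sh.Hr - |z.im|)) 0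
      + C * Real.log (2 + max (-Real.log (Sh.Hr - |z.im|)) 0) + C := by
  obtain ⟨M₁, hM₁⟩ := Sh.sb_bdd_f hH (c := Sh.Hr - Real.exp (-k₀)) (by linarith [Real.exp_pos (-k₀)])
  have hlM : 0 ≤ Real.log (max M₁ 1) := Real.log_nonneg (le_max_right _ _)
  refine ⟨2 + |Real.log C₀| + Real.log (max M₁ 1), by positivity, ?_⟩
  intro z hz
  set δ := Sh.Hr - |z.im| with hδ
  have hδ0 : 0 < δ := by have := (Sh.sb_mem_D_iff hH z).1 hz; linarith
  set κ := -Real.log δ with hκ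
  set m := max κ 0 with hm
  have hm0 : 0 ≤ m := le_max_right _ _
  have hlog : 0 ≤ Real.log (2 + m) := Real.log_nonneg (by linarith)
  have hextra : 0 ≤ (|Real.log C₀| + Real.log (max M₁ 1)) * Real.log (2 + m) := by positivity
  have e : (2 + |Real.log C₀| + Real.log (max M₁ 1)) * Real.log (2 + m)
      = 2 * Real.log (2 + m) + (|Real.log C₀| + Real.log (max M₁ 1)) * Real.log (2 + m) := by ring
  rw [e]
  have habs : 0 ≤ |Real.log C₀| := abs_nonneg _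
  by_cases hf : Sh.f z = 0
  · rw [hf, norm_zero, Real.log_zero]; positivity
  have hf0 : 0 < ‖Sh.f z‖ := norm_pos_iff.2 hf
  by_cases hk : k₀ ≤ κ
  · have h1 := Sh.sb_M_le hH hp hz hk
    have h2 : δ * ‖Sh.f z‖ ≤ C₀ * (1 + κ) ^ 2 := by
      calc δ * ‖Sh.f z‖ ≤ δ * Sh.M z := mul_le_mul_of_nonneg_left (Sh.sb_norm_f_le_M z) hδ0.le
        _ ≤ C₀ * (1 - Real.log δ) ^ 2 := h1
        _ = C₀ * (1 + κ) ^ 2 := by rw [hκ]; ring
    have hκ1 : 1 ≤ κ := hk1.trans hk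
    have hpos : 0 < δ * ‖Sh.f z‖ := mul_pos hδ0 hf0
    have hC0 : 0 < C₀ := by
      by_contra h
      push Not at h
      have : C₀ * (1 + κ) ^ 2 ≤ 0 := mul_nonpos_of_nonpos_of_nonneg h (sq_nonneg _)
      linarith
    have h3 : Real.log (δ * ‖Sh.f z‖) ≤ Real.log (C₀ * (1 + κ) ^ 2) := Real.log_le_log hpos h2
    rw [Real.log_mul hδ0.ne' hf0.ne', Real.log_mul hC0.ne' (by positivity), Real.log_pow] at h3
    have hmk : m = κ := max_eq_left (by linarith)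
    have h4 : Real.log (1 + κ) ≤ Real.log (2 + m) := Real.log_le_log (by linarith) (by linarith)
    have h5 : Real.log C₀ ≤ |Real.log C₀| := le_abs_self _
    push_cast at h3
    linarith
  · push Not at hk
    have h0 : Real.exp (-k₀) < δ := by
      rw [← Real.lt_log_iff_exp_lt hδ0]; linarith
    have h1 : ‖Sh.f z‖ ≤ M₁ := hM₁ z (by linarith)
    have h2 : Real.log ‖Sh.f z‖ ≤ Real.log (max M₁ 1) := Real.log_le_log hf0 (h1.trans (le_max_left _ _))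
    linarith

end Shape

/-- a bounded logarithm bounds the modulus from below. -/
theorem si_lower {B : ℝ} {z : ℂ} (hz : z ≠ 0) (h : |Real.log ‖z‖| ≤ B) : Real.exp (-B) ≤ ‖z‖ :=
  (Real.le_log_iff_exp_le (norm_pos_iff.2 hz)).1 (abs_le.1 h).1

/-- nonvanishing passes to the limit under a bounded logarithm. -/
theorem si_limit_ne {g : ℂ → ℂ} {y : ℕ → ℂ} {l : ℂ} {B : ℝ} (hg : ContinuousAt g l) (ht : Tendsto y atTop (𝓝 l))
    (h0 : ∀ n, g (y n) ≠ 0) (hB : ∀ n, |Real.log ‖g (y n)‖| ≤ B) : g l ≠ 0 := by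
  have h1 : Tendsto (fun n => ‖g (y n)‖) atTop (𝓝 ‖g l‖) := (hg.tendsto.comp ht).norm
  have h2 : Real.exp (-B) ≤ ‖g l‖ := ge_of_tendsto' h1 (fun n => si_lower (h0 n) (hB n))
  intro h
  rw [h, norm_zero] at h2
  exact absurd h2 (not_le.2 (Real.exp_pos _))

theorem si_continuousAt_ite {g : ℂ → ℂ} {l : ℂ} (P : Prop) [Decidable P] (hg : ContinuousAt g l) :
    ContinuousAt (fun y => if P then g y else 0) l := by
  split_ifs
  · exact hg
  · exact continuousAt_const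

namespace Slice

variable (Sl : Slice)

theorem si_s_mem_D (j : ℤ) {y : ℂ} (hy : y ∈ Sl.strip) : Sl.s j y ∈ Sl.Sh.D :=
  (Sl.Sh.sb_mem_D_iff Sl.H_fin _).2 (by
    have := Sl.s10g_δ_pos j hy
    unfold Slice.δ Slice.H at this
    linarith)

/-- (10.21): `a_j ≤ k_j⁺ + C log(2 + k_j⁺) + C`. -/
theorem si_amplitude_upper (hp : Sl.Poly) : ∃ C : ℝ, 0 < C ∧ ∀ y ∈ Sl.strip, ∀ j : ℤ,
    Sl.a j y ≤ max (Sl.k j y) 0 + C * Real.log (2 + max (Sl.k j y) 0) + C := by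
  obtain ⟨C₀, k₀, hk1, h⟩ := hp
  obtain ⟨C, hC, hC'⟩ := Sl.Sh.si_amp_upper Sl.H_fin hk1 (fun k hk => (h k hk).2)
  exact ⟨C, hC, fun y hy j => hC' _ (Sl.si_s_mem_D j hy)⟩

/-- bounds on compact substrips -/
theorem si_compact_bounds (L : ℝ) : ∃ C : ℝ, 0 < C ∧ ∀ s : ℂ, |s.im| ≤ Sl.H - Real.exp (-L) →
    ‖Sl.Sh.φ s - s‖ ≤ C ∧ ‖Sl.Sh.f s‖ ≤ C := by
  have hc : Sl.H - Real.exp (-L) < Sl.Sh.Hr := by unfold Slice.H; linarith [Real.exp_pos (-L)]
  obtain ⟨M1, h1⟩ := Sl.Sh.sb_bdd_p Sl.H_fin hc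
  obtain ⟨M2, h2⟩ := Sl.Sh.sb_bdd_f Sl.H_fin hc
  exact ⟨max (max M1 M2) 1, lt_of_lt_of_le one_pos (le_max_right _ _), fun s hs =>
    ⟨(h1 s hs).trans ((le_max_left _ _).trans (le_max_left _ _)),
      (h2 s hs).trans ((le_max_right _ _).trans (le_max_left _ _))⟩⟩

/-- the curve is bounded where `f` is not small -/
theorem si_compact_Γ (L B : ℝ) : ∃ C : ℝ, 0 < C ∧ ∀ s : ℂ, |s.im| ≤ Sl.H - Real.exp (-L) →
    Real.exp (-B) ≤ ‖Sl.Sh.f s‖ → ‖Sl.Sh.Γ s‖ ≤ C := by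
  have hc : Sl.H - Real.exp (-L) < Sl.Sh.Hr := by unfold Slice.H; linarith [Real.exp_pos (-L)]
  obtain ⟨M, hM⟩ := Sl.Sh.sb_bdd_Γ Sl.H_fin hc (Real.exp_pos (-B))
  exact ⟨max M 1, lt_of_lt_of_le one_pos (le_max_right _ _), fun s hs hf =>
    (hM s hs hf).trans (le_max_left _ _)⟩

/-- a limit inside the phase strip of regular points with bounded observables is regular -/
theorem si_reg_closed (B : ℝ) (y : ℕ → ℂ) (l : ℂ) (hl : l ∈ Sl.strip) (hy : ∀ n, y n ∈ Sl.reg)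
    (ht : Tendsto y atTop (𝓝 l)) (hB : ∀ n, Sl.Bdd B (y n)) : l ∈ Sl.reg := by
  have hstrip : Sl.strip ∈ 𝓝 l := Sl.s10g_isOpen_strip.mem_nhds hl
  have hfc : ∀ j : ℤ, ContinuousAt (Sl.fj j) l := fun j =>
    (Sl.s10g_fj_diff j).continuousOn.continuousAt hstrip
  have hsdc : ∀ j : ℤ, ContinuousAt (Sl.sd j) l := fun j =>
    (Sl.s10g_sd_diff j).continuousOn.continuousAt hstrip
  have hf : ∀ i : Fin Sl.N, Sl.fj ⟪i⟫ l ≠ 0 := fun i =>
    si_limit_ne (hfc _) ht (fun n => ((hy n).2.1 i).1) (fun n => ((hB n).1 i).2.1)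
  have hsd : ∀ i : Fin Sl.N, Sl.sd ⟪i⟫ l ≠ 0 := fun i =>
    si_limit_ne (hsdc _) ht (fun n => ((hy n).2.1 i).2.1) (fun n => ((hB n).1 i).2.2.1)
  have h0 : l ∈ Sl.reg0 := ⟨hl, hf⟩
  have hreg0 : Sl.reg0 ∈ 𝓝 l := Sl.s10g_isOpen_reg0.mem_nhds h0
  have hℓc : ∀ j : ℤ, ContinuousAt (Sl.ℓ j) l := fun j =>
    (Sl.s10g_ℓ_diff j).continuousOn.continuousAt hreg0
  have hℓ : ∀ i : Fin Sl.N, Sl.ℓ ⟪i⟫ l ≠ 0 := fun i =>
    si_limit_ne (hℓc _) ht (fun n => ((hy n).2.1 i).2.2) (fun n => ((hB n).1 i).2.2.2)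
  have h1 : l ∈ Sl.reg1 := ⟨hl, fun i => ⟨hf i, hsd i, hℓ i⟩⟩
  refine ⟨hl, fun i => ⟨hf i, hsd i, hℓ i⟩, fun I F hA => ?_⟩
  have hinv : ∀ j : ℤ, ContinuousAt (fun y => (Sl.ℓ j y)⁻¹) l := fun j =>
    (hℓc j).inv₀ (Sl.s10g_ℓ_ne h1 j)
  have hV : ∀ j : ℤ, ContinuousAt (Sl.V j) l := by
    intro j
    have e : Sl.V j = fun y => 2 * Sl.fj j y ^ 3 * ((Sl.Sh.G.c : ℂ)⁻¹ * (Sl.sd j y)⁻¹) := by
      funext y
      rw [Slice.V, div_eq_mul_inv, mul_inv]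
    rw [e]
    exact (continuousAt_const.mul ((hfc j).pow 3)).mul
      (continuousAt_const.mul ((hsdc j).inv₀ (Sl.s10g_sd_ne h1 j)))
  have hM₀ : ∀ i k : Fin Sl.N, ContinuousAt (fun y => Sl.M₀ y i k) l := by
    intro i k
    unfold Slice.M₀
    exact ((si_continuousAt_ite _ ((hinv _).add (hinv _))).add (si_continuousAt_ite _ (hinv _))).add
      (si_continuousAt_ite _ (hinv _))
  have hM : ContinuousAt (fun y => Sl.Bmat I F y) l := by
    refine continuousAt_pi.2 fun i => continuousAt_pi.2 fun k => ?_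
    unfold Slice.Bmat
    by_cases hc : i ∈ I ∪ F ∧ k ∈ I ∪ F
    · simp only [if_pos hc]
      exact (hM₀ i k).sub (si_continuousAt_ite _ (hV _))
    · simp only [if_neg hc]
      exact continuousAt_const
  have hdet : ContinuousAt (fun y => (Sl.Bmat I F y).det) l :=
    (continuous_id.matrix_det).continuousAt.comp hM
  exact si_limit_ne hdet ht (fun n => (hy n).2.2 I F hA) (fun n => (hB n).2 I F hA)

end Slice

end Claimed.Agent.R269
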