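/-
Row 269, P1 Section 10: THE DETERMINISTIC INTERFACE of the odd slice (owner: helper171, sub-captain secs 10-11).

Everything that the probabilistic part (S10/Walk.lean and later files, S11/Last*.lean) uses about the slice functions is stated here.
The statements are the EXPORTS of the blueprint packages
  BP-S10a  (P1 10.1: cyclic geometry, odd-cycle matrices, cofactor normalisation; sections A, C below),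
  BP-S10b  (P1 Theorem 10.3, SEQUENCE FORM: `boundary_contact`),
  BP-S10s  (shape-level inputs; section B below).
Their writers replace each `sorry` by a call of their own theorem (files S10/Geo*.lean, S10/Contact*.lean, S10/ShapeIn*.lean importing
S10/Defs.lean and S10/Reg.lean, never this file).
Sites are `i : Fin N`; `⟪i⟫ : ℤ` is the integer index used in S10/Defs.lean.
-/
import Claimed.Agent.R269.S10.Reg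
import Claimed.Agent.R269.S10.ShapeIn2
import Claimed.Agent.R269.S10.GeoNice
import Claimed.Agent.R269.S10.GeoCof
import Claimed.Agent.R269.S10.GeoRealBd
import Claimed.Agent.R269.S10.GeoDens
import Claimed.Agent.R269.S10.GeoRecon
import Claimed.Agent.R269.S10.ContactRet

set_option autoImplicit false
set_option linter.unusedSectionVars false
set_option linter.unusedVariables false

namespace Claimed.Agent.R269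

open Complex Metric Set Filter Topology
open scoped Real ENNReal

local notation "⟪" i "⟫" => ((Fin.val i : ℕ) : ℤ)

namespace Slice

/-- BP-S10a: a nice slice exists (`N` large). -/
theorem exists_nice (Sh : Shape) (hH : Sh.H ≠ ⊤) : ∃ Sl : Slice, Sl.Sh = Sh ∧ Sl.Nice :=
  s10g_exists_nice Sh hH

variable (Sl : Slice) (hS : Sl.Hyp)
include hS

/-! ## A. the regular set, analyticity, identities (BP-S10a) -/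

theorem h_pos : 0 < Sl.h :=
  Sl.s10g_h_pos

theorem H_pos : 0 < Sl.H :=
  Sl.s10g_H_pos

theorem isOpen_reg : IsOpen Sl.reg :=
  Sl.s10g_isOpen_reg

theorem real_mem_reg (x : ℝ) : (x : ℂ) ∈ Sl.reg :=
  hS.nice.s10g_real_mem_reg x

/-- the sites stay in the open shape strip -/
theorem δ_pos (j : ℤ) (y : ℂ) (hy : y ∈ Sl.strip) : 0 < Sl.δ j y :=
  Sl.s10g_δ_pos j hy

theorem s_diff (j : ℤ) : DifferentiableOn ℂ (Sl.s j) Sl.strip :=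
  Sl.s10g_s_diff j

theorem ψ_diff (j : ℤ) : DifferentiableOn ℂ (Sl.ψ j) Sl.strip :=
  Sl.s10g_ψ_diff j

theorem fj_diff (j : ℤ) : DifferentiableOn ℂ (Sl.fj j) Sl.strip :=
  Sl.s10g_fj_diff j

theorem sd_diff (j : ℤ) : DifferentiableOn ℂ (Sl.sd j) Sl.strip :=
  Sl.s10g_sd_diff j

theorem X_diff (i : Fin Sl.N) : DifferentiableOn ℂ (fun y => (Sl.X ⟪i⟫ y).1) Sl.reg ∧
    DifferentiableOn ℂ (fun y => (Sl.X ⟪i⟫ y).2) Sl.reg :=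
  ⟨fun y hy => (Sl.s10g_X_hasDerivAt₁ ⟪i⟫ (Sl.s10g_reg1_subset_reg0 (Sl.s10g_reg_subset_reg1 hy))).differentiableAt.differentiableWithinAt,
    fun y hy => (Sl.s10g_X_hasDerivAt₂ ⟪i⟫ (Sl.s10g_reg1_subset_reg0 (Sl.s10g_reg_subset_reg1 hy))).differentiableAt.differentiableWithinAt⟩

theorem ℓ_diff (i : Fin Sl.N) : DifferentiableOn ℂ (Sl.ℓ ⟪i⟫) Sl.reg :=
  (Sl.s10g_ℓ_diff ⟪i⟫).mono fun _ hy => Sl.s10g_reg1_subset_reg0 (Sl.s10g_reg_subset_reg1 hy)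

theorem Hs_diff (i : Fin Sl.N) : DifferentiableOn ℂ (Sl.Hs ⟪i⟫) Sl.reg :=
  fun y hy => (Sl.s10g_Hs_hasDerivAt ⟪i⟫ (Sl.s10g_reg1_subset_reg0 (Sl.s10g_reg_subset_reg1 hy))).differentiableAt.differentiableWithinAt

theorem detB_diff (I F : Finset (Fin Sl.N)) : DifferentiableOn ℂ (fun y => (Sl.Bmat I F y).det) Sl.reg :=
  (Sl.s10g_detB_diff I F).mono Sl.s10g_reg_subset_reg1

/-- `dψ_j = f_j ds_j` -/
theorem deriv_ψ (i : Fin Sl.N) (y : ℂ) (hy : y ∈ Sl.strip) : deriv (Sl.ψ ⟪i⟫) y = Sl.fj ⟪i⟫ y * Sl.s' ⟪i⟫ y :=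
  (Sl.s10g_ψ_hasDerivAt ⟪i⟫ hy).deriv

/-- `dX_j = c e_{ψ_j} f_j^{-2} ds_j` (10.7) -/
theorem deriv_X (i : Fin Sl.N) (y : ℂ) (hy : y ∈ Sl.reg) :
    deriv (fun y => (Sl.X ⟪i⟫ y).1) y = Sl.Sh.G.c * (evecC (Sl.ψ ⟪i⟫ y)).1 * (Sl.fj ⟪i⟫ y)⁻¹ ^ 2 * Sl.s' ⟪i⟫ y ∧
    deriv (fun y => (Sl.X ⟪i⟫ y).2) y = Sl.Sh.G.c * (evecC (Sl.ψ ⟪i⟫ y)).2 * (Sl.fj ⟪i⟫ y)⁻¹ ^ 2 * Sl.s' ⟪i⟫ y :=
  by
  have hy0 := Sl.s10g_reg1_subset_reg0 (Sl.s10g_reg_subset_reg1 hy)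
  rw [(Sl.s10g_X_hasDerivAt₁ ⟪i⟫ hy0).deriv, (Sl.s10g_X_hasDerivAt₂ ⟪i⟫ hy0).deriv]
  unfold Slice.vel
  constructor <;> ring

/-- `dH_j⁰ = (X_j · e_{ψ_j}) dψ_j` (10.7) -/
theorem deriv_Hs (i : Fin Sl.N) (y : ℂ) (hy : y ∈ Sl.reg) :
    deriv (Sl.Hs ⟪i⟫) y = dotC (Sl.X ⟪i⟫ y) (evecC (Sl.ψ ⟪i⟫ y)) * Sl.fj ⟪i⟫ y * Sl.s' ⟪i⟫ y :=
  (Sl.s10g_Hs_hasDerivAt ⟪i⟫ (Sl.s10g_reg1_subset_reg0 (Sl.s10g_reg_subset_reg1 hy))).deriv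

/-- `ℋ w = 0` (10.12) -/
theorem Hmat_w (y : ℂ) (hy : y ∈ Sl.reg) : (Sl.Hmat y).mulVec (fun i => Sl.w ⟪i⟫ y) = 0 :=
  Sl.s10g_Hmat_w (Sl.s10g_reg_subset_reg1 hy)

/-- `2 f_j s_j' = (M₀ w)_j` (10.12) -/
theorem M₀_w (y : ℂ) (hy : y ∈ Sl.reg) (i : Fin Sl.N) :
    2 * Sl.fj ⟪i⟫ y * Sl.s' ⟪i⟫ y = (Sl.M₀ y).mulVec (fun i => Sl.w ⟪i⟫ y) i :=
  Sl.s10g_M₀_w (Sl.s10g_reg_subset_reg1 hy) i

/-- **Cofactor normalisation** (Lemma 10.2), in modulus. -/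
theorem cofactor : ∃ cA : ℝ, 0 < cA ∧ ∀ y ∈ Sl.reg, ∀ i : Fin Sl.N,
    ‖Sl.w ⟪i⟫ y‖ ^ 2 = cA * (∏ j : Fin Sl.N, ‖Sl.ℓ ⟪j⟫ y‖) * ‖(Sl.Bmat (Finset.univ.erase i) ∅ y).det‖ :=
  by
  obtain ⟨cA, h0, h⟩ := hS.nice.s10g_cofactor
  exact ⟨cA, h0, fun y hy i => h y (Sl.s10g_reg_subset_reg1 hy) i⟩

/-- the edge angles are bounded by the normal angles -/
theorem θ_le : ∃ C : ℝ, 0 < C ∧ ∀ y ∈ Sl.strip, ∀ B : ℝ, (∀ i : Fin Sl.N, ‖Sl.ψ ⟪i⟫ y‖ ≤ B) →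
    ∀ i : Fin Sl.N, ‖Sl.θ ⟪i⟫ y‖ ≤ C * (1 + B) ∧ ‖Sl.d ⟪i⟫ y‖ ≤ C * (1 + B) :=
  Sl.s10g_θ_le

theorem s_add_N (j : ℤ) (y : ℂ) (hy : y ∈ Sl.strip) : Sl.s (j + Sl.N) y = Sl.s j y + 2 * π :=
  Sl.s10g_s_add_N j hy

theorem ψ_add_N (j : ℤ) (y : ℂ) (hy : y ∈ Sl.strip) : Sl.ψ (j + Sl.N) y = Sl.ψ j y + 2 * π :=
  Sl.s10g_ψ_add_N j hy

/-- imaginary parts of the edge angles -/
theorem im_d_le (y : ℂ) (hy : y ∈ Sl.strip) (B : ℝ) (h : ∀ i : Fin Sl.N, |(Sl.ψ ⟪i⟫ y).im| ≤ B) (i : Fin Sl.N) :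
    |(Sl.θ ⟪i⟫ y).im| ≤ Sl.N * B ∧ |(Sl.d ⟪i⟫ y).im| ≤ (Sl.N + 1) * B :=
  Sl.s10g_im_d_le hy B h i

/-- differences of the incidence angles (the `2π` shifts cancel) -/
theorem d_sub_le (y y' : ℂ) (hy : y ∈ Sl.strip) (hy' : y' ∈ Sl.strip) (ε : ℝ)
    (h : ∀ i : Fin Sl.N, ‖Sl.ψ ⟪i⟫ y - Sl.ψ ⟪i⟫ y'‖ ≤ ε) (i : Fin Sl.N) :
    ‖Sl.d ⟪i⟫ y - Sl.d ⟪i⟫ y'‖ ≤ (Sl.N + 1) * ε ∧ ‖Sl.θ ⟪i⟫ y - Sl.θ ⟪i⟫ y'‖ ≤ Sl.N * ε :=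
  Sl.s10g_d_sub_le hy hy' ε h i

/-- `ℓ_{j-1}` for the cyclic predecessor -/
theorem ℓ_pred (i : Fin Sl.N) (y : ℂ) (hy : y ∈ Sl.reg) : Sl.ℓ (⟪i⟫ - 1) y = Sl.ℓ ⟪i - 1⟫ y :=
  Sl.s10g_ℓ_pred i (Sl.s10g_reg1_subset_reg0 (Sl.s10g_reg_subset_reg1 hy))

/-- `X_{j+1}` for the cyclic successor -/
theorem X_succ (i : Fin Sl.N) (y : ℂ) (hy : y ∈ Sl.reg) : Sl.X (⟪i⟫ + 1) y = Sl.X ⟪i + 1⟫ y :=
  Sl.s10g_X_succ i (Sl.s10g_reg1_subset_reg0 (Sl.s10g_reg_subset_reg1 hy))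

/-- **Reconstruction** (10.8): positions from supports. -/
theorem reconstruction : ∃ C : ℝ, 0 < C ∧ ∀ y ∈ Sl.reg, ∀ B S : ℝ, 0 ≤ B →
    (∀ i : Fin Sl.N, ‖Sl.ψ ⟪i⟫ y‖ ≤ B ∧ |Real.log ‖Sl.sd ⟪i⟫ y‖| ≤ B) → (∀ i : Fin Sl.N, ‖Sl.Hs ⟪i⟫ y‖ ≤ S) →
    ∀ i : Fin Sl.N, ‖Sl.X ⟪i⟫ y‖ ≤ Real.exp (C * (1 + B)) * S :=
  by
  obtain ⟨C, h0, h⟩ := Sl.s10g_reconstruction
  exact ⟨C, h0, fun y hy => h y (Sl.s10g_reg_subset_reg1 hy)⟩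

/-- all observables are bounded on the real starting period -/
theorem real_bounds : ∃ C0 : ℝ, 0 < C0 ∧ ∀ x ∈ Icc (0 : ℝ) (2 * π), ∀ i : Fin Sl.N,
    ‖Sl.s ⟪i⟫ x‖ ≤ C0 ∧ (Sl.s ⟪i⟫ x).im = 0 ∧ ‖Sl.ψ ⟪i⟫ x‖ ≤ C0 ∧ ‖Sl.X ⟪i⟫ x‖ ≤ C0 ∧ |Sl.a ⟪i⟫ x| ≤ C0 ∧
    |Real.log ‖Sl.sd ⟪i⟫ x‖| ≤ C0 ∧ |Real.log ‖Sl.ℓ ⟪i⟫ x‖| ≤ C0 ∧
    ∀ I F : Finset (Fin Sl.N), Sl.Adm I F → |Real.log ‖(Sl.Bmat I F x).det‖| ≤ C0 :=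
  hS.nice.s10g_real_bounds

/-- the initial law of a site has bounded density (`x ↦ s_j(x)` is an increasing analytic circle diffeomorphism) -/
theorem start_density : ∃ C : ℝ, 0 < C ∧ ∀ (i : Fin Sl.N) (V : ℂ → ℝ), Continuous V → (∀ x : ℝ, 0 ≤ V x) →
    (∀ x : ℝ, V ((x : ℂ) + 2 * π) = V x) →
    ∫ x in (0 : ℝ)..(2 * π), V (Sl.s ⟪i⟫ x) ≤ C * ∫ x in (0 : ℝ)..(2 * π), V (x : ℂ) :=
  hS.nice.s10g_start_density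

/-- **Schwarz-Pick** for maps of a disc into a half plane: `r_y |s_j'| ≤ 2 δ_j`. -/
theorem schwarz_pick (j : ℤ) (y : ℂ) (hy : y ∈ Sl.strip) : Sl.ry y * ‖Sl.s' j y‖ ≤ 2 * Sl.δ j y :=
  Sl.s10g_schwarz_pick j hy

/-! ## B. shape-level inputs (BP-S10s) -/

/-- (10.21): `a_j ≤ k_j⁺ + C log(2 + k_j⁺) + C`. -/
theorem amplitude_upper : ∃ C : ℝ, 0 < C ∧ ∀ y ∈ Sl.strip, ∀ j : ℤ,
    Sl.a j y ≤ max (Sl.k j y) 0 + C * Real.log (2 + max (Sl.k j y) 0) + C :=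
  Sl.si_amplitude_upper hS.poly

/-- **The angle budget on rows** (replaces (10.17)): with `p = φ - id`, `m(η) = mean |p(x+iη)|²`, `m'' = 4 mean |f-1|²`, `m'(0) = 0`, so
`m(H - e^{-L}) ≤ m(0) + 4 ∫ δ mean|f-1|² dδ ≤ C + 8 ∫ (μ_f² + δ²) dk`. -/
theorem row_budget : ∃ C ρ L0 : ℝ, 0 < C ∧ 0 < ρ ∧ ρ < 1 ∧ ∀ L : ℝ, L0 ≤ L → ∀ σ : ℝ, (σ = 1 ∨ σ = -1) →
    ∫ x in (0 : ℝ)..(2 * π), ‖Sl.Sh.φ (⟨x, σ * (Sl.H - Real.exp (-L))⟩ : ℂ) - (⟨x, σ * (Sl.H - Real.exp (-L))⟩ : ℂ)‖ ^ 2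
      ≤ C * L ^ (2 * ρ) := by
  obtain ⟨ε, C, k₀, hε, hk1, hk₀, hb⟩ := hS.budget
  exact Sl.Sh.si_row_budget Sl.H_fin hε hk1 hk₀ hb

/-- bounds on compact substrips -/
theorem compact_bounds (L : ℝ) : ∃ C : ℝ, 0 < C ∧ ∀ s : ℂ, |s.im| ≤ Sl.H - Real.exp (-L) →
    ‖Sl.Sh.φ s - s‖ ≤ C ∧ ‖Sl.Sh.f s‖ ≤ C :=
  Sl.si_compact_bounds L

/-- the curve is bounded where `f` is not small -/
theorem compact_Γ (L B : ℝ) : ∃ C : ℝ, 0 < C ∧ ∀ s : ℂ, |s.im| ≤ Sl.H - Real.exp (-L) → Real.exp (-B) ≤ ‖Sl.Sh.f s‖ →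
    ‖Sl.Sh.Γ s‖ ≤ C :=
  Sl.si_compact_Γ L B

/-- a limit inside the phase strip of regular points with bounded observables is regular -/
theorem reg_closed (B : ℝ) (y : ℕ → ℂ) (l : ℂ) (hl : l ∈ Sl.strip) (hy : ∀ n, y n ∈ Sl.reg) (ht : Tendsto y atTop (𝓝 l))
    (hB : ∀ n, Sl.Bdd B (y n)) : l ∈ Sl.reg :=
  Sl.si_reg_closed B y l hl hy ht hB

/-! ## BP-S10b -/

/-- **Boundary contact (P1 Theorem 10.3), sequence form.**  No sequence of regular points converging to the boundary of the phase strip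
keeps all sites in a compact part of the shape strip and all observables bounded.
(Proof of P1: near the limiting tuple the cofactor identity gives a regular analytic ODE `s' = g(s)`; its solutions live on discs of a common
radius, so the slice extends across the boundary point; return map + steep sectors + disc filling give a joint patch, contradicting
`Shape.no_patch_X`.  No nontangential limits, no Fatou, no Privalov.) -/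
theorem boundary_contact (B : ℝ) (y : ℕ → ℂ) (l : ℂ) (hl : |l.im| = Sl.h) (hy : ∀ n, y n ∈ Sl.reg)
    (ht : Tendsto y atTop (𝓝 l)) (hB : ∀ n, Sl.Bdd B (y n)) : False := by
  exact Sl.s10b_boundary_contact hS B y l hl hy ht hB

end Slice

end Claimed.Agent.R269
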