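/-
Row 269, P1 Section 10.3: fine walks on the regular set of the slice, history cuts, "probability tending to one" (owner: helper171).

P1 runs planar Brownian motion in the phase strip.  We run a walk on circles `W` (Lib/WoC.lean) in the regular set `Sl.reg`, whose steps are
so small that every observable oscillates by at most `κ` on each step disc (`Fine`).  `κ` is chosen AFTER the level `L`.
  * "`n ≤ τ_L`"  is  `Alive (Sl.cutL W L) n ω`  (all current log depths were `< L` at the times `< n`);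
  * "with probability tending to one through `τ_L`"  is  `Sl.Rare E`, `E L W` = the BAD event.
RULES: the claimer of a package fills its `sorry`s IN PLACE (auxiliary lemmas above the statement, prefix `wlk_`); do not change
a statement without telling helper171; land every compiled state.  S10/Facts.lean and Lib/*.lean are black boxes.
-/
import Claimed.Agent.R269.S10.Facts
import Claimed.Agent.R269.Lib.WoC
import Claimed.Agent.R269.Lib.Cyl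

set_option autoImplicit false

namespace Claimed.Agent.R269

open Complex Metric Set Filter Topology Chn
open scoped Real ENNReal

local notation "⟪" i "⟫" => ((Fin.val i : ℕ) : ℤ)

namespace Slice

variable (Sl : Slice)

/-- `W` is a walk in the regular set all of whose observables oscillate by at most `κ` on each step disc. -/
structure Fine (W : Walk) (κ : ℝ) : Prop where
  dom : W.U = Sl.reg
  s : ∀ z ∈ Sl.reg, ∀ w ∈ closedBall z (W.r z), ∀ i : Fin Sl.N, ‖Sl.s ⟪i⟫ w - Sl.s ⟪i⟫ z‖ ≤ κ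
  ψ : ∀ z ∈ Sl.reg, ∀ w ∈ closedBall z (W.r z), ∀ i : Fin Sl.N, ‖Sl.ψ ⟪i⟫ w - Sl.ψ ⟪i⟫ z‖ ≤ κ
  k : ∀ z ∈ Sl.reg, ∀ w ∈ closedBall z (W.r z), ∀ i : Fin Sl.N, |Sl.k ⟪i⟫ w - Sl.k ⟪i⟫ z| ≤ κ
  up : ∀ z ∈ Sl.reg, ∀ w ∈ closedBall z (W.r z), ∀ i : Fin Sl.N,
    |Real.log (Sl.H - (Sl.s ⟪i⟫ w).im) - Real.log (Sl.H - (Sl.s ⟪i⟫ z).im)| ≤ κ
  dn : ∀ z ∈ Sl.reg, ∀ w ∈ closedBall z (W.r z), ∀ i : Fin Sl.N,
    |Real.log (Sl.H + (Sl.s ⟪i⟫ w).im) - Real.log (Sl.H + (Sl.s ⟪i⟫ z).im)| ≤ κ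
  a : ∀ z ∈ Sl.reg, ∀ w ∈ closedBall z (W.r z), ∀ i : Fin Sl.N, |Sl.a ⟪i⟫ w - Sl.a ⟪i⟫ z| ≤ κ
  sd : ∀ z ∈ Sl.reg, ∀ w ∈ closedBall z (W.r z), ∀ i : Fin Sl.N,
    |Real.log ‖Sl.sd ⟪i⟫ w‖ - Real.log ‖Sl.sd ⟪i⟫ z‖| ≤ κ
  ℓ : ∀ z ∈ Sl.reg, ∀ w ∈ closedBall z (W.r z), ∀ i : Fin Sl.N,
    |Real.log ‖Sl.ℓ ⟪i⟫ w‖ - Real.log ‖Sl.ℓ ⟪i⟫ z‖| ≤ κ
  X : ∀ z ∈ Sl.reg, ∀ w ∈ closedBall z (W.r z), ∀ i : Fin Sl.N,
    |Real.log (1 + ‖Sl.X ⟪i⟫ w‖) - Real.log (1 + ‖Sl.X ⟪i⟫ z‖)| ≤ κ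
  s' : ∀ z ∈ Sl.reg, ∀ w ∈ closedBall z (W.r z), ∀ i : Fin Sl.N,
    |Real.log ‖Sl.s' ⟪i⟫ w‖ - Real.log ‖Sl.s' ⟪i⟫ z‖| ≤ κ
  det : ∀ z ∈ Sl.reg, ∀ w ∈ closedBall z (W.r z), ∀ I F : Finset (Fin Sl.N), Sl.Adm I F →
    |Real.log ‖(Sl.Bmat I F w).det‖ - Real.log ‖(Sl.Bmat I F z).det‖| ≤ κ
  ry : ∀ z ∈ Sl.reg, ∀ w ∈ closedBall z (W.r z), |Real.log (Sl.ry w) - Real.log (Sl.ry z)| ≤ κ

/-- the cut "all current log depths are `< L`"; `Alive (Sl.cutL W L) n ω` means `n ≤ τ_L` -/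
def cutL (W : Walk) (L : ℝ) (m : ℕ) (ω : Om ℝ) : Prop := ∀ i : Fin Sl.N, Sl.k ⟪i⟫ (W.y m ω) < L

/-- `n ≤ τ_L` -/
def Upto (W : Walk) (L : ℝ) (n : ℕ) (ω : Om ℝ) : Prop := Alive (Sl.cutL W L) n ω

/-- the family of bad events `E L W` has probability tending to zero (`κ` chosen after `L`) -/
def Rare (E : ℝ → Walk → Set (Om ℝ)) : Prop :=
  ∀ ε : ℝ, 0 < ε → ∃ L0 : ℝ, ∀ L : ℝ, L0 ≤ L → ∃ κ0 : ℝ, 0 < κ0 ∧ ∀ W : Walk, Sl.Fine W κ0 → Pw (E L W) ≤ ε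

/-! ### LF-S10w-1: API -/

theorem Fine.mono {W : Walk} {κ κ' : ℝ} (h : Sl.Fine W κ) (hk : κ ≤ κ') : Sl.Fine W κ' := by
  exact ⟨h.dom, fun z hz w hw i => (h.s z hz w hw i).trans hk, fun z hz w hw i => (h.ψ z hz w hw i).trans hk,
    fun z hz w hw i => (h.k z hz w hw i).trans hk, fun z hz w hw i => (h.up z hz w hw i).trans hk,
    fun z hz w hw i => (h.dn z hz w hw i).trans hk, fun z hz w hw i => (h.a z hz w hw i).trans hk,
    fun z hz w hw i => (h.sd z hz w hw i).trans hk, fun z hz w hw i => (h.ℓ z hz w hw i).trans hk,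
    fun z hz w hw i => (h.X z hz w hw i).trans hk, fun z hz w hw i => (h.s' z hz w hw i).trans hk,
    fun z hz w hw I F hA => (h.det z hz w hw I F hA).trans hk, fun z hz w hw => (h.ry z hz w hw).trans hk⟩

theorem Rare.mono {E E' : ℝ → Walk → Set (Om ℝ)} (h : Sl.Rare E) (hE : ∀ L W, E' L W ⊆ E L W) : Sl.Rare E' := by
  intro ε hε
  obtain ⟨L0, h0⟩ := h ε hε
  refine ⟨L0, fun L hL => ?_⟩
  obtain ⟨κ0, hκ0, h1⟩ := h0 L hL
  exact ⟨κ0, hκ0, fun W hW => (MeasureTheory.measureReal_mono (hE L W)).trans (h1 W hW)⟩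

/-- eventually-in-`L` and small-`κ` inclusion suffices -/
theorem Rare.mono' {E E' : ℝ → Walk → Set (Om ℝ)} (h : Sl.Rare E)
    (hE : ∃ L0 : ℝ, ∀ L, L0 ≤ L → ∃ κ0 : ℝ, 0 < κ0 ∧ ∀ W, Sl.Fine W κ0 → E' L W ⊆ E L W) : Sl.Rare E' := by
  intro ε hε
  obtain ⟨L0, h0⟩ := h ε hε
  obtain ⟨L1, h1⟩ := hE
  refine ⟨max L0 L1, fun L hL => ?_⟩
  obtain ⟨κ0, hκ0, h2⟩ := h0 L ((le_max_left _ _).trans hL)
  obtain ⟨κ1, hκ1, h3⟩ := h1 L ((le_max_right _ _).trans hL)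
  refine ⟨min κ0 κ1, lt_min hκ0 hκ1, fun W hW => ?_⟩
  exact (MeasureTheory.measureReal_mono (h3 W (Fine.mono Sl hW (min_le_right _ _)))).trans
    (h2 W (Fine.mono Sl hW (min_le_left _ _)))

theorem Rare.union {E E' : ℝ → Walk → Set (Om ℝ)} (h : Sl.Rare E) (h' : Sl.Rare E') :
    Sl.Rare fun L W => E L W ∪ E' L W := by
  intro ε hε
  obtain ⟨L0, h0⟩ := h (ε / 2) (by positivity)
  obtain ⟨L1, h1⟩ := h' (ε / 2) (by positivity)
  refine ⟨max L0 L1, fun L hL => ?_⟩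
  obtain ⟨κ0, hκ0, h2⟩ := h0 L ((le_max_left _ _).trans hL)
  obtain ⟨κ1, hκ1, h3⟩ := h1 L ((le_max_right _ _).trans hL)
  refine ⟨min κ0 κ1, lt_min hκ0 hκ1, fun W hW => ?_⟩
  have a1 := h2 W (Fine.mono Sl hW (min_le_left _ _))
  have a2 := h3 W (Fine.mono Sl hW (min_le_right _ _))
  have a3 : Pw (E L W ∪ E' L W) ≤ Pw (E L W) + Pw (E' L W) := MeasureTheory.measureReal_union_le _ _
  linarith

theorem Rare.iUnion {ι : Type} [Fintype ι] {E : ι → ℝ → Walk → Set (Om ℝ)} (h : ∀ a, Sl.Rare (E a)) :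
    Sl.Rare fun L W => ⋃ a, E a L W := by
  classical
  have key : ∀ s : Finset ι, Sl.Rare fun L W => ⋃ a ∈ s, E a L W := by
    intro s
    induction s using Finset.induction_on with
    | empty =>
      intro ε hε
      refine ⟨0, fun L _ => ⟨1, one_pos, fun W _ => ?_⟩⟩
      simp only [Finset.notMem_empty, Set.iUnion_of_empty, Set.iUnion_empty, Pw, MeasureTheory.measureReal_empty]
      exact hε.le
    | insert a s _ ih =>
      refine Rare.mono Sl (Rare.union Sl (h a) ih) fun L W => ?_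
      simp only [Finset.mem_insert, Set.iUnion_iUnion_eq_or_left]
      exact subset_rfl
  refine Rare.mono Sl (key Finset.univ) fun L W => ?_
  simp

/-- change of level -/
theorem Rare.comp {E : ℝ → Walk → Set (Om ℝ)} (h : Sl.Rare E) (g : ℝ → ℝ) (hg : Tendsto g atTop atTop) :
    Sl.Rare fun L W => E (g L) W := by
  intro ε hε
  obtain ⟨L0, h0⟩ := h ε hε
  obtain ⟨L1, h1⟩ := Filter.eventually_atTop.mp (Filter.tendsto_atTop.mp hg L0)
  exact ⟨L1, fun L hL => h0 (g L) (h1 L hL)⟩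

/-- a bound `p L + (error that can be made small with κ)`, `p L → 0`, gives rarity -/
theorem rare_of_le {E : ℝ → Walk → Set (Om ℝ)} (p : ℝ → ℝ) (hp : Tendsto p atTop (𝓝 0))
    (h : ∃ L0 : ℝ, ∀ L, L0 ≤ L → ∃ κ0 : ℝ, 0 < κ0 ∧ ∀ W, Sl.Fine W κ0 → Pw (E L W) ≤ p L) : Sl.Rare E := by
  intro ε hε
  obtain ⟨L0, h0⟩ := h
  obtain ⟨L1, h1⟩ := Filter.eventually_atTop.mp (hp.eventually (gt_mem_nhds hε))
  refine ⟨max L0 L1, fun L hL => ?_⟩
  obtain ⟨κ0, hκ0, h2⟩ := h0 L ((le_max_left _ _).trans hL)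
  exact ⟨κ0, hκ0, fun W hW => (h2 W hW).trans (h1 L ((le_max_right _ _).trans hL)).le⟩

theorem wlk_reg_subset : Sl.reg ⊆ Sl.strip := fun _ hy => hy.1

theorem wlk_im_lt (hS : Sl.Hyp) (j : ℤ) (y : ℂ) (hy : y ∈ Sl.strip) : |(Sl.s j y).im| < Sl.H := by
  have := Sl.δ_pos hS j y hy
  unfold δ at this
  linarith

theorem wlk_s_cont (hS : Sl.Hyp) (j : ℤ) : ContinuousOn (Sl.s j) Sl.reg :=
  (Sl.s_diff hS j).continuousOn.mono Sl.wlk_reg_subset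

theorem wlk_k_cont (hS : Sl.Hyp) (i : Fin Sl.N) : ContinuousOn (Sl.k ⟪i⟫) Sl.reg := by
  unfold k δ
  refine ContinuousOn.neg (ContinuousOn.log ?_ fun y hy => ?_)
  · exact continuousOn_const.sub (Complex.continuous_im.comp_continuousOn (Sl.wlk_s_cont hS _)).abs
  · have := Sl.wlk_im_lt hS ⟪i⟫ y hy.1
    linarith

theorem cut_cutL (W : Walk) (hW : W.U = Sl.reg) (hS : Sl.Hyp) (L : ℝ) : Cut (Sl.cutL W L) := by
  have hP : ∀ i : Fin Sl.N, Proc fun n ω => Sl.k ⟪i⟫ (W.y n ω) := fun i =>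
    W.proc_comp (Sl.k ⟪i⟫) (by rw [hW]; exact Sl.wlk_k_cont hS i)
  refine ⟨fun n => ?_, fun n ω ω' h => ?_⟩
  · have : {ω | Sl.cutL W L n ω} = ⋂ i : Fin Sl.N, {ω | Sl.k ⟪i⟫ (W.y n ω) < L} := by
      ext ω
      simp [cutL]
    rw [this]
    exact MeasurableSet.iInter fun i => measurableSet_lt ((hP i).meas n) measurable_const
  · unfold cutL
    rw [W.y_reads n ω ω' h]

theorem Upto.mono {W : Walk} {L L' : ℝ} {n : ℕ} {ω : Om ℝ} (h : Sl.Upto W L n ω) (hL : L ≤ L') : Sl.Upto W L' n ω := by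
  exact fun m hm i => (h m hm i).trans_le hL

theorem Upto.of_le {W : Walk} {L : ℝ} {n m : ℕ} {ω : Om ℝ} (h : Sl.Upto W L n ω) (hm : m ≤ n) : Sl.Upto W L m ω := by
  exact fun k hk => h k (hk.trans_le hm)

theorem wlk_fine_nonneg (hS : Sl.Hyp) {W : Walk} {κ : ℝ} (hW : Sl.Fine W κ) : 0 ≤ κ := by
  have h0 : ((0 : ℝ) : ℂ) ∈ Sl.reg := Sl.real_mem_reg hS 0
  have := hW.ry _ h0 _ (mem_closedBall_self (W.nonneg _))
  simpa using this

/-- overshoot: at every time `n ≤ τ_L` the log depths are `< L + κ` (the start has depth `H`) -/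
theorem Upto.k_lt (hS : Sl.Hyp) {W : Walk} {κ L : ℝ} (hW : Sl.Fine W κ) (hL : -Real.log Sl.H < L) {n : ℕ} {ω : Om ℝ}
    (h : Sl.Upto W L n ω) (i : Fin Sl.N) : Sl.k ⟪i⟫ (W.y n ω) < L + κ := by
  have hκ := Sl.wlk_fine_nonneg hS hW
  cases n with
  | zero =>
    obtain ⟨x, -, hx⟩ := W.y_zero_mem ω
    rw [hx]
    have h1 : (Sl.s ⟪i⟫ (x : ℂ)).im = 0 := (hS.nice.real x ⟪i⟫).1
    have h2 : Sl.k ⟪i⟫ (x : ℂ) = -Real.log Sl.H := by
      unfold k δ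
      rw [h1, abs_zero, sub_zero]
    rw [h2]
    linarith
  | succ m =>
    have h1 := h m (Nat.lt_succ_self m) i
    have hm : W.y m ω ∈ Sl.reg := hW.dom ▸ W.y_mem m ω
    have h2 := hW.k _ hm _ (sphere_subset_closedBall (W.y_succ_mem m ω)) i
    have := (abs_le.mp h2).2
    linarith

/-- while `n < τ_L`, the whole step disc stays at log depth `< L + κ` -/
theorem Upto.disc (hS : Sl.Hyp) {W : Walk} {κ L : ℝ} (hW : Sl.Fine W κ) {n : ℕ} {ω : Om ℝ}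
    (h : Sl.Upto W L (n + 1) ω) (i : Fin Sl.N) (w : ℂ) (hw : w ∈ closedBall (W.y n ω) (W.rad n ω)) :
    Sl.k ⟪i⟫ w < L + κ := by
  have h1 := h n (Nat.lt_succ_self n) i
  have hm : W.y n ω ∈ Sl.reg := hW.dom ▸ W.y_mem n ω
  have h2 := hW.k _ hm _ hw i
  have := (abs_le.mp h2).2
  linarith

/-- the step radius is small compared with the phase depth -/
theorem Fine.rad_le (hS : Sl.Hyp) {W : Walk} {κ : ℝ} (hW : Sl.Fine W κ) (z : ℂ) (hz : z ∈ Sl.reg) :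
    W.r z ≤ κ * Sl.ry z := by
  have hκ := Sl.wlk_fine_nonneg hS hW
  set r := W.r z with hr
  have hr0 : 0 ≤ r := W.nonneg z
  set σ : ℝ := if 0 ≤ z.im then 1 else -1 with hσ
  have hσ1 : |σ| = 1 := by
    rw [hσ]; split_ifs <;> simp
  have hσz : σ * z.im = |z.im| := by
    rw [hσ]
    split_ifs with h0
    · rw [abs_of_nonneg h0, one_mul]
    · rw [abs_of_neg (not_le.mp h0)]; ring
  set w : ℂ := z + ((σ * r : ℝ) : ℂ) * Complex.I with hw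
  have hwb : w ∈ closedBall z r := by
    rw [mem_closedBall, dist_eq_norm, hw, add_sub_cancel_left, norm_mul, Complex.norm_I, mul_one, Complex.norm_real,
      Real.norm_eq_abs, abs_mul, hσ1, one_mul, abs_of_nonneg hr0]
  have hzU : z ∈ W.U := hW.dom ▸ hz
  have hwreg : w ∈ Sl.reg := hW.dom ▸ W.woc_closedBall_subset hzU hwb
  have him : w.im = z.im + σ * r := by simp [hw]
  have habs : |w.im| = |z.im| + r := by
    have e : w.im = σ * (|z.im| + r) := by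
      rw [him, ← hσz]
      have : σ * σ = 1 := by rw [← abs_mul_abs_self, hσ1]; norm_num
      linear_combination (-z.im) * this
    rw [e, abs_mul, hσ1, one_mul, abs_of_nonneg (by positivity)]
  have hryw : Sl.ry w = Sl.ry z - r := by unfold Slice.ry; rw [habs]; ring
  have hpw : 0 < Sl.ry w := by
    have : |w.im| < Sl.h := hwreg.1
    unfold Slice.ry; linarith
  have hpz : 0 < Sl.ry z := by
    have : |z.im| < Sl.h := hz.1
    unfold Slice.ry; linarith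
  have h1 := (abs_le.mp (hW.ry z hz w hwb)).1
  have h2 : Real.log (Sl.ry z) - κ ≤ Real.log (Sl.ry w) := by linarith
  have h3 : Sl.ry z * Real.exp (-κ) ≤ Sl.ry w := by
    have h5 := Real.exp_le_exp.mpr h2
    rw [Real.exp_sub, Real.exp_log hpz, Real.exp_log hpw] at h5
    rw [Real.exp_neg, ← div_eq_mul_inv]
    exact h5
  have h4 : 1 - κ ≤ Real.exp (-κ) := by
    have := Real.add_one_le_exp (-κ)
    linarith
  rw [hryw] at h3
  nlinarith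

/-- the geometry size oscillates by at most `4κ` -/
theorem Fine.geo (hS : Sl.Hyp) {W : Walk} {κ : ℝ} (hW : Sl.Fine W κ) (z : ℂ) (hz : z ∈ Sl.reg) (w : ℂ)
    (hw : w ∈ closedBall z (W.r z)) : |Sl.geo w - Sl.geo z| ≤ 4 * κ := by
  have h1 : ∀ i : Fin Sl.N, |Sl.geo1 ⟪i⟫ w - Sl.geo1 ⟪i⟫ z| ≤ 4 * κ := by
    intro i
    have a1 : |‖Sl.ψ ⟪i⟫ w‖ - ‖Sl.ψ ⟪i⟫ z‖| ≤ κ := (abs_norm_sub_norm_le _ _).trans (hW.ψ z hz w hw i)
    have a2 := hW.X z hz w hw i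
    have a3 : |(|Real.log ‖Sl.sd ⟪i⟫ w‖| - |Real.log ‖Sl.sd ⟪i⟫ z‖|)| ≤ κ :=
      (abs_abs_sub_abs_le _ _).trans (hW.sd z hz w hw i)
    have a4 : |(|Real.log ‖Sl.ℓ ⟪i⟫ w‖| - |Real.log ‖Sl.ℓ ⟪i⟫ z‖|)| ≤ κ :=
      (abs_abs_sub_abs_le _ _).trans (hW.ℓ z hz w hw i)
    unfold Slice.geo1
    rw [abs_le] at a1 a2 a3 a4 ⊢
    constructor <;> linarith [a1.1, a1.2, a2.1, a2.2, a3.1, a3.2, a4.1, a4.2]
  have hbw : BddAbove (Set.range fun i : Fin Sl.N => Sl.geo1 ⟪i⟫ w) := Set.finite_range _ |>.bddAbove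
  have hbz : BddAbove (Set.range fun i : Fin Sl.N => Sl.geo1 ⟪i⟫ z) := Set.finite_range _ |>.bddAbove
  unfold Slice.geo
  rw [abs_le]
  constructor
  · have : (⨆ i : Fin Sl.N, Sl.geo1 ⟪i⟫ z) ≤ (⨆ i : Fin Sl.N, Sl.geo1 ⟪i⟫ w) + 4 * κ := by
      refine ciSup_le fun i => ?_
      have := (abs_le.mp (h1 i)).1
      have := le_ciSup hbw i
      linarith
    linarith
  · have : (⨆ i : Fin Sl.N, Sl.geo1 ⟪i⟫ w) ≤ (⨆ i : Fin Sl.N, Sl.geo1 ⟪i⟫ z) + 4 * κ := by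
      refine ciSup_le fun i => ?_
      have := (abs_le.mp (h1 i)).2
      have := le_ciSup hbz i
      linarith
    linarith

/-- `s_j' ≠ 0` on the regular set (cofactor formula) -/
theorem s'_ne (hS : Sl.Hyp) (i : Fin Sl.N) (y : ℂ) (hy : y ∈ Sl.reg) : Sl.s' ⟪i⟫ y ≠ 0 := by
  obtain ⟨cA, hcA, hc⟩ := Sl.cofactor hS
  have h1 := hc y hy i
  have hadm : Sl.Adm (Finset.univ.erase i) ∅ :=
    ⟨fun h => by
      have := Finset.mem_univ i
      rw [← h] at this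
      exact (Finset.notMem_erase i _) this, Finset.disjoint_empty_right _⟩
  have h2 : 0 < ‖(Sl.Bmat (Finset.univ.erase i) ∅ y).det‖ := norm_pos_iff.mpr (hy.2.2 _ _ hadm)
  have h3 : 0 < ∏ j : Fin Sl.N, ‖Sl.ℓ ⟪j⟫ y‖ := Finset.prod_pos fun j _ => norm_pos_iff.mpr (hy.2.1 j).2.2
  have h4 : 0 < ‖Sl.w ⟪i⟫ y‖ ^ 2 := by rw [h1]; positivity
  intro h0
  have h5 : Sl.w ⟪i⟫ y = 0 := by unfold w; rw [h0, mul_zero]
  rw [h5] at h4
  simp at h4

/-! ### LF-S10w-2: fine walks exist -/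

theorem _root_.Claimed.Agent.R269.wlk_fst {α β : Type} [PseudoMetricSpace α] [PseudoMetricSpace β] {x y : α × β} {κ : ℝ}
    (h : dist x y ≤ κ) : dist x.1 y.1 ≤ κ := (le_max_left _ _).trans h

theorem _root_.Claimed.Agent.R269.wlk_snd {α β : Type} [PseudoMetricSpace α] [PseudoMetricSpace β] {x y : α × β} {κ : ℝ}
    (h : dist x y ≤ κ) : dist x.2 y.2 ≤ κ := (le_max_right _ _).trans h

theorem _root_.Claimed.Agent.R269.wlk_pi {ι α : Type} [Fintype ι] [PseudoMetricSpace α] {f g : ι → α} {κ : ℝ}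
    (h : dist f g ≤ κ) (i : ι) : dist (f i) (g i) ≤ κ := (dist_le_pi_dist f g i).trans h

theorem wlk_isOpen_strip : IsOpen Sl.strip :=
  isOpen_lt (continuous_abs.comp Complex.continuous_im) continuous_const

theorem wlk_ψ_cont (hS : Sl.Hyp) (j : ℤ) : ContinuousOn (Sl.ψ j) Sl.reg :=
  (Sl.ψ_diff hS j).continuousOn.mono Sl.wlk_reg_subset

theorem wlk_up_cont (hS : Sl.Hyp) (i : Fin Sl.N) :
    ContinuousOn (fun y => Real.log (Sl.H - (Sl.s ⟪i⟫ y).im)) Sl.reg := by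
  refine ContinuousOn.log ?_ fun y hy => ?_
  · exact continuousOn_const.sub (Complex.continuous_im.comp_continuousOn (Sl.wlk_s_cont hS _))
  · have := (abs_lt.mp (Sl.wlk_im_lt hS ⟪i⟫ y hy.1)).2
    linarith

theorem wlk_dn_cont (hS : Sl.Hyp) (i : Fin Sl.N) :
    ContinuousOn (fun y => Real.log (Sl.H + (Sl.s ⟪i⟫ y).im)) Sl.reg := by
  refine ContinuousOn.log ?_ fun y hy => ?_
  · exact continuousOn_const.add (Complex.continuous_im.comp_continuousOn (Sl.wlk_s_cont hS _))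
  · have := (abs_lt.mp (Sl.wlk_im_lt hS ⟪i⟫ y hy.1)).1
    linarith

theorem wlk_a_cont (hS : Sl.Hyp) (i : Fin Sl.N) : ContinuousOn (Sl.a ⟪i⟫) Sl.reg := by
  unfold a
  exact ((Sl.fj_diff hS _).continuousOn.mono Sl.wlk_reg_subset).norm.log fun y hy =>
    norm_ne_zero_iff.mpr (hy.2.1 i).1

theorem wlk_sd_cont (hS : Sl.Hyp) (i : Fin Sl.N) : ContinuousOn (fun y => Real.log ‖Sl.sd ⟪i⟫ y‖) Sl.reg :=
  ((Sl.sd_diff hS _).continuousOn.mono Sl.wlk_reg_subset).norm.log fun y hy =>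
    norm_ne_zero_iff.mpr (hy.2.1 i).2.1

theorem wlk_ℓ_cont (hS : Sl.Hyp) (i : Fin Sl.N) : ContinuousOn (fun y => Real.log ‖Sl.ℓ ⟪i⟫ y‖) Sl.reg :=
  (Sl.ℓ_diff hS i).continuousOn.norm.log fun y hy => norm_ne_zero_iff.mpr (hy.2.1 i).2.2

theorem wlk_X_cont (hS : Sl.Hyp) (i : Fin Sl.N) : ContinuousOn (fun y => Real.log (1 + ‖Sl.X ⟪i⟫ y‖)) Sl.reg := by
  have h1 : ContinuousOn (fun y => Sl.X ⟪i⟫ y) Sl.reg :=
    (Sl.X_diff hS i).1.continuousOn.prodMk (Sl.X_diff hS i).2.continuousOn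
  have h2 : ContinuousOn (fun y => 1 + ‖Sl.X ⟪i⟫ y‖) Sl.reg := continuousOn_const.add h1.norm
  exact h2.log fun y _ => (by positivity : (0 : ℝ) < 1 + ‖Sl.X ⟪i⟫ y‖).ne'

theorem wlk_s'_cont (hS : Sl.Hyp) (i : Fin Sl.N) : ContinuousOn (fun y => Real.log ‖Sl.s' ⟪i⟫ y‖) Sl.reg := by
  have h1 : ContinuousOn (Sl.s' ⟪i⟫) Sl.reg :=
    (((Sl.s_diff hS ⟪i⟫).deriv Sl.wlk_isOpen_strip).continuousOn).mono Sl.wlk_reg_subset
  exact h1.norm.log fun y hy => norm_ne_zero_iff.mpr (Sl.s'_ne hS i y hy)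

theorem wlk_det_cont (hS : Sl.Hyp) (I F : Finset (Fin Sl.N)) (hA : Sl.Adm I F) :
    ContinuousOn (fun y => Real.log ‖(Sl.Bmat I F y).det‖) Sl.reg :=
  (Sl.detB_diff hS I F).continuousOn.norm.log fun y hy => norm_ne_zero_iff.mpr (hy.2.2 I F hA)

theorem wlk_ry_cont : ContinuousOn (fun y => Real.log (Sl.ry y)) Sl.reg := by
  unfold ry
  refine ContinuousOn.log ?_ fun y hy => ?_
  · exact (continuous_const.sub (continuous_abs.comp Complex.continuous_im)).continuousOn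
  · have : |y.im| < Sl.h := hy.1
    linarith

set_option maxRecDepth 4000 in
/-- all observables are continuous on the regular set; `exists_walk` (Lib/WoC.lean) with the tuple of all observables -/
theorem exists_fine (hS : Sl.Hyp) (κ : ℝ) (hκ : 0 < κ) : ∃ W : Walk, Sl.Fine W κ := by
  classical
  set F : ℂ → (Fin Sl.N → ℂ) × (Fin Sl.N → ℂ) × (Fin Sl.N → ℝ) × (Fin Sl.N → ℝ) × (Fin Sl.N → ℝ) × (Fin Sl.N → ℝ) ×
      (Fin Sl.N → ℝ) × (Fin Sl.N → ℝ) × (Fin Sl.N → ℝ) × (Fin Sl.N → ℝ) ×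
      (Finset (Fin Sl.N) × Finset (Fin Sl.N) → ℝ) × ℝ := fun y =>
    (fun i => Sl.s ⟪i⟫ y, fun i => Sl.ψ ⟪i⟫ y, fun i => Sl.k ⟪i⟫ y, fun i => Real.log (Sl.H - (Sl.s ⟪i⟫ y).im),
      fun i => Real.log (Sl.H + (Sl.s ⟪i⟫ y).im), fun i => Sl.a ⟪i⟫ y, fun i => Real.log ‖Sl.sd ⟪i⟫ y‖,
      fun i => Real.log ‖Sl.ℓ ⟪i⟫ y‖, fun i => Real.log (1 + ‖Sl.X ⟪i⟫ y‖), fun i => Real.log ‖Sl.s' ⟪i⟫ y‖,
      fun p => if Sl.Adm p.1 p.2 then Real.log ‖(Sl.Bmat p.1 p.2 y).det‖ else 0, Real.log (Sl.ry y)) with hF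
  have hFc : ContinuousOn F Sl.reg := by
    refine (continuousOn_pi.mpr fun i => Sl.wlk_s_cont hS _).prodMk <|
      (continuousOn_pi.mpr fun i => Sl.wlk_ψ_cont hS _).prodMk <|
      (continuousOn_pi.mpr fun i => Sl.wlk_k_cont hS i).prodMk <|
      (continuousOn_pi.mpr fun i => Sl.wlk_up_cont hS i).prodMk <|
      (continuousOn_pi.mpr fun i => Sl.wlk_dn_cont hS i).prodMk <|
      (continuousOn_pi.mpr fun i => Sl.wlk_a_cont hS i).prodMk <|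
      (continuousOn_pi.mpr fun i => Sl.wlk_sd_cont hS i).prodMk <|
      (continuousOn_pi.mpr fun i => Sl.wlk_ℓ_cont hS i).prodMk <|
      (continuousOn_pi.mpr fun i => Sl.wlk_X_cont hS i).prodMk <|
      (continuousOn_pi.mpr fun i => Sl.wlk_s'_cont hS i).prodMk <|
      (continuousOn_pi.mpr fun p => ?_).prodMk (Sl.wlk_ry_cont)
    by_cases hA : Sl.Adm p.1 p.2
    · simp only [if_pos hA]
      exact Sl.wlk_det_cont hS p.1 p.2 hA
    · simp only [if_neg hA]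
      exact continuousOn_const
  obtain ⟨W, hWU, hW⟩ := exists_walk Sl.reg (Sl.isOpen_reg hS) (Sl.real_mem_reg hS) F hFc κ hκ
  have e1 : ∀ a b : ℂ, ‖a - b‖ = dist a b := fun a b => (dist_eq_norm a b).symm
  have e2 : ∀ a b : ℝ, |a - b| = dist a b := fun a b => (Real.dist_eq a b).symm
  refine ⟨W, hWU, fun z hz w hw i => ?_, fun z hz w hw i => ?_, fun z hz w hw i => ?_, fun z hz w hw i => ?_,
    fun z hz w hw i => ?_, fun z hz w hw i => ?_, fun z hz w hw i => ?_, fun z hz w hw i => ?_,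
    fun z hz w hw i => ?_, fun z hz w hw i => ?_, fun z hz w hw I F' hA => ?_, fun z hz w hw => ?_⟩
  · rw [e1]; exact wlk_pi (wlk_fst (hW z hz w hw)) i
  · rw [e1]; exact wlk_pi (wlk_fst (wlk_snd (hW z hz w hw))) i
  · rw [e2]; exact wlk_pi (wlk_fst (wlk_snd (wlk_snd (hW z hz w hw)))) i
  · rw [e2]; exact wlk_pi (wlk_fst (wlk_snd (wlk_snd (wlk_snd (hW z hz w hw))))) i
  · rw [e2]; exact wlk_pi (wlk_fst (wlk_snd (wlk_snd (wlk_snd (wlk_snd (hW z hz w hw)))))) i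
  · rw [e2]; exact wlk_pi (wlk_fst (wlk_snd (wlk_snd (wlk_snd (wlk_snd (wlk_snd (hW z hz w hw))))))) i
  · rw [e2]; exact wlk_pi (wlk_fst (wlk_snd (wlk_snd (wlk_snd (wlk_snd (wlk_snd (wlk_snd (hW z hz w hw)))))))) i
  · rw [e2]
    exact wlk_pi (wlk_fst (wlk_snd (wlk_snd (wlk_snd (wlk_snd (wlk_snd (wlk_snd (wlk_snd (hW z hz w hw))))))))) i
  · rw [e2]
    exact wlk_pi (wlk_fst (wlk_snd (wlk_snd (wlk_snd (wlk_snd (wlk_snd (wlk_snd (wlk_snd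
      (wlk_snd (hW z hz w hw)))))))))) i
  · rw [e2]
    exact wlk_pi (wlk_fst (wlk_snd (wlk_snd (wlk_snd (wlk_snd (wlk_snd (wlk_snd (wlk_snd
      (wlk_snd (wlk_snd (hW z hz w hw))))))))))) i
  · have h := wlk_pi (wlk_fst (wlk_snd (wlk_snd (wlk_snd (wlk_snd (wlk_snd (wlk_snd (wlk_snd
      (wlk_snd (wlk_snd (wlk_snd (hW z hz w hw)))))))))))) (I, F')
    rw [e2]
    have e3 : ∀ y, (if Sl.Adm (I, F').1 (I, F').2 then Real.log ‖(Sl.Bmat (I, F').1 (I, F').2 y).det‖ else 0)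
        = Real.log ‖(Sl.Bmat I F' y).det‖ := fun y => if_pos hA
    rw [← e3 w, ← e3 z]
    exact h
  · rw [e2]
    exact wlk_snd (wlk_snd (wlk_snd (wlk_snd (wlk_snd (wlk_snd (wlk_snd (wlk_snd
      (wlk_snd (wlk_snd (wlk_snd (hW z hz w hw)))))))))))

end Slice

end Claimed.Agent.R269
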