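/-
Row 269, P1 Section 10.3: termination (`τ_L < ∞` a.s.), Lemma 10.4 (shape clocks, angles, retreat), Lemma 10.6 (modified inverses).
Owner: helper171.  DISCRETE VERSION: see the header of S10/Walk.lean.  Black boxes: S10/Facts.lean, S10/Walk.lean, Lib/*.lean.
RULES: the claimer of a package puts its proofs in the file named in the package description (or IN PLACE if he owns the section);
do not change a statement without telling helper171; land every compiled state.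
-/
import Claimed.Agent.R269.S10.Walk
import Claimed.Agent.R269.Lib.Elim

set_option autoImplicit false

namespace Claimed.Agent.R269

open Complex Metric Set Filter Topology Chn MeasureTheory
open scoped Real ENNReal

local notation "⟪" i "⟫" => ((Fin.val i : ℕ) : ℤ)

namespace Slice

variable (Sl : Slice) (hS : Sl.Hyp)
include hS

/-! ### auxiliary pointwise bounds -/

omit hS in
theorem _root_.Claimed.Agent.R269.clk_norm_le_exp {z : ℂ} (hz : z ≠ 0) {B : ℝ} (h : Real.log ‖z‖ ≤ B) : ‖z‖ ≤ Real.exp B := by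
  rw [← Real.exp_log (norm_pos_iff.mpr hz)]
  exact Real.exp_le_exp.mpr h

omit hS in
theorem _root_.Claimed.Agent.R269.clk_inv_le_exp {z : ℂ} (hz : z ≠ 0) {B : ℝ} (h : -B ≤ Real.log ‖z‖) : ‖z⁻¹‖ ≤ Real.exp B := by
  rw [norm_inv, ← Real.exp_log (norm_pos_iff.mpr hz), ← Real.exp_neg]
  exact Real.exp_le_exp.mpr (by linarith)

theorem clk_M₀_le (y : ℂ) (hy : y ∈ Sl.reg) (E : ℝ) (hℓ : ∀ i : Fin Sl.N, ‖(Sl.ℓ ⟪i⟫ y)⁻¹‖ ≤ E) (i k : Fin Sl.N) :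
    ‖Sl.M₀ y i k‖ ≤ 4 * E := by
  have hE : 0 ≤ E := (norm_nonneg _).trans (hℓ i)
  unfold M₀
  rw [Sl.ℓ_pred hS i y hy]
  have h1 : ‖(if i = k then (Sl.ℓ ⟪i⟫ y)⁻¹ + (Sl.ℓ ⟪i - 1⟫ y)⁻¹ else 0)‖ ≤ 2 * E := by
    split_ifs
    · exact (norm_add_le _ _).trans (by linarith [hℓ i, hℓ (i - 1)])
    · simpa using hE
  have h2 : ‖(if k = i + 1 then (Sl.ℓ ⟪i⟫ y)⁻¹ else 0)‖ ≤ E := by
    split_ifs
    · exact hℓ i
    · simpa using hE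
  have h3 : ‖(if i = k + 1 then (Sl.ℓ ⟪k⟫ y)⁻¹ else 0)‖ ≤ E := by
    split_ifs
    · exact hℓ k
    · simpa using hE
  refine (norm_add_le _ _).trans ?_
  refine (add_le_add (norm_add_le _ _) le_rfl).trans ?_
  linarith

theorem clk_Bmat_le (I F : Finset (Fin Sl.N)) (y : ℂ) (hy : y ∈ Sl.reg) (E A : ℝ) (hA : 0 ≤ A)
    (hℓ : ∀ i : Fin Sl.N, ‖(Sl.ℓ ⟪i⟫ y)⁻¹‖ ≤ E) (hV : ∀ i ∈ I, ‖Sl.V ⟪i⟫ y‖ ≤ A) (i k : Fin Sl.N) :
    ‖Sl.Bmat I F y i k‖ ≤ 4 * E + A + 1 := by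
  have hE : 0 ≤ E := (norm_nonneg _).trans (hℓ i)
  unfold Bmat
  split_ifs with h1 h2 h3
  · exact (norm_sub_le _ _).trans (by linarith [Sl.clk_M₀_le hS y hy E hℓ i k, hV i h2.2])
  · rw [sub_zero]
    linarith [Sl.clk_M₀_le hS y hy E hℓ i k]
  · rw [norm_one]
    linarith
  · rw [norm_zero]
    linarith

omit hS in
theorem clk_V_le (j : ℤ) (y : ℂ) (a S : ℝ) (hf : ‖Sl.fj j y‖ ≤ Real.exp a) (hs : ‖(Sl.sd j y)⁻¹‖ ≤ Real.exp S) :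
    ‖Sl.V j y‖ ≤ 2 * Sl.Sh.G.c⁻¹ * Real.exp (3 * a + S) := by
  have hc := Sl.Sh.G.c_pos
  unfold V
  rw [div_eq_mul_inv, mul_inv, norm_mul, norm_mul, norm_mul, norm_pow, norm_inv, Complex.norm_real, Real.norm_eq_abs,
    abs_of_pos hc, Real.exp_add]
  have e : Real.exp (3 * a) = Real.exp a ^ 3 := by rw [← Real.exp_nat_mul]; norm_num
  rw [e]
  have h1 : ‖Sl.fj j y‖ ^ 3 ≤ Real.exp a ^ 3 := pow_le_pow_left₀ (norm_nonneg _) hf 3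
  have h2 : ‖Sl.fj j y‖ ^ 3 * ‖(Sl.sd j y)⁻¹‖ ≤ Real.exp a ^ 3 * Real.exp S :=
    mul_le_mul h1 hs (norm_nonneg _) (by positivity)
  have h3 : 0 < Sl.Sh.G.c⁻¹ := inv_pos.mpr hc
  calc ‖(2 : ℂ)‖ * ‖Sl.fj j y‖ ^ 3 * (Sl.Sh.G.c⁻¹ * ‖(Sl.sd j y)⁻¹‖)
      = 2 * Sl.Sh.G.c⁻¹ * (‖Sl.fj j y‖ ^ 3 * ‖(Sl.sd j y)⁻¹‖) := by
        rw [show ‖(2 : ℂ)‖ = 2 by simp]; ring
    _ ≤ 2 * Sl.Sh.G.c⁻¹ * (Real.exp a ^ 3 * Real.exp S) := mul_le_mul_of_nonneg_left h2 (by positivity)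

theorem clk_det_adj (I F : Finset (Fin Sl.N)) (y : ℂ) (hy : y ∈ Sl.reg) (E A : ℝ) (hA : 0 ≤ A)
    (hℓ : ∀ i : Fin Sl.N, ‖(Sl.ℓ ⟪i⟫ y)⁻¹‖ ≤ E) (hV : ∀ i ∈ I, ‖Sl.V ⟪i⟫ y‖ ≤ A) :
    ‖(Sl.Bmat I F y).det‖ ≤ Sl.N.factorial * (4 * E + A + 1) ^ Sl.N ∧
    ∀ i k, ‖(Sl.Bmat I F y).adjugate i k‖ ≤ Sl.N.factorial * (4 * E + A + 1) ^ Sl.N := by
  have i0 : Fin Sl.N := 0
  have hE : 0 ≤ E := (norm_nonneg _).trans (hℓ i0)
  have := det_adj_le (Sl.Bmat I F y) (4 * E + A + 1) (by linarith) (Sl.clk_Bmat_le hS I F y hy E A hA hℓ hV)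
  rwa [Fintype.card_fin] at this

omit hS in
theorem clk_geo1_le (y : ℂ) (i : Fin Sl.N) : Sl.geo1 ⟪i⟫ y ≤ Sl.geo y :=
  le_ciSup (f := fun i : Fin Sl.N => Sl.geo1 ⟪i⟫ y) (Set.finite_range _).bddAbove i

/-- log depth `< L` means `|Im s_j| < H - e^{-L}` -/
theorem clk_im_of_k (j : ℤ) (y : ℂ) (hy : y ∈ Sl.strip) (L : ℝ) (h : Sl.k j y < L) :
    |(Sl.s j y).im| < Sl.H - Real.exp (-L) := by
  have hδ := Sl.δ_pos hS j y hy
  unfold k at h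
  have h1 : -L < Real.log (Sl.δ j y) := by linarith
  have h2 := (Real.lt_log_iff_exp_lt hδ).mp h1
  unfold δ at h2
  linarith

omit hS in
theorem clk_mem_estrip (z : ℂ) (h : |z.im| < Sl.H) : z ∈ estrip Sl.Sh.G.Hs :=
  (ENNReal.ofReal_lt_iff_lt_toReal (abs_nonneg _) Sl.H_fin).mpr h

omit hS in
theorem _root_.Claimed.Agent.R269.clk_isOpen_estrip (H : ℝ≥0∞) : IsOpen (estrip H) :=
  isOpen_lt (ENNReal.continuous_ofReal.comp (continuous_abs.comp Complex.continuous_im)) continuous_const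

/-! ### LF-S10c-1: termination -/

omit hS in
theorem _root_.Claimed.Agent.R269.clk_norm_sin_le (z : ℂ) : ‖Complex.sin z‖ ≤ Real.exp |z.im| := by
  have h1 : ‖Complex.exp (-z * Complex.I)‖ ≤ Real.exp |z.im| := by
    rw [Complex.norm_exp]
    refine Real.exp_le_exp.mpr ?_
    simp only [Complex.mul_re, Complex.neg_re, Complex.I_re, mul_zero, Complex.neg_im, Complex.I_im, mul_one, zero_sub,
      neg_neg]
    exact le_abs_self _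
  have h2 : ‖Complex.exp (z * Complex.I)‖ ≤ Real.exp |z.im| := by
    rw [Complex.norm_exp]
    refine Real.exp_le_exp.mpr ?_
    simp only [Complex.mul_re, Complex.I_re, mul_zero, Complex.I_im, mul_one, zero_sub]
    exact neg_le_abs _
  unfold Complex.sin
  rw [norm_div, norm_mul, Complex.norm_I, mul_one, show ‖(2 : ℂ)‖ = 2 by simp]
  have := norm_sub_le (Complex.exp (-z * Complex.I)) (Complex.exp (z * Complex.I))
  rw [div_le_iff₀ (by norm_num)]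
  linarith

omit hS in
theorem _root_.Claimed.Agent.R269.clk_norm_cos_le (z : ℂ) : ‖Complex.cos z‖ ≤ Real.exp |z.im| := by
  have h1 : ‖Complex.exp (-z * Complex.I)‖ ≤ Real.exp |z.im| := by
    rw [Complex.norm_exp]
    refine Real.exp_le_exp.mpr ?_
    simp only [Complex.mul_re, Complex.neg_re, Complex.I_re, mul_zero, Complex.neg_im, Complex.I_im, mul_one, zero_sub,
      neg_neg]
    exact le_abs_self _
  have h2 : ‖Complex.exp (z * Complex.I)‖ ≤ Real.exp |z.im| := by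
    rw [Complex.norm_exp]
    refine Real.exp_le_exp.mpr ?_
    simp only [Complex.mul_re, Complex.I_re, mul_zero, Complex.I_im, mul_one, zero_sub]
    exact neg_le_abs _
  unfold Complex.cos
  rw [norm_div, show ‖(2 : ℂ)‖ = 2 by simp]
  have := norm_add_le (Complex.exp (z * Complex.I)) (Complex.exp (-z * Complex.I))
  rw [div_le_iff₀ (by norm_num)]
  linarith

omit hS in
theorem _root_.Claimed.Agent.R269.clk_unif_bound {ι : Type} [Finite ι] (P : ι → ℝ → Prop) (hmono : ∀ i B B', B ≤ B' → P i B → P i B')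
    (h : ∀ i, ∃ B, P i B) : ∃ B, ∀ i, P i B := by
  choose B hB using h
  obtain ⟨M, hM⟩ := (Set.finite_range B).bddAbove
  exact ⟨M, fun i => hmono i _ _ (hM ⟨i, rfl⟩) (hB i)⟩

/-- along the walk, `log |g|` bounded above implies bounded, almost surely -/
theorem clk_bdd_of_above (W : Walk) (κ : ℝ) (hW : Sl.Fine W κ) (g : ℂ → ℂ) (hg : DifferentiableOn ℂ g Sl.reg)
    (h0 : ∀ z ∈ Sl.reg, g z ≠ 0)
    (hosc : ∀ z ∈ Sl.reg, ∀ w ∈ closedBall z (W.r z), |Real.log ‖g w‖ - Real.log ‖g z‖| ≤ κ) :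
    ∀ᵐ ω ∂(Pr unif), (∃ B0 : ℝ, ∀ n, Real.log ‖g (W.y n ω)‖ ≤ B0) → ∃ B : ℝ, ∀ n, |Real.log ‖g (W.y n ω)‖| ≤ B := by
  have hκ := Sl.wlk_fine_nonneg hS hW
  have hgU : DifferentiableOn ℂ g W.U := by rw [hW.dom]; exact hg
  have h0U : ∀ z ∈ W.U, g z ≠ 0 := fun z hz => h0 z (hW.dom ▸ hz)
  obtain ⟨hu, hs⟩ := W.mart_log g hgU h0U
  have key : ∀ N : ℕ, ∀ᵐ ω ∂(Pr unif), ¬ ((∀ _n : ℕ, True) ∧ (∀ n, Real.log ‖g (W.y n ω)‖ ≤ (N : ℝ)) ∧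
      ¬ BddBelow (range fun n => Real.log ‖g (W.y n ω)‖)) := by
    intro N
    have := bddBelow_of_bddAbove unif (fun _ _ => True) woc_cut_true (fun n ω => Real.log ‖g (W.y n ω)‖) hu
      (fun n ω _ => (hs n ω).ge) κ N hκ (fun n ω _ => by
        have h1 := hosc _ (hW.dom ▸ W.y_mem n ω) _ (sphere_subset_closedBall (W.y_succ_mem n ω))
        have := (abs_le.mp h1).2
        linarith)
    rw [ae_iff]
    simpa only [not_not] using this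
  filter_upwards [ae_all_iff.mpr key] with ω hω
  rintro ⟨B0, hB0⟩
  have h1 := hω ⌈B0⌉₊
  have h2 : BddBelow (range fun n => Real.log ‖g (W.y n ω)‖) := by
    by_contra hcon
    exact h1 ⟨fun _ => trivial, fun n => (hB0 n).trans (Nat.le_ceil _), hcon⟩
  obtain ⟨b, hb⟩ := h2
  refine ⟨max B0 (-b), fun n => abs_le.mpr ⟨?_, (hB0 n).trans (le_max_left _ _)⟩⟩
  have h3 : b ≤ Real.log ‖g (W.y n ω)‖ := hb ⟨n, rfl⟩
  have h4 := le_max_right B0 (-b)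
  linarith

/-- On the event `τ_L = ∞` all observables stay bounded, almost surely.
ORDER: `a_i ≤ C_L` (`compact_bounds`) ⇒ `a_i` bounded below (`bddBelow_of_bddAbove`, martingale `mart_log`);
`|Im ψ_i| ≤ C_L` ⇒ `log|sd_i| ≤ C_L'` (`θ_le` is not enough: use `ψ = s + (φ - id)(s)`, imaginary parts only) ⇒ bounded below;
for each integer `B`: on `a_i ≥ -B`: `|X_i| ≤ C` (`compact_Γ`) ⇒ `log|ℓ_i| ≤ C` ⇒ bounded below (cut: `cutL ∧ a_i ≥ -B`);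
for each integer `B`: on `|a|,|log sd|,|log ℓ| ≤ B`: the entries of `Bmat` are bounded ⇒ `log|det| ≤ C` ⇒ bounded below. -/
theorem term_bdd (W : Walk) (κ : ℝ) (hW : Sl.Fine W κ) (L : ℝ) :
    ∀ᵐ ω ∂(Pr unif), (∀ n, Sl.cutL W L n ω) → ∃ B : ℝ, ∀ n, Sl.Bdd B (W.y n ω) := by
  have hA : ∀ i : Fin Sl.N, ∀ᵐ ω ∂(Pr unif), (∃ B0 : ℝ, ∀ n, Real.log ‖Sl.fj ⟪i⟫ (W.y n ω)‖ ≤ B0) →
      ∃ B : ℝ, ∀ n, |Real.log ‖Sl.fj ⟪i⟫ (W.y n ω)‖| ≤ B := fun i =>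
    Sl.clk_bdd_of_above hS W κ hW (Sl.fj ⟪i⟫) ((Sl.fj_diff hS _).mono Sl.wlk_reg_subset) (fun z hz => (hz.2.1 i).1)
      (fun z hz w hw => hW.a z hz w hw i)
  have hSd : ∀ i : Fin Sl.N, ∀ᵐ ω ∂(Pr unif), (∃ B0 : ℝ, ∀ n, Real.log ‖Sl.sd ⟪i⟫ (W.y n ω)‖ ≤ B0) →
      ∃ B : ℝ, ∀ n, |Real.log ‖Sl.sd ⟪i⟫ (W.y n ω)‖| ≤ B := fun i =>
    Sl.clk_bdd_of_above hS W κ hW (Sl.sd ⟪i⟫) ((Sl.sd_diff hS _).mono Sl.wlk_reg_subset) (fun z hz => (hz.2.1 i).2.1)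
      (fun z hz w hw => hW.sd z hz w hw i)
  have hEl : ∀ i : Fin Sl.N, ∀ᵐ ω ∂(Pr unif), (∃ B0 : ℝ, ∀ n, Real.log ‖Sl.ℓ ⟪i⟫ (W.y n ω)‖ ≤ B0) →
      ∃ B : ℝ, ∀ n, |Real.log ‖Sl.ℓ ⟪i⟫ (W.y n ω)‖| ≤ B := fun i =>
    Sl.clk_bdd_of_above hS W κ hW (Sl.ℓ ⟪i⟫) (Sl.ℓ_diff hS i) (fun z hz => (hz.2.1 i).2.2)
      (fun z hz w hw => hW.ℓ z hz w hw i)
  have hDet : ∀ p : Finset (Fin Sl.N) × Finset (Fin Sl.N), ∀ᵐ ω ∂(Pr unif), Sl.Adm p.1 p.2 →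
      (∃ B0 : ℝ, ∀ n, Real.log ‖(Sl.Bmat p.1 p.2 (W.y n ω)).det‖ ≤ B0) →
      ∃ B : ℝ, ∀ n, |Real.log ‖(Sl.Bmat p.1 p.2 (W.y n ω)).det‖| ≤ B := by
    intro p
    by_cases hp : Sl.Adm p.1 p.2
    · filter_upwards [Sl.clk_bdd_of_above hS W κ hW (fun y => (Sl.Bmat p.1 p.2 y).det) (Sl.detB_diff hS p.1 p.2)
        (fun z hz => hz.2.2 _ _ hp) (fun z hz w hw => hW.det z hz w hw _ _ hp)] with ω h _
      exact h
    · exact Filter.Eventually.of_forall fun ω h => absurd h hp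
  filter_upwards [ae_all_iff.mpr hA, ae_all_iff.mpr hSd, ae_all_iff.mpr hEl, ae_all_iff.mpr hDet] with ω a1 a2 a3 a4 hcut
  obtain ⟨C1, hC1, hcb⟩ := Sl.compact_bounds hS L
  have hH := Sl.H_pos hS
  have hreg : ∀ n, W.y n ω ∈ Sl.reg := fun n => hW.dom ▸ W.y_mem n ω
  have him : ∀ n (i : Fin Sl.N), |(Sl.s ⟪i⟫ (W.y n ω)).im| ≤ Sl.H - Real.exp (-L) := fun n i =>
    (Sl.clk_im_of_k hS _ _ (hreg n).1 L (hcut n i)).le
  -- amplitudes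
  obtain ⟨Ba, hBa⟩ : ∃ B, ∀ i : Fin Sl.N, ∀ n, |Real.log ‖Sl.fj ⟪i⟫ (W.y n ω)‖| ≤ B :=
    clk_unif_bound (fun (i : Fin Sl.N) B => ∀ n, |Real.log ‖Sl.fj ⟪i⟫ (W.y n ω)‖| ≤ B)
      (fun i B B' h h1 n => (h1 n).trans h)
      (fun i => a1 i ⟨Real.log C1, fun n =>
        Real.log_le_log (norm_pos_iff.mpr ((hreg n).2.1 i).1) (hcb _ (him n i)).2⟩)
  -- incidence angles
  have hψ : ∀ n (i : Fin Sl.N), |(Sl.ψ ⟪i⟫ (W.y n ω)).im| ≤ Sl.H + C1 := by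
    intro n i
    have h1 := (hcb _ (him n i)).1
    have h2 : |(Sl.Sh.φ (Sl.s ⟪i⟫ (W.y n ω)) - Sl.s ⟪i⟫ (W.y n ω)).im| ≤ C1 := (Complex.abs_im_le_norm _).trans h1
    have h3 : (Sl.ψ ⟪i⟫ (W.y n ω)).im =
        (Sl.Sh.φ (Sl.s ⟪i⟫ (W.y n ω)) - Sl.s ⟪i⟫ (W.y n ω)).im + (Sl.s ⟪i⟫ (W.y n ω)).im := by
      unfold ψ; simp
    rw [h3]
    have h4 := him n i
    have h5 := Real.exp_pos (-L)
    exact (abs_add_le _ _).trans (by linarith)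
  have hd := fun n i => Sl.im_d_le hS _ (hreg n).1 (Sl.H + C1) (hψ n) i
  obtain ⟨Bs, hBs⟩ : ∃ B, ∀ i : Fin Sl.N, ∀ n, |Real.log ‖Sl.sd ⟪i⟫ (W.y n ω)‖| ≤ B :=
    clk_unif_bound (fun (i : Fin Sl.N) B => ∀ n, |Real.log ‖Sl.sd ⟪i⟫ (W.y n ω)‖| ≤ B)
      (fun i B B' h h1 n => (h1 n).trans h)
      (fun i => a2 i ⟨(Sl.N + 1) * (Sl.H + C1), fun n => by
        rw [Real.log_le_iff_le_exp (norm_pos_iff.mpr ((hreg n).2.1 i).2.1)]
        exact (clk_norm_sin_le _).trans (Real.exp_le_exp.mpr (hd n i).2)⟩)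
  -- positions and chords
  obtain ⟨C2, hC2, hΓ⟩ := Sl.compact_Γ hS L Ba
  have hX : ∀ n (i : Fin Sl.N), ‖Sl.X ⟪i⟫ (W.y n ω)‖ ≤ C2 := fun n i => hΓ _ (him n i) (by
    have h1 := (abs_le.mp (hBa i n)).1
    have h2 := Real.exp_le_exp.mpr h1
    rwa [Real.exp_log (norm_pos_iff.mpr ((hreg n).2.1 i).1)] at h2)
  have hℓb : ∀ n (i : Fin Sl.N), ‖Sl.ℓ ⟪i⟫ (W.y n ω)‖ ≤ 4 * C2 * Real.exp (Sl.N * (Sl.H + C1)) := by
    intro n i
    unfold ℓ dotC evecC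
    rw [Sl.X_succ hS i _ (hreg n)]
    set D := Sl.X ⟪i + 1⟫ (W.y n ω) - Sl.X ⟪i⟫ (W.y n ω) with hD
    have hDn : ‖D‖ ≤ 2 * C2 := (norm_sub_le _ _).trans (by linarith [hX n (i + 1), hX n i])
    have e := Real.exp_le_exp.mpr (hd n i).1
    calc ‖D.1 * -Complex.sin (Sl.θ ⟪i⟫ (W.y n ω)) + D.2 * Complex.cos (Sl.θ ⟪i⟫ (W.y n ω))‖
        ≤ ‖D.1‖ * ‖Complex.sin (Sl.θ ⟪i⟫ (W.y n ω))‖ + ‖D.2‖ * ‖Complex.cos (Sl.θ ⟪i⟫ (W.y n ω))‖ := by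
          refine (norm_add_le _ _).trans ?_
          rw [norm_mul, norm_mul, norm_neg]
      _ ≤ 2 * C2 * Real.exp (Sl.N * (Sl.H + C1)) + 2 * C2 * Real.exp (Sl.N * (Sl.H + C1)) :=
          add_le_add
            (mul_le_mul ((norm_fst_le D).trans hDn) ((clk_norm_sin_le _).trans e) (norm_nonneg _) (by positivity))
            (mul_le_mul ((norm_snd_le D).trans hDn) ((clk_norm_cos_le _).trans e) (norm_nonneg _) (by positivity))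
      _ = _ := by ring
  obtain ⟨Bl, hBl⟩ : ∃ B, ∀ i : Fin Sl.N, ∀ n, |Real.log ‖Sl.ℓ ⟪i⟫ (W.y n ω)‖| ≤ B :=
    clk_unif_bound (fun (i : Fin Sl.N) B => ∀ n, |Real.log ‖Sl.ℓ ⟪i⟫ (W.y n ω)‖| ≤ B)
      (fun i B B' h h1 n => (h1 n).trans h)
      (fun i => a3 i ⟨Real.log (4 * C2 * Real.exp (Sl.N * (Sl.H + C1))), fun n =>
        Real.log_le_log (norm_pos_iff.mpr ((hreg n).2.1 i).2.2) (hℓb n i)⟩)
  -- determinants
  have hci : 0 < Sl.Sh.G.c⁻¹ := inv_pos.mpr Sl.Sh.G.c_pos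
  obtain ⟨Bd, hBd⟩ : ∃ B, ∀ p : Finset (Fin Sl.N) × Finset (Fin Sl.N), Sl.Adm p.1 p.2 →
      ∀ n, |Real.log ‖(Sl.Bmat p.1 p.2 (W.y n ω)).det‖| ≤ B :=
    clk_unif_bound (fun (p : Finset (Fin Sl.N) × Finset (Fin Sl.N)) B => Sl.Adm p.1 p.2 →
        ∀ n, |Real.log ‖(Sl.Bmat p.1 p.2 (W.y n ω)).det‖| ≤ B)
      (fun p B B' h h1 hp n => (h1 hp n).trans h)
      (fun p => by
        by_cases hp : Sl.Adm p.1 p.2
        · obtain ⟨B, hB⟩ := a4 p hp ⟨Real.log (Sl.N.factorial *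
            (4 * Real.exp Bl + 2 * Sl.Sh.G.c⁻¹ * Real.exp (3 * Ba + Bs) + 1) ^ Sl.N), fun n =>
            Real.log_le_log (norm_pos_iff.mpr ((hreg n).2.2 _ _ hp))
              (Sl.clk_det_adj hS p.1 p.2 _ (hreg n) _ _ (by positivity)
                (fun i => clk_inv_le_exp ((hreg n).2.1 i).2.2 (abs_le.mp (hBl i n)).1)
                (fun i _ => Sl.clk_V_le ⟪i⟫ _ Ba Bs (clk_norm_le_exp ((hreg n).2.1 i).1 (abs_le.mp (hBa i n)).2)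
                  (clk_inv_le_exp ((hreg n).2.1 i).2.1 (abs_le.mp (hBs i n)).1))).1⟩
          exact ⟨B, fun _ => hB⟩
        · exact ⟨0, fun h => absurd h hp⟩)
  refine ⟨max L (max Ba (max Bs (max Bl Bd))), fun n => ⟨fun i => ⟨?_, ?_, ?_, ?_⟩, fun I F hIF => ?_⟩⟩
  · exact (hcut n i).le.trans (le_max_left _ _)
  · exact (hBa i n).trans ((le_max_left _ _).trans (le_max_right _ _))
  · exact (hBs i n).trans ((le_max_left _ _).trans ((le_max_right _ _).trans (le_max_right _ _)))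
  · exact (hBl i n).trans ((le_max_left _ _).trans ((le_max_right _ _).trans ((le_max_right _ _).trans
      (le_max_right _ _))))
  · exact (hBd (I, F) hIF n).trans ((le_max_right _ _).trans ((le_max_right _ _).trans ((le_max_right _ _).trans
      (le_max_right _ _))))

/-- **Termination**: every history level is reached almost surely.
(`Walk.tendsto_boundary`: `y_n → l ∉ reg`; `term_bdd`; `reg_closed` excludes `l ∈ strip`; `boundary_contact` excludes `|Im l| = h`.) -/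
theorem term (W : Walk) (κ : ℝ) (hW : Sl.Fine W κ) (L : ℝ) : Pw {ω | ∀ n, Sl.cutL W L n ω} = 0 := by
  have hU : ∀ z ∈ W.U, |z.im| < Sl.h := fun z hz => by
    have h1 : z ∈ Sl.reg := hW.dom ▸ hz
    exact Sl.wlk_reg_subset h1
  have key : ∀ᵐ ω ∂(Pr unif), ¬ ∀ n, Sl.cutL W L n ω := by
    filter_upwards [Sl.term_bdd hS W κ hW L, W.tendsto_boundary Sl.h hU] with ω h1 h2 hcut
    obtain ⟨B, hB⟩ := h1 hcut
    obtain ⟨l, hl, hlU⟩ := h2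
    have hreg : ∀ n, W.y n ω ∈ Sl.reg := fun n => hW.dom ▸ W.y_mem n ω
    have hle : |l.im| ≤ Sl.h := by
      have ht : Tendsto (fun n => |(W.y n ω).im|) atTop (𝓝 |l.im|) :=
        ((Complex.continuous_im.tendsto l).comp hl).abs
      exact le_of_tendsto' ht fun n => (hU _ (W.y_mem n ω)).le
    rcases hle.lt_or_eq with hlt | heq
    · exact hlU (hW.dom ▸ Sl.reg_closed hS B _ l hlt hreg hl hB)
    · exact Sl.boundary_contact hS B _ l heq hreg hl hB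
  have h0 : (Pr unif) {ω | ∀ n, Sl.cutL W L n ω} = 0 := by
    have := ae_iff.mp key
    simpa only [not_not] using this
  unfold Pw
  rw [measureReal_def, h0]
  rfl

/-! ### LF-S10c-2: clocks of the sites (Lemma 10.4 (i), (iii), (iv)) -/

/-- the shape clock of the site `i` at time `m` -/
noncomputable def qs (W : Walk) (i : Fin Sl.N) (m : ℕ) (ω : Om ℝ) : ℝ := W.qv (Sl.s ⟪i⟫) (W.y m ω)

omit hS in
/-- the phase clock at time `m`: `r(y_m)²` -/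
noncomputable def qy (_Sl : Slice) (W : Walk) (m : ℕ) (ω : Om ℝ) : ℝ := W.rad m ω ^ 2

omit hS in
theorem clk_mem_reg {W : Walk} {κ : ℝ} (hW : Sl.Fine W κ) {z : ℂ} (hz : z ∈ W.U) : z ∈ Sl.reg := hW.dom ▸ hz

theorem clk_s_diff {W : Walk} {κ : ℝ} (hW : Sl.Fine W κ) (i : Fin Sl.N) : DifferentiableOn ℂ (Sl.s ⟪i⟫) W.U := by
  rw [hW.dom]
  exact (Sl.s_diff hS _).mono Sl.wlk_reg_subset

omit hS in
theorem _root_.Claimed.Agent.R269.Chn.Walk.clk_qv_neg (W : Walk) (g : ℂ → ℂ) (z : ℂ) :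
    W.qv (fun w => -g w) z = W.qv g z := by
  unfold Walk.qv
  congr 1
  funext w
  rw [neg_sub_neg, norm_sub_rev]

omit hS in
/-- a logarithmic oscillation `≤ 1/2` is a factor `≤ 2` -/
theorem _root_.Claimed.Agent.R269.clk_le_two_mul {a b κ : ℝ} (ha : 0 < a) (hb : 0 < b) (hκ : κ ≤ 1 / 2)
    (h : |Real.log a - Real.log b| ≤ κ) : a ≤ 2 * b := by
  have h1 : Real.log a ≤ Real.log b + 1 / 2 := by
    have := (abs_le.mp h).2
    linarith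
  have h2 := Real.exp_le_exp.mpr h1
  rw [Real.exp_add, Real.exp_log ha, Real.exp_log hb] at h2
  have h3 : Real.exp (1 / 2) ≤ 2 := by
    have h4 : Real.exp (1 / 2) ^ 2 = Real.exp 1 := by
      rw [← Real.exp_nat_mul]; norm_num
    have h5 := Real.exp_one_lt_d9
    have h6 := Real.exp_pos (1 / 2)
    nlinarith
  calc a ≤ b * Real.exp (1 / 2) := h2
    _ ≤ b * 2 := mul_le_mul_of_nonneg_left h3 hb.le
    _ = 2 * b := by ring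

/-- total shape clocks (`Walk.total_clock`) -/
theorem shape_clock (W : Walk) (κ : ℝ) (hW : Sl.Fine W κ) (i : Fin Sl.N) (lam : ℝ) (hl : 0 < lam) :
    Pw {ω | ∃ n, lam < ∑ m ∈ Finset.range n, Sl.qs W i m ω} ≤ 2 * Sl.H ^ 2 / lam := by
  exact W.total_clock (Sl.s ⟪i⟫) (Sl.clk_s_diff hS hW i) Sl.H
    (fun z hz => (Sl.wlk_im_lt hS _ z (Sl.wlk_reg_subset (hW.dom ▸ hz))).le) lam hl

/-- `|s_i'|² r² ≤ qs ≤ e^{2κ} |s_i'|² r²` -/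
theorem qs_bounds (W : Walk) (κ : ℝ) (hW : Sl.Fine W κ) (i : Fin Sl.N) (m : ℕ) (ω : Om ℝ) :
    ‖Sl.s' ⟪i⟫ (W.y m ω)‖ ^ 2 * Sl.qy W m ω ≤ Sl.qs W i m ω ∧
    Sl.qs W i m ω ≤ Real.exp (2 * κ) * (‖Sl.s' ⟪i⟫ (W.y m ω)‖ ^ 2 * Sl.qy W m ω) := by
  have hz : W.y m ω ∈ W.U := W.y_mem m ω
  have hzr : W.y m ω ∈ Sl.reg := Sl.clk_mem_reg hW hz
  refine ⟨W.qv_ge (Sl.s ⟪i⟫) (Sl.clk_s_diff hS hW i) _ hz, ?_⟩
  have h1 := W.qv_le (Sl.s ⟪i⟫) (Sl.clk_s_diff hS hW i) _ hz (Real.exp κ * ‖Sl.s' ⟪i⟫ (W.y m ω)‖) (fun w hw => by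
    have hwr : w ∈ Sl.reg := Sl.clk_mem_reg hW (W.woc_closedBall_subset hz hw)
    have h2 := (abs_le.mp (hW.s' _ hzr w hw i)).2
    have p1 : 0 < ‖Sl.s' ⟪i⟫ w‖ := norm_pos_iff.mpr (Sl.s'_ne hS i w hwr)
    have p2 : 0 < ‖Sl.s' ⟪i⟫ (W.y m ω)‖ := norm_pos_iff.mpr (Sl.s'_ne hS i _ hzr)
    have h3 : Real.log ‖Sl.s' ⟪i⟫ w‖ ≤ κ + Real.log ‖Sl.s' ⟪i⟫ (W.y m ω)‖ := by linarith
    have h4 := Real.exp_le_exp.mpr h3
    rw [Real.exp_add, Real.exp_log p1, Real.exp_log p2] at h4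
    exact h4)
  have e : Real.exp (2 * κ) = Real.exp κ ^ 2 := by rw [← Real.exp_nat_mul]; norm_num
  unfold qs qy Walk.rad
  rw [e]
  calc W.qv (Sl.s ⟪i⟫) (W.y m ω) ≤ (Real.exp κ * ‖Sl.s' ⟪i⟫ (W.y m ω)‖) ^ 2 * W.r (W.y m ω) ^ 2 := h1
    _ = _ := by ring

/-- **(iii) remaining shape clock** after a visit at depth `≤ d` (`Walk.wall_clock` at both walls) -/
theorem shape_remaining (W : Walk) (κ : ℝ) (hκ : κ ≤ 1 / 2) (hW : Sl.Fine W κ) (i : Fin Sl.N) (d T : ℝ) (hd : 0 ≤ d)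
    (hT : 0 < T) :
    Pw {ω | ∃ m n, m ≤ n ∧ Sl.δ ⟪i⟫ (W.y m ω) ≤ d ∧ T < ∑ l ∈ Finset.Ico m n, Sl.qs W i l ω} ≤ 10 * d / Real.sqrt T := by
  have hd1 := Sl.clk_s_diff hS hW i
  have hpos : ∀ z ∈ W.U, 0 < Sl.H - (Sl.s ⟪i⟫ z).im ∧ 0 < Sl.H + (Sl.s ⟪i⟫ z).im := by
    intro z hz
    have := abs_lt.mp (Sl.wlk_im_lt hS ⟪i⟫ z (Sl.wlk_reg_subset (Sl.clk_mem_reg hW hz)))
    constructor <;> linarith [this.1, this.2]
  have h1 := W.wall_clock (Sl.s ⟪i⟫) hd1 Sl.H (fun z hz => by linarith [(hpos z hz).1])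
    (fun z hz w hw => clk_le_two_mul (hpos w (W.woc_closedBall_subset hz hw)).1 (hpos z hz).1 hκ
      (hW.up z (Sl.clk_mem_reg hW hz) w hw i)) d T hd hT
  have h2 := W.wall_clock (fun z => -Sl.s ⟪i⟫ z) hd1.neg Sl.H
    (fun z hz => by simp only [Complex.neg_im]; linarith [(hpos z hz).2])
    (fun z hz w hw => by
      simp only [Complex.neg_im, sub_neg_eq_add]
      exact clk_le_two_mul (hpos w (W.woc_closedBall_subset hz hw)).2 (hpos z hz).2 hκ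
        (hW.dn z (Sl.clk_mem_reg hW hz) w hw i)) d T hd hT
  simp only [W.clk_qv_neg, Complex.neg_im, sub_neg_eq_add] at h2
  have hsub : {ω | ∃ m n, m ≤ n ∧ Sl.δ ⟪i⟫ (W.y m ω) ≤ d ∧ T < ∑ l ∈ Finset.Ico m n, Sl.qs W i l ω}
      ⊆ {ω | ∃ m n, m ≤ n ∧ Sl.H - (Sl.s ⟪i⟫ (W.y m ω)).im ≤ d ∧
          T < ∑ l ∈ Finset.Ico m n, W.qv (Sl.s ⟪i⟫) (W.y l ω)}
        ∪ {ω | ∃ m n, m ≤ n ∧ Sl.H + (Sl.s ⟪i⟫ (W.y m ω)).im ≤ d ∧
          T < ∑ l ∈ Finset.Ico m n, W.qv (Sl.s ⟪i⟫) (W.y l ω)} := by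
    rintro ω ⟨m, n, hmn, h3, h4⟩
    unfold δ at h3
    rcases abs_cases (Sl.s ⟪i⟫ (W.y m ω)).im with ⟨h5, _⟩ | ⟨h5, _⟩
    · left
      exact ⟨m, n, hmn, by rw [h5] at h3; exact h3, h4⟩
    · right
      exact ⟨m, n, hmn, by rw [h5] at h3; linarith, h4⟩
  have h3 := (measureReal_mono hsub).trans (measureReal_union_le (μ := Pr unif) _ _)
  have e : 10 * d / Real.sqrt T = 5 * d / Real.sqrt T + 5 * d / Real.sqrt T := by ring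
  rw [e]
  exact h3.trans (add_le_add h1 h2)

/-- remaining phase clock after a visit at phase depth `≤ d` (`Walk.wall_clock` for `g = id`; `qv id = r²`) -/
theorem phase_remaining (W : Walk) (κ : ℝ) (hκ : κ ≤ 1 / 2) (hW : Sl.Fine W κ) (d T : ℝ) (hd : 0 ≤ d) (hT : 0 < T) :
    Pw {ω | ∃ m n, m ≤ n ∧ Sl.ry (W.y m ω) ≤ d ∧ T < ∑ l ∈ Finset.Ico m n, Sl.qy W l ω} ≤ 10 * d / Real.sqrt T := by
  have hid : DifferentiableOn ℂ (fun z : ℂ => z) W.U := differentiableOn_id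
  have hpos : ∀ z ∈ W.U, |z.im| < Sl.h := fun z hz => (Sl.clk_mem_reg hW hz).1
  have hκ0 := Sl.wlk_fine_nonneg hS hW
  have hstep : ∀ z ∈ W.U, ∀ w ∈ closedBall z (W.r z), |w.im - z.im| ≤ 1 / 2 * (Sl.h - |z.im|) := by
    intro z hz w hw
    have h1 := Fine.rad_le Sl hS hW z (Sl.clk_mem_reg hW hz)
    have h2 : |w.im - z.im| ≤ W.r z := by
      have := Complex.abs_im_le_norm (w - z)
      rw [Complex.sub_im] at this
      exact this.trans (by rwa [mem_closedBall, dist_eq_norm] at hw)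
    have h3 : 0 < Sl.ry z := by unfold ry; linarith [hpos z hz]
    have h4 : κ * Sl.ry z ≤ 1 / 2 * Sl.ry z := mul_le_mul_of_nonneg_right hκ h3.le
    unfold ry at h1 h4
    linarith
  have h1 := W.wall_clock (fun z => z) hid Sl.h (fun z hz => (abs_lt.mp (hpos z hz)).2)
    (fun z hz w hw => by
      have a1 := (abs_le.mp (hstep z hz w hw)).1
      have a2 := le_abs_self z.im
      have a3 := hpos z hz
      linarith) d T hd hT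
  have h2 := W.wall_clock (fun z => -z) hid.neg Sl.h
    (fun z hz => by simp only [Complex.neg_im]; linarith [(abs_lt.mp (hpos z hz)).1])
    (fun z hz w hw => by
      have a1 := (abs_le.mp (hstep z hz w hw)).2
      have a2 := neg_abs_le z.im
      have a3 := hpos z hz
      simp only [Complex.neg_im]
      linarith) d T hd hT
  simp only [W.clk_qv_neg (fun z => z), Complex.neg_im, sub_neg_eq_add, W.woc_qv_id] at h1 h2
  have hsub : {ω | ∃ m n, m ≤ n ∧ Sl.ry (W.y m ω) ≤ d ∧ T < ∑ l ∈ Finset.Ico m n, Sl.qy W l ω}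
      ⊆ {ω | ∃ m n, m ≤ n ∧ Sl.h - (W.y m ω).im ≤ d ∧ T < ∑ l ∈ Finset.Ico m n, W.r (W.y l ω) ^ 2}
        ∪ {ω | ∃ m n, m ≤ n ∧ Sl.h + (W.y m ω).im ≤ d ∧ T < ∑ l ∈ Finset.Ico m n, W.r (W.y l ω) ^ 2} := by
    rintro ω ⟨m, n, hmn, h3, h4⟩
    unfold ry at h3
    rcases abs_cases (W.y m ω).im with ⟨h5, _⟩ | ⟨h5, _⟩
    · left
      exact ⟨m, n, hmn, by rw [h5] at h3; exact h3, h4⟩
    · right
      exact ⟨m, n, hmn, by rw [h5] at h3; linarith, h4⟩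
  have h3 := (measureReal_mono hsub).trans (measureReal_union_le (μ := Pr unif) _ _)
  have e : 10 * d / Real.sqrt T = 5 * d / Real.sqrt T + 5 * d / Real.sqrt T := by ring
  rw [e]
  exact h3.trans (add_le_add h1 h2)

/-- **(iv) retreat**: `k_i(n) ≥ K_i(n) - 3 log L` through `τ_L`.
(For each integer level `m ∈ [-log H - 1, L + 1]`, each site and each wall: `Walk.wall_retreat` with `d = e^{-m}`, `lam = L² e^{-m}`;
`O(L)` events of probability `L^{-2}`.) -/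
theorem retreat : Sl.Rare fun L W => {ω | ∃ m n, m ≤ n ∧ Sl.Upto W L n ω ∧ ∃ i : Fin Sl.N,
    Sl.k ⟪i⟫ (W.y n ω) < Sl.k ⟪i⟫ (W.y m ω) - 3 * Real.log L} := by
  have hH := Sl.H_pos hS
  set c : ℝ := Real.log Sl.H + 4 with hc
  refine Sl.rare_of_le (fun L => 2 * Sl.N * (L⁻¹ + c * L⁻¹ ^ 2)) ?_
    ⟨max 3 (-Real.log Sl.H + 1), fun L hL => ⟨1, one_pos, fun W hW => ?_⟩⟩
  · have h1 : Tendsto (fun L : ℝ => L⁻¹) atTop (𝓝 0) := tendsto_inv_atTop_zero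
    have h2 := ((h1.add ((h1.pow 2).const_mul c)).const_mul (2 * (Sl.N : ℝ)))
    simpa using h2
  have hL3 : 3 ≤ L := (le_max_left _ _).trans hL
  have hLH : -Real.log Sl.H < L := by
    have := (le_max_right _ _).trans hL
    linarith
  have hL0 : 0 < L := by linarith
  set J : Finset ℤ := Finset.Icc ⌊-Real.log Sl.H⌋ ⌈L + 1⌉ with hJ
  set g : Bool → Fin Sl.N → ℂ → ℂ := fun b i z => if b then Sl.s ⟪i⟫ z else -Sl.s ⟪i⟫ z with hg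
  set R : Fin Sl.N × Bool × ℤ → Set (Om ℝ) := fun x =>
    {ω | ∃ m n, m ≤ n ∧ Sl.H - (g x.2.1 x.1 (W.y m ω)).im ≤ Real.exp (-(x.2.2 : ℝ)) ∧
      L ^ 2 * Real.exp (-(x.2.2 : ℝ)) ≤ Sl.H - (g x.2.1 x.1 (W.y n ω)).im} with hR
  have hRle : ∀ x, Pw (R x) ≤ 1 / L ^ 2 := by
    rintro ⟨i, b, j⟩
    have hd1 := Sl.clk_s_diff hS hW i
    have hab : ∀ z ∈ W.U, |(Sl.s ⟪i⟫ z).im| < Sl.H := fun z hz =>
      Sl.wlk_im_lt hS ⟪i⟫ z (Sl.wlk_reg_subset (Sl.clk_mem_reg hW hz))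
    have hgd : DifferentiableOn ℂ (g b i) W.U := by
      cases b
      · exact hd1.neg
      · exact hd1
    have hlt : ∀ z ∈ W.U, (g b i z).im < Sl.H := by
      intro z hz
      have := abs_lt.mp (hab z hz)
      cases b
      · simp only [hg, Bool.false_eq_true, if_false, Complex.neg_im]
        linarith [this.1]
      · simp only [hg, if_true]
        exact this.2
    have h1 := W.wall_retreat (g b i) hgd Sl.H hlt (Real.exp (-(j : ℝ))) (L ^ 2 * Real.exp (-(j : ℝ)))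
      (Real.exp_pos _).le (by positivity)
    have e : Real.exp (-(j : ℝ)) / (L ^ 2 * Real.exp (-(j : ℝ))) = 1 / L ^ 2 := by
      have := (Real.exp_pos (-(j : ℝ))).ne'
      field_simp
    rw [e] at h1
    exact h1
  have hsub : {ω | ∃ m n, m ≤ n ∧ Sl.Upto W L n ω ∧ ∃ i : Fin Sl.N,
      Sl.k ⟪i⟫ (W.y n ω) < Sl.k ⟪i⟫ (W.y m ω) - 3 * Real.log L}
      ⊆ ⋃ x ∈ (Finset.univ ×ˢ Finset.univ ×ˢ J : Finset (Fin Sl.N × Bool × ℤ)), R x := by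
    rintro ω ⟨m, n, hmn, hup, i, hk⟩
    have hym : W.y m ω ∈ Sl.reg := Sl.clk_mem_reg hW (W.y_mem m ω)
    have hyn : W.y n ω ∈ Sl.reg := Sl.clk_mem_reg hW (W.y_mem n ω)
    have hδm : 0 < Sl.δ ⟪i⟫ (W.y m ω) := Sl.δ_pos hS _ _ hym.1
    have hδn : 0 < Sl.δ ⟪i⟫ (W.y n ω) := Sl.δ_pos hS _ _ hyn.1
    have e_m : Sl.δ ⟪i⟫ (W.y m ω) = Real.exp (-Sl.k ⟪i⟫ (W.y m ω)) := by
      unfold k; rw [neg_neg, Real.exp_log hδm]
    have e_n : Sl.δ ⟪i⟫ (W.y n ω) = Real.exp (-Sl.k ⟪i⟫ (W.y n ω)) := by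
      unfold k; rw [neg_neg, Real.exp_log hδn]
    have hkm_lt : Sl.k ⟪i⟫ (W.y m ω) < L + 1 := Upto.k_lt Sl hS hW hLH (Upto.of_le Sl hup hmn) i
    have hkm_ge : -Real.log Sl.H ≤ Sl.k ⟪i⟫ (W.y m ω) := by
      have h1 : Sl.δ ⟪i⟫ (W.y m ω) ≤ Sl.H := by
        unfold δ
        linarith [abs_nonneg (Sl.s ⟪i⟫ (W.y m ω)).im]
      have h2 := Real.log_le_log hδm h1
      unfold k
      linarith
    set km := Sl.k ⟪i⟫ (W.y m ω) with hkm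
    set kn := Sl.k ⟪i⟫ (W.y n ω) with hkn
    set j := ⌊km⌋ with hj
    have hj1 : (j : ℝ) ≤ km := Int.floor_le km
    have hj2 : km < j + 1 := Int.lt_floor_add_one km
    have hjJ : j ∈ J := by
      rw [hJ, Finset.mem_Icc]
      refine ⟨Int.floor_mono hkm_ge, ?_⟩
      have : (j : ℝ) ≤ (⌈L + 1⌉ : ℝ) := hj1.trans (hkm_lt.le.trans (Int.le_ceil _))
      exact_mod_cast this
    have hdm : Sl.δ ⟪i⟫ (W.y m ω) ≤ Real.exp (-(j : ℝ)) := by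
      rw [e_m]
      exact Real.exp_le_exp.mpr (by linarith)
    have hdn : L ^ 2 * Real.exp (-(j : ℝ)) ≤ Sl.δ ⟪i⟫ (W.y n ω) := by
      rw [e_n]
      have h1 : -(j : ℝ) - 1 + 3 * Real.log L ≤ -kn := by linarith
      have h2 := Real.exp_le_exp.mpr h1
      have h3 : Real.exp (-(j : ℝ) - 1 + 3 * Real.log L) = Real.exp (-(j : ℝ)) * Real.exp (-1) * L ^ 3 := by
        rw [show -(j : ℝ) - 1 + 3 * Real.log L = -(j : ℝ) + (-1) + ((3 : ℕ) : ℝ) * Real.log L by push_cast; ring,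
          Real.exp_add, Real.exp_add, Real.exp_nat_mul, Real.exp_log hL0]
      have h4 : 1 ≤ Real.exp (-1) * L := by
        rw [Real.exp_neg, inv_mul_eq_div, le_div_iff₀ (Real.exp_pos 1)]
        linarith [Real.exp_one_lt_d9]
      have h5 := Real.exp_pos (-(j : ℝ))
      calc L ^ 2 * Real.exp (-(j : ℝ)) = Real.exp (-(j : ℝ)) * 1 * L ^ 2 := by ring
        _ ≤ Real.exp (-(j : ℝ)) * (Real.exp (-1) * L) * L ^ 2 := by gcongr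
        _ = Real.exp (-(j : ℝ)) * Real.exp (-1) * L ^ 3 := by ring
        _ = _ := h3.symm
        _ ≤ _ := h2
    unfold δ at hdm hdn
    rcases abs_cases (Sl.s ⟪i⟫ (W.y m ω)).im with ⟨h5, _⟩ | ⟨h5, _⟩
    · refine Set.mem_iUnion₂.mpr ⟨(i, true, j), by simp [hjJ], m, n, hmn, ?_, ?_⟩
      · simp only [hg, if_true]
        rw [h5] at hdm
        exact hdm
      · simp only [hg, if_true]
        have := le_abs_self (Sl.s ⟪i⟫ (W.y n ω)).im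
        linarith
    · refine Set.mem_iUnion₂.mpr ⟨(i, false, j), by simp [hjJ], m, n, hmn, ?_, ?_⟩
      · simp only [hg, Bool.false_eq_true, if_false, Complex.neg_im]
        rw [h5] at hdm
        exact hdm
      · simp only [hg, Bool.false_eq_true, if_false, Complex.neg_im]
        have := neg_abs_le (Sl.s ⟪i⟫ (W.y n ω)).im
        linarith
  have hcard : ((Finset.univ ×ˢ Finset.univ ×ˢ J : Finset (Fin Sl.N × Bool × ℤ)).card : ℝ) ≤ Sl.N * 2 * (L + c) := by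
    rw [Finset.card_product, Finset.card_product, Finset.card_univ, Finset.card_univ, Fintype.card_fin,
      Fintype.card_bool, hJ, Int.card_Icc]
    have h1 : ((⌈L + 1⌉ : ℤ) : ℝ) < L + 1 + 1 := Int.ceil_lt_add_one _
    have h2 : -Real.log Sl.H - 1 < ((⌊-Real.log Sl.H⌋ : ℤ) : ℝ) := Int.sub_one_lt_floor _
    have h3 : ((⌊-Real.log Sl.H⌋ : ℤ) : ℝ) ≤ -Real.log Sl.H := Int.floor_le _
    have h4 : L + 1 ≤ ((⌈L + 1⌉ : ℤ) : ℝ) := Int.le_ceil _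
    have h5 : (0 : ℤ) ≤ ⌈L + 1⌉ + 1 - ⌊-Real.log Sl.H⌋ := by
      have : (0 : ℝ) ≤ ((⌈L + 1⌉ + 1 - ⌊-Real.log Sl.H⌋ : ℤ) : ℝ) := by push_cast; linarith
      exact_mod_cast this
    have h6 : (((⌈L + 1⌉ + 1 - ⌊-Real.log Sl.H⌋).toNat : ℕ) : ℝ) = ((⌈L + 1⌉ + 1 - ⌊-Real.log Sl.H⌋ : ℤ) : ℝ) := by
      rw [← Int.cast_natCast, Int.toNat_of_nonneg h5]
    push_cast
    rw [h6]
    push_cast
    have h7 : (⌈L + 1⌉ : ℝ) + 1 - (⌊-Real.log Sl.H⌋ : ℝ) ≤ L + c := by rw [hc]; linarith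
    have h8 : (0 : ℝ) ≤ (Sl.N : ℝ) := Nat.cast_nonneg _
    nlinarith
  calc Pw {ω | ∃ m n, m ≤ n ∧ Sl.Upto W L n ω ∧ ∃ i : Fin Sl.N,
        Sl.k ⟪i⟫ (W.y n ω) < Sl.k ⟪i⟫ (W.y m ω) - 3 * Real.log L}
      ≤ Pw (⋃ x ∈ (Finset.univ ×ˢ Finset.univ ×ˢ J : Finset (Fin Sl.N × Bool × ℤ)), R x) :=
        measureReal_mono hsub (measure_ne_top _ _)
    _ ≤ ∑ x ∈ (Finset.univ ×ˢ Finset.univ ×ˢ J : Finset (Fin Sl.N × Bool × ℤ)), Pw (R x) :=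
        measureReal_biUnion_finset_le _ _
    _ ≤ ∑ _x ∈ (Finset.univ ×ˢ Finset.univ ×ˢ J : Finset (Fin Sl.N × Bool × ℤ)), 1 / L ^ 2 :=
        Finset.sum_le_sum fun x _ => hRle x
    _ = ((Finset.univ ×ˢ Finset.univ ×ˢ J : Finset (Fin Sl.N × Bool × ℤ)).card : ℝ) * (1 / L ^ 2) := by
        rw [Finset.sum_const, nsmul_eq_mul]
    _ ≤ (Sl.N * 2 * (L + c)) * (1 / L ^ 2) := mul_le_mul_of_nonneg_right hcard (by positivity)
    _ = 2 * Sl.N * (L⁻¹ + c * L⁻¹ ^ 2) := by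
        field_simp

/-! ### LF-S10c-3: the angle bound (replaces (10.17)) -/

/-- the real parts of the sites move little: `l2max` with `c = 1`, clock `shape_clock` -/
theorem site_disp (W : Walk) (κ : ℝ) (hW : Sl.Fine W κ) (i : Fin Sl.N) (lam : ℝ) (hl : 1 ≤ lam) :
    Pw {ω | ∃ n, lam < ‖Sl.s ⟪i⟫ (W.y n ω) - Sl.s ⟪i⟫ (W.y 0 ω)‖} ≤ (2 * Sl.H ^ 2 + 1) / lam := by
  have hl0 : 0 < lam := by linarith
  have hd := Sl.clk_s_diff hS hW i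
  obtain ⟨hM, hm⟩ := W.mart_holo (Sl.s ⟪i⟫) hd
  have hc : Proc (fun (_ : ℕ) (_ : Om ℝ) => (1 : ℝ)) := W.proc_comp (fun _ => (1 : ℝ)) continuousOn_const
  have hv : Proc (fun n ω => W.qv (Sl.s ⟪i⟫) (W.y n ω)) := W.proc_comp _ (W.qv_continuousOn _ hd)
  have h1 := l2max unif (fun _ _ => True) woc_cut_true (fun n ω => Sl.s ⟪i⟫ (W.y n ω)) hM (fun _ _ => 1)
    (fun n ω => W.qv (Sl.s ⟪i⟫) (W.y n ω)) hc hv (fun n ω _ => hm n ω) (fun n ω _ => (W.var_holo _ n ω).le)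
    lam lam hl0.le hl0
  have h2 := Sl.shape_clock hS W κ hW i lam hl0
  have hsub : {ω | ∃ n, lam < ‖Sl.s ⟪i⟫ (W.y n ω) - Sl.s ⟪i⟫ (W.y 0 ω)‖} ⊆
      {ω | ∃ n, lam < ∑ m ∈ Finset.range n, Sl.qs W i m ω} ∪
      {ω | ∃ n, Alive (fun _ _ => True) n ω ∧ ∑ i_1 ∈ Finset.range n, (1 : ℝ) ^ 2 * W.qv (Sl.s ⟪i⟫) (W.y i_1 ω) ≤ lam ∧
        lam ≤ ‖∑ i_1 ∈ Finset.range n, ((1 : ℝ) : ℂ) * (Sl.s ⟪i⟫ (W.y (i_1 + 1) ω) - Sl.s ⟪i⟫ (W.y i_1 ω))‖} := by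
    rintro ω ⟨n, hn⟩
    by_cases hq : lam < ∑ m ∈ Finset.range n, Sl.qs W i m ω
    · exact Or.inl ⟨n, hq⟩
    · refine Or.inr ⟨n, fun _ _ => trivial, ?_, ?_⟩
      · simp only [one_pow, one_mul]
        exact not_lt.mp hq
      · simp only [Complex.ofReal_one, one_mul]
        rw [Finset.sum_range_sub (fun m => Sl.s ⟪i⟫ (W.y m ω))]
        exact hn.le
  have h3 : Pw {ω | ∃ n, lam < ‖Sl.s ⟪i⟫ (W.y n ω) - Sl.s ⟪i⟫ (W.y 0 ω)‖} ≤ 2 * Sl.H ^ 2 / lam + lam / lam ^ 2 :=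
    (measureReal_mono hsub (measure_ne_top _ _)).trans ((measureReal_union_le _ _).trans (add_le_add h2 h1))
  refine h3.trans (le_of_eq ?_)
  field_simp

/-- the periodic part `p = φ - id` along a site, through `τ_L`.
`u = |p|²` is `HSub` on `cstrip b`, `b = H - e^{-(L+1)}` (`hsub_normSq`), periodic; `majorant` gives `V ≥ u`, `HMV`, continuous on `ℂ`, nonnegative on
the strip (clamped: everywhere); `V (s_i (y_n))` is a nonnegative martingale while `Upto` (`HMV.mean` with `g = s_i` on the step disc,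
`Upto.disc` with `κ ≤ 1`); `ville_mean`; `Walk.integral_start`, `start_density`, `row_budget`. -/
theorem periodic_part : ∃ C ρ L0 : ℝ, 0 < C ∧ 0 < ρ ∧ ρ < 1 ∧ ∀ L, L0 ≤ L → ∀ (W : Walk) (κ : ℝ), κ ≤ 1 → Sl.Fine W κ →
    ∀ (i : Fin Sl.N) (lam : ℝ), 0 < lam →
    Pw {ω | ∃ n, Sl.Upto W L n ω ∧ lam ≤ ‖Sl.ψ ⟪i⟫ (W.y n ω) - Sl.s ⟪i⟫ (W.y n ω)‖} ≤ C * L ^ (2 * ρ) / lam ^ 2 := by
  obtain ⟨Cr, ρ, L0r, hCr, hρ0, hρ1, hrow⟩ := Sl.row_budget hS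
  obtain ⟨Cs, hCs, hstart⟩ := Sl.start_density hS
  have hH := Sl.H_pos hS
  refine ⟨4 * (Cs * Cr), ρ, max (max L0r 1) (-Real.log Sl.H + 1), by positivity, hρ0, hρ1,
    fun L hL W κ hκ hW i lam hlam => ?_⟩
  have hL0r : L0r ≤ L := ((le_max_left _ _).trans (le_max_left _ _)).trans hL
  have hL1 : 1 ≤ L := ((le_max_right _ _).trans (le_max_left _ _)).trans hL
  have hLH : -Real.log Sl.H < L := by
    have := (le_max_right _ _).trans hL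
    linarith
  set b : ℝ := Sl.H - Real.exp (-(L + 1)) with hb
  have hb0 : 0 < b := by
    have h1 : Real.exp (-(L + 1)) < Real.exp (Real.log Sl.H) := Real.exp_lt_exp.mpr (by linarith)
    rw [Real.exp_log hH] at h1
    linarith
  have hbH : b < Sl.H := by
    have := Real.exp_pos (-(L + 1))
    linarith
  have hsubO : cstrip b ⊆ estrip Sl.Sh.G.Hs := fun z hz => Sl.clk_mem_estrip z (lt_of_le_of_lt hz hbH)
  set u : ℂ → ℝ := fun z => ‖Sl.Sh.φ z - z‖ ^ 2 with hu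
  have huS : HSub u (cstrip b) := hsub_normSq (fun z => Sl.Sh.φ z - z) (cstrip b)
    ⟨estrip Sl.Sh.G.Hs, clk_isOpen_estrip _, hsubO, Sl.Sh.φ_diff.sub differentiableOn_id⟩
  have huper : ∀ z ∈ cstrip b, u (z + 2 * π) = u z := by
    intro z hz
    simp only [hu]
    rw [Sl.Sh.φ_per z (hsubO hz)]
    congr 2
    ring
  obtain ⟨V, hVc, hV, hVper, hVu, hVint⟩ := majorant b hb0 u huS huper
  have hV0 : ∀ z ∈ cstrip b, 0 ≤ V z := fun z hz => le_trans (by positivity) (hVu z hz)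
  have hreal : ∀ x : ℝ, (x : ℂ) ∈ cstrip b := fun x => by
    show |(x : ℂ).im| ≤ b
    simp [hb0.le]
  have hd : DifferentiableOn ℂ (Sl.s ⟪i⟫) W.U := by
    rw [hW.dom]
    exact (Sl.s_diff hS _).mono Sl.wlk_reg_subset
  have hreg : ∀ n ω, W.y n ω ∈ Sl.reg := fun n ω => hW.dom ▸ W.y_mem n ω
  have hX : Proc fun n ω => V (Sl.s ⟪i⟫ (W.y n ω)) :=
    W.proc_comp (fun z => V (Sl.s ⟪i⟫ z)) (hVc.comp_continuousOn hd.continuousOn)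
  have hcut := Sl.cut_cutL W hW.dom hS L
  have hmem : ∀ n ω, Alive (Sl.cutL W L) n ω → Sl.s ⟪i⟫ (W.y n ω) ∈ cstrip b := by
    intro n ω h
    have h1 : Sl.k ⟪i⟫ (W.y n ω) < L + 1 := (Upto.k_lt Sl hS hW hLH h i).trans_le (by linarith)
    exact (Sl.clk_im_of_k hS _ _ (hreg n ω).1 _ h1).le
  have h1 := ville_mean unif (Sl.cutL W L) hcut (fun n ω => V (Sl.s ⟪i⟫ (W.y n ω))) hX
    (fun n ω h => by
      rw [W.stp_comp (fun z => V (Sl.s ⟪i⟫ z)) n ω]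
      refine (hV.mean (Sl.s ⟪i⟫) (W.y n ω) (W.rad n ω) (W.nonneg _) ?_ ?_).le
      · refine ((Sl.s_diff hS ⟪i⟫).analyticOnNhd Sl.wlk_isOpen_strip).mono fun z hz => ?_
        have : z ∈ Sl.reg := hW.dom ▸ W.woc_closedBall_subset (W.y_mem n ω) hz
        exact this.1
      · intro z hz
        have hzr : z ∈ Sl.reg := hW.dom ▸ W.woc_closedBall_subset (W.y_mem n ω) hz
        have h2 : Sl.k ⟪i⟫ z < L + 1 := (Upto.disc Sl hS hW h i z hz).trans_le (by linarith)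
        exact (Sl.clk_im_of_k hS _ _ hzr.1 _ h2).le)
    (fun n ω h => hV0 _ (hmem n ω h)) (lam ^ 2) (by positivity)
  have hsub : {ω | ∃ n, Sl.Upto W L n ω ∧ lam ≤ ‖Sl.ψ ⟪i⟫ (W.y n ω) - Sl.s ⟪i⟫ (W.y n ω)‖} ⊆
      {ω | ∃ n, Alive (Sl.cutL W L) n ω ∧ lam ^ 2 ≤ V (Sl.s ⟪i⟫ (W.y n ω))} := by
    rintro ω ⟨n, hn, hl⟩
    refine ⟨n, hn, le_trans ?_ (hVu _ (hmem n ω hn))⟩
    exact pow_le_pow_left₀ hlam.le hl 2
  refine (measureReal_mono hsub (measure_ne_top _ _)).trans (h1.trans ?_)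
  refine div_le_div_of_nonneg_right ?_ (by positivity)
  rw [W.integral_start (fun z => V (Sl.s ⟪i⟫ z)) (hVc.comp_continuousOn hd.continuousOn)]
  have h2 := hstart i V hVc (fun x => hV0 _ (hreal x)) (fun x => hVper _ (hreal x))
  have h3 := hrow (L + 1) (by linarith) 1 (Or.inl rfl)
  have h4 := hrow (L + 1) (by linarith) (-1) (Or.inr rfl)
  rw [one_mul] at h3
  rw [neg_one_mul] at h4
  have h5 : ∫ x in (0 : ℝ)..(2 * π), V (x : ℂ) ≤ Cr * (L + 1) ^ (2 * ρ) := by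
    rw [hVint]
    have e1 : ∫ x in (0 : ℝ)..(2 * π), u (⟨x, b⟩ : ℂ) ≤ Cr * (L + 1) ^ (2 * ρ) := h3
    have e2 : ∫ x in (0 : ℝ)..(2 * π), u (⟨x, -b⟩ : ℂ) ≤ Cr * (L + 1) ^ (2 * ρ) := h4
    linarith
  have h6 : (L + 1) ^ (2 * ρ) ≤ 4 * L ^ (2 * ρ) := by
    have e1 : (L + 1) ^ (2 * ρ) ≤ (2 * L) ^ (2 * ρ) := Real.rpow_le_rpow (by linarith) (by linarith) (by linarith)
    have e2 : (2 * L) ^ (2 * ρ) = 2 ^ (2 * ρ) * L ^ (2 * ρ) := Real.mul_rpow (by norm_num) (by linarith)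
    have e3 : (2 : ℝ) ^ (2 * ρ) ≤ 2 ^ (2 : ℝ) := Real.rpow_le_rpow_of_exponent_le (by norm_num) (by linarith)
    have e4 : (2 : ℝ) ^ (2 : ℝ) = 4 := by norm_num
    have e5 : 0 ≤ L ^ (2 * ρ) := Real.rpow_nonneg (by linarith) _
    rw [e2] at e1
    nlinarith
  have h7 : (2 * π)⁻¹ ≤ 1 := by
    have := Real.pi_gt_three
    exact inv_le_one_of_one_le₀ (by linarith)
  have h8 : 0 ≤ ∫ x in (0 : ℝ)..(2 * π), V (Sl.s ⟪i⟫ x) := by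
    refine intervalIntegral.integral_nonneg (by positivity) fun x _ => hV0 _ ?_
    show |(Sl.s ⟪i⟫ (x : ℂ)).im| ≤ b
    rw [(hS.nice.real x ⟪i⟫).1]
    simp [hb0.le]
  calc (2 * π)⁻¹ * ∫ x in (0 : ℝ)..(2 * π), V (Sl.s ⟪i⟫ x) ≤ 1 * ∫ x in (0 : ℝ)..(2 * π), V (Sl.s ⟪i⟫ x) :=
        mul_le_mul_of_nonneg_right h7 h8
    _ ≤ Cs * (Cr * (4 * L ^ (2 * ρ))) := by
        rw [one_mul]
        refine h2.trans (mul_le_mul_of_nonneg_left (h5.trans (mul_le_mul_of_nonneg_left h6 hCr.le)) hCs.le)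
    _ = _ := by ring

/-- **Angles**: `|ψ_i| ≤ L^{ρ₁}` through `τ_L`, for some `ρ₁ < 1`. -/
theorem angles : ∃ ρ₁ : ℝ, 0 < ρ₁ ∧ ρ₁ < 1 ∧ Sl.Rare fun L W => {ω | ∃ n, Sl.Upto W L n ω ∧ ∃ i : Fin Sl.N,
    L ^ ρ₁ < ‖Sl.ψ ⟪i⟫ (W.y n ω)‖} := by
  obtain ⟨C, ρ, L0, hC, hρ0, hρ1, hper⟩ := Sl.periodic_part hS
  obtain ⟨C0, hC0, hreal⟩ := Sl.real_bounds hS
  set ρ₁ : ℝ := (1 + ρ) / 2 with hρ₁
  have hρ₁0 : 0 < ρ₁ := by rw [hρ₁]; linarith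
  refine ⟨ρ₁, hρ₁0, by rw [hρ₁]; linarith, ?_⟩
  refine Sl.rare_of_le (fun L => Sl.N * (3 * (2 * Sl.H ^ 2 + 1) * L ^ (-ρ₁) + 9 * C * L ^ (-(1 - ρ)))) ?_ ?_
  · have h1 : Tendsto (fun L : ℝ => L ^ (-ρ₁)) atTop (𝓝 0) := tendsto_rpow_neg_atTop hρ₁0
    have h2 : Tendsto (fun L : ℝ => L ^ (-(1 - ρ))) atTop (𝓝 0) := tendsto_rpow_neg_atTop (by linarith)
    have h3 := ((h1.const_mul (3 * (2 * Sl.H ^ 2 + 1))).add (h2.const_mul (9 * C))).const_mul (Sl.N : ℝ)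
    simpa using h3
  · obtain ⟨L1, hL1⟩ := Filter.eventually_atTop.mp
      ((tendsto_rpow_atTop hρ₁0).eventually_ge_atTop (3 * max 1 C0))
    refine ⟨max (max L0 1) L1, fun L hL => ⟨1, one_pos, fun W hW => ?_⟩⟩
    have hLL0 : L0 ≤ L := ((le_max_left _ _).trans (le_max_left _ _)).trans hL
    have hLone : 1 ≤ L := ((le_max_right _ _).trans (le_max_left _ _)).trans hL
    have hL0 : 0 < L := by linarith
    have hLL1 := hL1 L ((le_max_right _ _).trans hL)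
    set lam : ℝ := L ^ ρ₁ / 3 with hlam
    have hlam1 : 1 ≤ lam := by
      have := le_max_left 1 C0
      rw [hlam]; linarith
    have hlamC : C0 ≤ lam := by
      have := le_max_right 1 C0
      rw [hlam]; linarith
    have hlam0 : 0 < lam := by linarith
    have hsub : {ω | ∃ n, Sl.Upto W L n ω ∧ ∃ i : Fin Sl.N, L ^ ρ₁ < ‖Sl.ψ ⟪i⟫ (W.y n ω)‖} ⊆
        ⋃ i ∈ (Finset.univ : Finset (Fin Sl.N)),
          ({ω | ∃ n, lam < ‖Sl.s ⟪i⟫ (W.y n ω) - Sl.s ⟪i⟫ (W.y 0 ω)‖} ∪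
           {ω | ∃ n, Sl.Upto W L n ω ∧ lam ≤ ‖Sl.ψ ⟪i⟫ (W.y n ω) - Sl.s ⟪i⟫ (W.y n ω)‖}) := by
      rintro ω ⟨n, hn, i, hi⟩
      simp only [Finset.mem_univ, Set.iUnion_true, Set.mem_iUnion]
      refine ⟨i, ?_⟩
      by_cases h1 : lam < ‖Sl.s ⟪i⟫ (W.y n ω) - Sl.s ⟪i⟫ (W.y 0 ω)‖
      · exact Or.inl ⟨n, h1⟩
      · refine Or.inr ⟨n, hn, ?_⟩
        obtain ⟨x, hx, e⟩ := W.y_zero_mem ω
        have h2 : ‖Sl.s ⟪i⟫ (W.y 0 ω)‖ ≤ C0 := by rw [e]; exact (hreal x hx i).1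
        have h3 : ‖Sl.ψ ⟪i⟫ (W.y n ω)‖ ≤ ‖Sl.ψ ⟪i⟫ (W.y n ω) - Sl.s ⟪i⟫ (W.y n ω)‖ +
            ‖Sl.s ⟪i⟫ (W.y n ω) - Sl.s ⟪i⟫ (W.y 0 ω)‖ + ‖Sl.s ⟪i⟫ (W.y 0 ω)‖ := by
          calc ‖Sl.ψ ⟪i⟫ (W.y n ω)‖ = ‖(Sl.ψ ⟪i⟫ (W.y n ω) - Sl.s ⟪i⟫ (W.y n ω)) +
                (Sl.s ⟪i⟫ (W.y n ω) - Sl.s ⟪i⟫ (W.y 0 ω)) + Sl.s ⟪i⟫ (W.y 0 ω)‖ := by congr 1; ring
            _ ≤ _ := norm_add₃_le
        have h4 : L ^ ρ₁ = 3 * lam := by rw [hlam]; ring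
        have h5 := not_lt.mp h1
        linarith
    have hone : ∀ i : Fin Sl.N, Pw ({ω | ∃ n, lam < ‖Sl.s ⟪i⟫ (W.y n ω) - Sl.s ⟪i⟫ (W.y 0 ω)‖} ∪
           {ω | ∃ n, Sl.Upto W L n ω ∧ lam ≤ ‖Sl.ψ ⟪i⟫ (W.y n ω) - Sl.s ⟪i⟫ (W.y n ω)‖}) ≤
        3 * (2 * Sl.H ^ 2 + 1) * L ^ (-ρ₁) + 9 * C * L ^ (-(1 - ρ)) := by
      intro i
      refine (measureReal_union_le _ _).trans (add_le_add ((Sl.site_disp hS W 1 hW i lam hlam1).trans (le_of_eq ?_))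
        ((hper L hLL0 W 1 le_rfl hW i lam hlam0).trans (le_of_eq ?_)))
      · rw [hlam, Real.rpow_neg hL0.le]
        field_simp
      · have e1 : L ^ (-(1 - ρ)) = L ^ (2 * ρ) / (L ^ ρ₁) ^ 2 := by
          rw [← Real.rpow_natCast (L ^ ρ₁) 2, ← Real.rpow_mul hL0.le, ← Real.rpow_sub hL0]
          congr 1
          rw [hρ₁]; push_cast; ring
        rw [e1, hlam]
        field_simp
        ring
    calc Pw {ω | ∃ n, Sl.Upto W L n ω ∧ ∃ i : Fin Sl.N, L ^ ρ₁ < ‖Sl.ψ ⟪i⟫ (W.y n ω)‖}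
        ≤ Pw (⋃ i ∈ (Finset.univ : Finset (Fin Sl.N)),
          ({ω | ∃ n, lam < ‖Sl.s ⟪i⟫ (W.y n ω) - Sl.s ⟪i⟫ (W.y 0 ω)‖} ∪
           {ω | ∃ n, Sl.Upto W L n ω ∧ lam ≤ ‖Sl.ψ ⟪i⟫ (W.y n ω) - Sl.s ⟪i⟫ (W.y n ω)‖})) :=
          measureReal_mono hsub (measure_ne_top _ _)
      _ ≤ ∑ i ∈ (Finset.univ : Finset (Fin Sl.N)),
          Pw ({ω | ∃ n, lam < ‖Sl.s ⟪i⟫ (W.y n ω) - Sl.s ⟪i⟫ (W.y 0 ω)‖} ∪
           {ω | ∃ n, Sl.Upto W L n ω ∧ lam ≤ ‖Sl.ψ ⟪i⟫ (W.y n ω) - Sl.s ⟪i⟫ (W.y n ω)‖}) :=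
          measureReal_biUnion_finset_le _ _
      _ ≤ ∑ _i ∈ (Finset.univ : Finset (Fin Sl.N)), (3 * (2 * Sl.H ^ 2 + 1) * L ^ (-ρ₁) + 9 * C * L ^ (-(1 - ρ))) :=
          Finset.sum_le_sum fun i _ => hone i
      _ = _ := by
          rw [Finset.sum_const, Finset.card_univ, Fintype.card_fin, nsmul_eq_mul]

/-! ### LF-S10c-4: logarithmic deficit for slice functions, modified inverses (Lemmas 10.5, 10.6) -/

/-- **Lemma 10.5** for a holomorphic nonvanishing function on the regular set whose logarithm oscillates by `≤ κ` on step discs. -/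
theorem slice_logdef (W : Walk) (κ : ℝ) (hκ : 0 ≤ κ) (hW : Sl.Fine W κ) (g : ℂ → ℂ) (hg : DifferentiableOn ℂ g Sl.reg)
    (h0 : ∀ z ∈ Sl.reg, g z ≠ 0)
    (hosc : ∀ z ∈ Sl.reg, ∀ w ∈ closedBall z (W.r z), |Real.log ‖g w‖ - Real.log ‖g z‖| ≤ κ)
    (C0 B0 B1 : ℝ) (hC : ∀ x ∈ Icc (0 : ℝ) (2 * π), |Real.log ‖g x‖| ≤ C0) (hB0 : C0 ≤ B0) (hB1 : 0 < B1)
    (A : ℕ → Om ℝ → Prop) (hA : Cut A) :
    Pw {ω | ∃ n, Alive A n ω ∧ (∀ m, m < n → Real.log ‖g (W.y m ω)‖ ≤ B0) ∧ Real.log ‖g (W.y n ω)‖ ≤ -B1}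
      ≤ (B0 + κ + C0) / (B0 + κ + B1) := by
  have hgU : DifferentiableOn ℂ g W.U := by rw [hW.dom]; exact hg
  have h0U : ∀ z ∈ W.U, g z ≠ 0 := fun z hz => h0 z (Sl.clk_mem_reg hW hz)
  obtain ⟨hu, hs⟩ := W.mart_log g hgU h0U
  have hC0 : 0 ≤ C0 := (abs_nonneg _).trans (hC 0 ⟨le_rfl, by positivity⟩)
  refine logdef unif A hA (fun n ω => Real.log ‖g (W.y n ω)‖) hu (fun n ω _ => (hs n ω).ge) κ B0 B1 C0 hκ
    (fun n ω _ => ?_) (fun ω => ?_) (fun ω => ?_) (by linarith)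
  · have h1 := hosc _ (Sl.clk_mem_reg hW (W.y_mem n ω)) _ (sphere_subset_closedBall (W.y_succ_mem n ω))
    have := (abs_le.mp h1).2
    linarith
  · obtain ⟨x, hx, e⟩ := W.y_zero_mem ω
    simp only [e]
    exact (abs_le.mp (hC x hx)).1
  · obtain ⟨x, hx, e⟩ := W.y_zero_mem ω
    simp only [e]
    exact ((abs_le.mp (hC x hx)).2).trans hB0

/-- entries, determinant and cofactors of `B_{I,F}` under a geometry cap and a history cap on the truthful sites (pointwise) -/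
theorem Bmat_upper : ∃ C : ℝ, 0 < C ∧ ∀ (I F : Finset (Fin Sl.N)), Sl.Adm I F → ∀ y ∈ Sl.reg, ∀ U : ℝ, 1 ≤ U →
    Sl.geo y ≤ U → (∀ i ∈ I, Sl.k ⟪i⟫ y ≤ U) →
    Real.log ‖(Sl.Bmat I F y).det‖ ≤ C * U ∧ ∀ i k, ‖(Sl.Bmat I F y).adjugate i k‖ ≤ Real.exp (C * U) := by
  obtain ⟨C2, hC2, hamp⟩ := Sl.amplitude_upper hS
  have hc := Sl.Sh.G.c_pos
  have hci : 0 < Sl.Sh.G.c⁻¹ := inv_pos.mpr hc
  set C3 : ℝ := 3 * (1 + 3 * C2) + 1 with hC3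
  set K : ℝ := Sl.N.factorial * (5 + 2 * Sl.Sh.G.c⁻¹) ^ Sl.N with hK
  have hK1 : 1 ≤ K := by
    have h1 : (1 : ℝ) ≤ Sl.N.factorial := by exact_mod_cast Nat.one_le_iff_ne_zero.mpr (Nat.factorial_ne_zero _)
    have h2 : (1 : ℝ) ≤ (5 + 2 * Sl.Sh.G.c⁻¹) ^ Sl.N := one_le_pow₀ (by linarith)
    calc (1 : ℝ) = 1 * 1 := by ring
      _ ≤ _ := mul_le_mul h1 h2 zero_le_one (by positivity)
  have hlK : 0 ≤ Real.log K := Real.log_nonneg hK1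
  have hN : (0 : ℝ) < Sl.N := by
    have := Sl.N_ge
    exact_mod_cast (by omega : 0 < Sl.N)
  refine ⟨Real.log K + Sl.N * C3, by positivity, fun I F hIF y hy U hU hgeo hk => ?_⟩
  have hg : ∀ i : Fin Sl.N, |Real.log ‖Sl.sd ⟪i⟫ y‖| ≤ U ∧ |Real.log ‖Sl.ℓ ⟪i⟫ y‖| ≤ U := by
    intro i
    have h1 := (Sl.clk_geo1_le y i).trans hgeo
    unfold geo1 at h1
    have h2 : 0 ≤ ‖Sl.ψ ⟪i⟫ y‖ := norm_nonneg _
    have h3 : 0 ≤ Real.log (1 + ‖Sl.X ⟪i⟫ y‖) := Real.log_nonneg (by linarith [norm_nonneg (Sl.X ⟪i⟫ y)])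
    have h4 := abs_nonneg (Real.log ‖Sl.sd ⟪i⟫ y‖)
    have h5 := abs_nonneg (Real.log ‖Sl.ℓ ⟪i⟫ y‖)
    constructor <;> linarith
  have hℓ : ∀ i : Fin Sl.N, ‖(Sl.ℓ ⟪i⟫ y)⁻¹‖ ≤ Real.exp (C3 * U) := fun i =>
    (clk_inv_le_exp (hy.2.1 i).2.2 (abs_le.mp (hg i).2).1).trans (Real.exp_le_exp.mpr (by nlinarith))
  have hV : ∀ i ∈ I, ‖Sl.V ⟪i⟫ y‖ ≤ 2 * Sl.Sh.G.c⁻¹ * Real.exp (C3 * U) := by
    intro i hi
    have h1 := hamp y hy.1 ⟪i⟫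
    have h2 : max (Sl.k ⟪i⟫ y) 0 ≤ U := max_le (hk i hi) (by linarith)
    have h2' : 0 ≤ max (Sl.k ⟪i⟫ y) 0 := le_max_right _ _
    have h3 : Real.log (2 + max (Sl.k ⟪i⟫ y) 0) ≤ 1 + U := by
      have := Real.log_le_sub_one_of_pos (by linarith : 0 < 2 + max (Sl.k ⟪i⟫ y) 0)
      linarith
    have h4 : Sl.a ⟪i⟫ y ≤ (1 + 3 * C2) * U := by
      have : C2 * Real.log (2 + max (Sl.k ⟪i⟫ y) 0) ≤ C2 * (1 + U) := mul_le_mul_of_nonneg_left h3 hC2.le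
      nlinarith
    have h5 := Sl.clk_V_le ⟪i⟫ y ((1 + 3 * C2) * U) U (clk_norm_le_exp (hy.2.1 i).1 h4)
      (clk_inv_le_exp (hy.2.1 i).2.1 (abs_le.mp (hg i).1).1)
    refine h5.trans (le_of_eq ?_)
    congr 2
    rw [hC3]; ring
  have hmain := Sl.clk_det_adj hS I F y hy _ _ (by positivity) hℓ hV
  have hb : Sl.N.factorial * (4 * Real.exp (C3 * U) + 2 * Sl.Sh.G.c⁻¹ * Real.exp (C3 * U) + 1) ^ Sl.N
      ≤ Real.exp ((Real.log K + Sl.N * C3) * U) := by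
    have h1 : (1 : ℝ) ≤ Real.exp (C3 * U) := Real.one_le_exp (by positivity)
    have h2 : 4 * Real.exp (C3 * U) + 2 * Sl.Sh.G.c⁻¹ * Real.exp (C3 * U) + 1
        ≤ (5 + 2 * Sl.Sh.G.c⁻¹) * Real.exp (C3 * U) := by nlinarith
    have h3 : (4 * Real.exp (C3 * U) + 2 * Sl.Sh.G.c⁻¹ * Real.exp (C3 * U) + 1) ^ Sl.N
        ≤ ((5 + 2 * Sl.Sh.G.c⁻¹) * Real.exp (C3 * U)) ^ Sl.N := pow_le_pow_left₀ (by positivity) h2 _
    have h4 : K ≤ Real.exp (Real.log K * U) := by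
      calc K = Real.exp (Real.log K) := (Real.exp_log (by linarith)).symm
        _ ≤ _ := Real.exp_le_exp.mpr (by nlinarith)
    calc (Sl.N.factorial : ℝ) * (4 * Real.exp (C3 * U) + 2 * Sl.Sh.G.c⁻¹ * Real.exp (C3 * U) + 1) ^ Sl.N
        ≤ Sl.N.factorial * ((5 + 2 * Sl.Sh.G.c⁻¹) * Real.exp (C3 * U)) ^ Sl.N :=
          mul_le_mul_of_nonneg_left h3 (by positivity)
      _ = K * Real.exp (Sl.N * C3 * U) := by
          rw [mul_pow, ← Real.exp_nat_mul, hK]; ring_nf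
      _ ≤ Real.exp (Real.log K * U) * Real.exp (Sl.N * C3 * U) := mul_le_mul_of_nonneg_right h4 (Real.exp_pos _).le
      _ = _ := by rw [← Real.exp_add]; ring_nf
  refine ⟨?_, fun i k => (hmain.2 i k).trans hb⟩
  have hdet : 0 < ‖(Sl.Bmat I F y).det‖ := norm_pos_iff.mpr (hy.2.2 I F hIF)
  exact (Real.log_le_iff_le_exp hdet).mpr (hmain.1.trans hb)

/-- **Lemma 10.6 (modified inverse estimates).**  Bad event: at some time `n`, the geometry cap `𝒢 ≤ U` held at all times `≤ n`, the histories of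
the truthful sites are `≤ U`, but an entry of `B_{I,F}^{-1}` exceeds `e^{C V}`. -/
theorem modified_inverse : ∃ C : ℝ, 0 < C ∧ ∀ (W : Walk) (κ : ℝ), 0 ≤ κ → κ ≤ 1 → Sl.Fine W κ →
    ∀ (I F : Finset (Fin Sl.N)), Sl.Adm I F → ∀ U V : ℝ, 1 ≤ U → U ≤ V →
    Pw {ω | ∃ n, (∀ m, m ≤ n → Sl.geo (W.y m ω) ≤ U ∧ ∀ i ∈ I, Sl.k ⟪i⟫ (W.y m ω) ≤ U) ∧
        ∃ i k, Real.exp (C * V) < ‖(Sl.Bmat I F (W.y n ω))⁻¹ i k‖} ≤ C * U / V := by
  obtain ⟨C1, hC1, hup⟩ := Sl.Bmat_upper hS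
  obtain ⟨C0, hC0, hreal⟩ := Sl.real_bounds hS
  have i0 : Fin Sl.N := 0
  refine ⟨2 * C1 + 2 * C0 + 2, by positivity, fun W κ hκ hκ1 hW I F hIF U V hU hUV => ?_⟩
  have hV : 0 < V := by linarith
  have hreg : ∀ n ω, W.y n ω ∈ Sl.reg := fun n ω => hW.dom ▸ W.y_mem n ω
  have hB1 : 0 < (C1 + 2 * C0 + 2) * V := by positivity
  have h1 := Sl.slice_logdef hS W κ hκ hW (fun y => (Sl.Bmat I F y).det) (Sl.detB_diff hS I F)
    (fun z hz => hz.2.2 I F hIF) (fun z hz w hw => hW.det z hz w hw I F hIF) C0 (C1 * U + C0) ((C1 + 2 * C0 + 2) * V)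
    (fun x hx => (hreal x hx i0).2.2.2.2.2.2.2 I F hIF) (by nlinarith) hB1 (fun _ _ => True) woc_cut_true
  have hsub : {ω | ∃ n, (∀ m, m ≤ n → Sl.geo (W.y m ω) ≤ U ∧ ∀ i ∈ I, Sl.k ⟪i⟫ (W.y m ω) ≤ U) ∧
        ∃ i k, Real.exp ((2 * C1 + 2 * C0 + 2) * V) < ‖(Sl.Bmat I F (W.y n ω))⁻¹ i k‖} ⊆
      {ω | ∃ n, Alive (fun _ _ => True) n ω ∧ (∀ m, m < n → Real.log ‖(Sl.Bmat I F (W.y m ω)).det‖ ≤ C1 * U + C0) ∧
        Real.log ‖(Sl.Bmat I F (W.y n ω)).det‖ ≤ -((C1 + 2 * C0 + 2) * V)} := by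
    rintro ω ⟨n, hn, i, k, hik⟩
    refine ⟨n, fun _ _ => trivial, fun m hm => ?_, ?_⟩
    · have := (hup I F hIF _ (hreg m ω) U hU (hn m hm.le).1 (hn m hm.le).2).1
      linarith
    · have h2 := (hup I F hIF _ (hreg n ω) U hU (hn n le_rfl).1 (hn n le_rfl).2).2 i k
      have hdet : (Sl.Bmat I F (W.y n ω)).det ≠ 0 := (hreg n ω).2.2 I F hIF
      have hdp : 0 < ‖(Sl.Bmat I F (W.y n ω)).det‖ := norm_pos_iff.mpr hdet
      rw [Matrix.inv_def, Ring.inverse_eq_inv', Matrix.smul_apply, smul_eq_mul, norm_mul, norm_inv] at hik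
      have h3 : Real.exp (C1 * U) ≤ Real.exp (C1 * V) := Real.exp_le_exp.mpr (by nlinarith)
      have h4 : Real.exp ((2 * C1 + 2 * C0 + 2) * V) < ‖(Sl.Bmat I F (W.y n ω)).det‖⁻¹ * Real.exp (C1 * V) :=
        hik.trans_le (mul_le_mul_of_nonneg_left (h2.trans h3) (by positivity))
      have h5 : ‖(Sl.Bmat I F (W.y n ω)).det‖ * Real.exp ((2 * C1 + 2 * C0 + 2) * V) < Real.exp (C1 * V) := by
        have := mul_lt_mul_of_pos_left h4 hdp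
        rwa [← mul_assoc, mul_inv_cancel₀ hdp.ne', one_mul] at this
      have h6 : Real.log (‖(Sl.Bmat I F (W.y n ω)).det‖ * Real.exp ((2 * C1 + 2 * C0 + 2) * V)) < C1 * V :=
        (Real.log_lt_iff_lt_exp (by positivity)).mpr h5
      rw [Real.log_mul hdp.ne' (Real.exp_pos _).ne', Real.log_exp] at h6
      linarith
  refine (measureReal_mono hsub (measure_ne_top _ _)).trans (h1.trans ?_)
  have hU0 : 0 < U := by linarith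
  have h7 : 0 ≤ C1 * U + C0 + κ := by positivity
  rw [div_le_div_iff₀ (by linarith) hV]
  have e1 : C1 * U + C0 + κ + C0 ≤ (C1 + 2 * C0 + 1) * U := by nlinarith
  have e2 : (C1 + 2 * C0 + 1) * U * V ≤ (2 * C1 + 2 * C0 + 2) * U * ((C1 + 2 * C0 + 2) * V) := by
    have : 0 < U * V := by positivity
    nlinarith [mul_pos hC1 this, mul_pos hC0 this, mul_pos (mul_pos hC1 hC1) this, mul_pos (mul_pos hC1 hC0) this,
      mul_pos (mul_pos hC0 hC0) this]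
  calc (C1 * U + C0 + κ + C0) * V ≤ (C1 + 2 * C0 + 1) * U * V := mul_le_mul_of_nonneg_right e1 hV.le
    _ ≤ (2 * C1 + 2 * C0 + 2) * U * ((C1 + 2 * C0 + 2) * V) := e2
    _ ≤ (2 * C1 + 2 * C0 + 2) * U * (C1 * U + C0 + κ + (C1 + 2 * C0 + 2) * V) :=
        mul_le_mul_of_nonneg_left (by linarith) (by positivity)

end Slice

end Claimed.Agent.R269
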