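/-
Row 269, P1 Lemma 10.7 (initial stopped geometry: `𝒢 ≤ L^σ` through `τ_L` for some `σ < 1`).  Owner: helper171.
DISCRETE VERSION (see S10/Walk.lean).  We take `b = 1` in P1: statuses switch at `a_j = -2G` (to tiny) and `a_j = -G` (to moderate), `G = L^γ`.
Black boxes: S10/Facts.lean, S10/Walk.lean, S10/Time.lean, Lib/*.lean.
RULES: the claimer of a package fills its `sorry`s IN PLACE (auxiliary lemmas above the statement, prefix `ini_`) unless the package description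
names another file; do not change a statement without telling helper171; land every compiled state.
-/
import Claimed.Agent.R269.S10.Time

set_option autoImplicit false

namespace Claimed.Agent.R269

open Complex Metric Set Filter Topology Chn MeasureTheory
open scoped Real ENNReal

local notation "⟪" i "⟫" => ((Fin.val i : ℕ) : ℤ)

namespace Slice

variable (Sl : Slice)

/-- angles and logarithmic sines are at most `r` at the point `y` -/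
def AS (r : ℝ) (y : ℂ) : Prop := ∀ i : Fin Sl.N, ‖Sl.ψ ⟪i⟫ y‖ ≤ r ∧ |Real.log ‖Sl.sd ⟪i⟫ y‖| ≤ r

/-- `max_j |X_j|` -/
noncomputable def maxX (y : ℂ) : ℝ := ⨆ i : Fin Sl.N, ‖Sl.X ⟪i⟫ y‖

/-- the running maximum `𝓡(n) = 1 + max_{m ≤ n, j} |X_j(y_m)|` -/
noncomputable def Rrun (W : Walk) : ℕ → Om ℝ → ℝ
  | 0, ω => 1 + Sl.maxX (W.y 0 ω)
  | n + 1, ω => max (Rrun W n ω) (1 + Sl.maxX (W.y (n + 1) ω))

/-- the status of the site `i` (`true` = tiny) with thresholds `-2G`, `-G` -/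
noncomputable def stA (W : Walk) (G : ℝ) (i : Fin Sl.N) : ℕ → Om ℝ → Bool :=
  stat (-(2 * G)) (-G) fun n ω => Sl.a ⟪i⟫ (W.y n ω)

/-- the number of switches of the site `i` before time `n` -/
noncomputable def swA (W : Walk) (G : ℝ) (i : Fin Sl.N) (n : ℕ) (ω : Om ℝ) : ℕ :=
  nsw (-(2 * G)) (-G) (fun n ω => Sl.a ⟪i⟫ (W.y n ω)) n ω

/-- the cumulative moderate-position integrals (two components) -/
noncomputable def Pmod (W : Walk) (G : ℝ) (i : Fin Sl.N) (n : ℕ) (ω : Om ℝ) : ℂ × ℂ :=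
  ∑ m ∈ Finset.range n, if Sl.stA W G i m ω = false then Sl.X ⟪i⟫ (W.y (m + 1) ω) - Sl.X ⟪i⟫ (W.y m ω) else 0

/-- the cumulative tiny-support integrals of `𝓡^{-1} dH_i⁰` -/
noncomputable def Ttin (W : Walk) (G : ℝ) (i : Fin Sl.N) (n : ℕ) (ω : Om ℝ) : ℂ :=
  ∑ m ∈ Finset.range n, if Sl.stA W G i m ω = true then
    ((Sl.Rrun W m ω)⁻¹ : ℂ) * (Sl.Hs ⟪i⟫ (W.y (m + 1) ω) - Sl.Hs ⟪i⟫ (W.y m ω)) else 0

variable (hS : Sl.Hyp)
include hS

/-! ### LF-S10d-1: sines, switches -/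

omit hS in
/-- powers: `K L^a ≤ L^b` eventually, if `a < b` -/
theorem _root_.Claimed.Agent.R269.ini_rpow_dom (a b K : ℝ) (hab : a < b) : ∀ᶠ L : ℝ in atTop, K * L ^ a ≤ L ^ b := by
  have h1 := (tendsto_rpow_atTop (sub_pos.mpr hab)).eventually_ge_atTop K
  filter_upwards [h1, eventually_gt_atTop 0] with L hL hL0
  have : L ^ b = L ^ (b - a) * L ^ a := by rw [← Real.rpow_add hL0]; ring_nf
  rw [this]
  exact mul_le_mul_of_nonneg_right hL (Real.rpow_nonneg hL0.le _)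

omit hS in
theorem _root_.Claimed.Agent.R269.ini_const_dom (b K : ℝ) (hb : 0 < b) : ∀ᶠ L : ℝ in atTop, K ≤ L ^ b :=
  (tendsto_rpow_atTop hb).eventually_ge_atTop K

omit hS in
theorem _root_.Claimed.Agent.R269.ini_rpow_mono {L a b : ℝ} (hL : 1 ≤ L) (hab : a ≤ b) : L ^ a ≤ L ^ b :=
  Real.rpow_le_rpow_of_exponent_le hL hab

/-- upper bound for the logarithmic sines under an angle bound -/
theorem ini_sd_upper : ∃ C : ℝ, 0 < C ∧ ∀ y ∈ Sl.reg, ∀ r : ℝ, (∀ i : Fin Sl.N, ‖Sl.ψ ⟪i⟫ y‖ ≤ r) → ∀ i : Fin Sl.N,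
    Real.log ‖Sl.sd ⟪i⟫ y‖ ≤ C * (1 + r) := by
  obtain ⟨Cθ, hCθ, hθ⟩ := Sl.θ_le hS
  refine ⟨Cθ, hCθ, fun y hy r hr i => ?_⟩
  rw [Real.log_le_iff_le_exp (norm_pos_iff.mpr (hy.2.1 i).2.1)]
  exact (clk_norm_sin_le _).trans (Real.exp_le_exp.mpr ((Complex.abs_im_le_norm _).trans (hθ y hy.1 r hr i).2))

/-- angles and sines cost at most `r_* = L^{ρ'}` through `τ_L`.
(`angles`; `log|sd| ≤ |d| ≤ C(1+L^{ρ₁})` by `θ_le`; `slice_logdef` for `sd_i` with the cut `cutL ∧ angle bound`, `B1 = L^{ρ'}`, `ρ₁ < ρ' < 1`.) -/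
theorem sines : ∃ ρ' : ℝ, 0 < ρ' ∧ ρ' < 1 ∧
    Sl.Rare fun L W => {ω | ∃ n, Sl.Upto W L n ω ∧ ¬ Sl.AS (L ^ ρ') (W.y n ω)} := by
  obtain ⟨ρ₁, h0, h1, hang⟩ := Sl.angles hS
  obtain ⟨Cθ, hCθ, hθ⟩ := Sl.ini_sd_upper hS
  obtain ⟨C0, hC0, hreal⟩ := Sl.real_bounds hS
  set ρ' : ℝ := (1 + ρ₁) / 2 with hρ'
  have hρ0 : 0 < ρ' := by rw [hρ']; linarith
  have hρ1 : ρ₁ < ρ' := by rw [hρ']; linarith
  refine ⟨ρ', hρ0, by rw [hρ']; linarith, ?_⟩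
  have hld : ∀ i : Fin Sl.N, Sl.Rare fun L W => {ω | ∃ n, Alive (fun _ _ => True) n ω ∧
      (∀ m, m < n → Real.log ‖Sl.sd ⟪i⟫ (W.y m ω)‖ ≤ C0 + Cθ * (1 + L ^ ρ₁)) ∧
      Real.log ‖Sl.sd ⟪i⟫ (W.y n ω)‖ ≤ -(L ^ ρ')} := by
    intro i
    refine Sl.rare_of_le (fun L => (2 * C0 + Cθ + 1) * L ^ (-ρ') + Cθ * L ^ (-(ρ' - ρ₁))) ?_
      ⟨1, fun L hL => ⟨1, one_pos, fun W hW => ?_⟩⟩
    · have t1 : Tendsto (fun L : ℝ => L ^ (-ρ')) atTop (𝓝 0) := tendsto_rpow_neg_atTop hρ0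
      have t2 : Tendsto (fun L : ℝ => L ^ (-(ρ' - ρ₁))) atTop (𝓝 0) := tendsto_rpow_neg_atTop (by linarith)
      simpa using (t1.const_mul (2 * C0 + Cθ + 1)).add (t2.const_mul Cθ)
    · have hL0 : 0 < L := by linarith
      have hp : 0 < L ^ ρ' := Real.rpow_pos_of_pos hL0 _
      have hp1 : 0 < L ^ ρ₁ := Real.rpow_pos_of_pos hL0 _
      have := Sl.slice_logdef hS W 1 zero_le_one hW (Sl.sd ⟪i⟫) ((Sl.sd_diff hS _).mono Sl.wlk_reg_subset)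
        (fun z hz => (hz.2.1 i).2.1) (fun z hz w hw => hW.sd z hz w hw i) C0 (C0 + Cθ * (1 + L ^ ρ₁)) (L ^ ρ')
        (fun x hx => (hreal x hx i).2.2.2.2.2.1) (by nlinarith) hp (fun _ _ => True) woc_cut_true
      refine this.trans ?_
      have e1 : L ^ (-ρ') = (L ^ ρ')⁻¹ := Real.rpow_neg hL0.le _
      have e2 : L ^ (-(ρ' - ρ₁)) = L ^ ρ₁ * (L ^ ρ')⁻¹ := by
        rw [← Real.rpow_neg hL0.le, ← Real.rpow_add hL0]; ring_nf
      rw [e1, e2]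
      have hnum : 0 ≤ C0 + Cθ * (1 + L ^ ρ₁) + 1 + C0 := by positivity
      calc (C0 + Cθ * (1 + L ^ ρ₁) + 1 + C0) / (C0 + Cθ * (1 + L ^ ρ₁) + 1 + L ^ ρ')
          ≤ (C0 + Cθ * (1 + L ^ ρ₁) + 1 + C0) / L ^ ρ' :=
            div_le_div_of_nonneg_left hnum hp (by nlinarith)
        _ = _ := by rw [div_eq_mul_inv]; ring
  obtain ⟨L1, hL1⟩ := Filter.eventually_atTop.mp
    ((ini_rpow_dom ρ₁ ρ' (2 * Cθ) hρ1).and (ini_const_dom ρ' (2 * Cθ) hρ0))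
  refine Rare.mono' Sl (Rare.union Sl hang (Rare.iUnion Sl hld)) ⟨max 1 L1, fun L hL => ⟨1, one_pos, fun W hW => ?_⟩⟩
  have hLone : 1 ≤ L := (le_max_left _ _).trans hL
  obtain ⟨hd1, hd2⟩ := hL1 L ((le_max_right _ _).trans hL)
  have hreg : ∀ n ω, W.y n ω ∈ Sl.reg := fun n ω => hW.dom ▸ W.y_mem n ω
  rintro ω ⟨n, hn, hAS⟩
  by_cases hbad : ∃ n, Sl.Upto W L n ω ∧ ∃ i : Fin Sl.N, L ^ ρ₁ < ‖Sl.ψ ⟪i⟫ (W.y n ω)‖
  · exact Or.inl hbad
  · right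
    push Not at hbad
    have hup : ∀ m, m ≤ n → ∀ i : Fin Sl.N, Real.log ‖Sl.sd ⟪i⟫ (W.y m ω)‖ ≤ Cθ * (1 + L ^ ρ₁) := fun m hm i =>
      hθ _ (hreg m ω) _ (hbad m (Upto.of_le Sl hn hm)) i
    unfold AS at hAS
    push Not at hAS
    obtain ⟨i, hi⟩ := hAS
    have h2 := hi ((hbad n hn i).trans (ini_rpow_mono hLone hρ1.le))
    rw [Set.mem_iUnion]
    refine ⟨i, n, fun _ _ => trivial, fun m hm => by linarith [hup m hm.le i], ?_⟩
    rcases lt_abs.mp h2 with h3 | h3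
    · have := hup n le_rfl i
      nlinarith
    · linarith

/-- amplitudes are `≤ 2L` at log depth `≤ L + 1` -/
theorem ini_amp_le : ∃ L0 : ℝ, ∀ L, L0 ≤ L → ∀ y ∈ Sl.strip, ∀ j : ℤ, Sl.k j y ≤ L + 1 → Sl.a j y ≤ 2 * L := by
  obtain ⟨C, hC, hamp⟩ := Sl.amplitude_upper hS
  have h1 : ∀ᶠ L : ℝ in atTop, ‖Real.log (3 + L)‖ ≤ (4 * C)⁻¹ * ‖3 + L‖ :=
    (tendsto_atTop_add_const_left atTop (3 : ℝ) tendsto_id).eventually
      (Real.isLittleO_log_id_atTop.bound (by positivity : 0 < (4 * C)⁻¹))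
  obtain ⟨L1, hL1⟩ := Filter.eventually_atTop.mp h1
  refine ⟨max L1 (4 + 2 * C), fun L hL y hy j hk => ?_⟩
  have hLa := hL1 L ((le_max_left _ _).trans hL)
  have hLb : 4 + 2 * C ≤ L := (le_max_right _ _).trans hL
  have hL0 : 0 < L := by linarith
  have h2 := hamp y hy j
  have h3 : max (Sl.k j y) 0 ≤ L + 1 := max_le hk (by linarith)
  have h3' : 0 ≤ max (Sl.k j y) 0 := le_max_right _ _
  have h4 : Real.log (2 + max (Sl.k j y) 0) ≤ Real.log (3 + L) := Real.log_le_log (by linarith) (by linarith)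
  rw [Real.norm_eq_abs, Real.norm_eq_abs, abs_of_pos (by linarith : 0 < 3 + L)] at hLa
  have h5 : Real.log (3 + L) ≤ (4 * C)⁻¹ * (3 + L) := (le_abs_self _).trans hLa
  have h6 : C * Real.log (2 + max (Sl.k j y) 0) ≤ (3 + L) / 4 := by
    calc C * Real.log (2 + max (Sl.k j y) 0) ≤ C * ((4 * C)⁻¹ * (3 + L)) :=
          mul_le_mul_of_nonneg_left (h4.trans h5) hC.le
      _ = (3 + L) / 4 := by field_simp
  linarith

/-- the number of switches: `switch_count` with `Umax = 2L` (`amplitude_upper`, `Upto.k_lt`), `a = -2G`, `b = -G`: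
expected number `≤ 2(2L+2G)/G + 2`. -/
theorem switches (γ ε₁ : ℝ) (hγ : 0 < γ) (hγ1 : γ < 1) (hε : 0 < ε₁) :
    Sl.Rare fun L W => {ω | ∃ n, Sl.Upto W L n ω ∧ ∃ i : Fin Sl.N, L ^ (1 + ε₁ - γ) < (Sl.swA W (L ^ γ) i n ω : ℝ)} := by
  obtain ⟨La, hLa⟩ := Sl.ini_amp_le hS
  have hone : ∀ i : Fin Sl.N, Sl.Rare fun L W =>
      {ω | ∃ n, Sl.Upto W L n ω ∧ L ^ (1 + ε₁ - γ) < (Sl.swA W (L ^ γ) i n ω : ℝ)} := by
    intro i
    refine Sl.rare_of_le (fun L => 4 * L ^ (-ε₁) + 6 * L ^ (-(1 + ε₁ - γ))) ?_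
      ⟨max (max 1 La) (-Real.log Sl.H + 1), fun L hL => ⟨1, one_pos, fun W hW => ?_⟩⟩
    · have t1 : Tendsto (fun L : ℝ => L ^ (-ε₁)) atTop (𝓝 0) := tendsto_rpow_neg_atTop hε
      have t2 : Tendsto (fun L : ℝ => L ^ (-(1 + ε₁ - γ))) atTop (𝓝 0) := tendsto_rpow_neg_atTop (by linarith)
      simpa using (t1.const_mul 4).add (t2.const_mul 6)
    · have hL1 : 1 ≤ L := ((le_max_left _ _).trans (le_max_left _ _)).trans hL
      have hL2 : La ≤ L := ((le_max_right _ _).trans (le_max_left _ _)).trans hL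
      have hLH : -Real.log Sl.H < L := by
        have := (le_max_right _ _).trans hL
        linarith
      have hL0 : 0 < L := by linarith
      have hG : 0 < L ^ γ := Real.rpow_pos_of_pos hL0 _
      have hlam : 0 < L ^ (1 + ε₁ - γ) := Real.rpow_pos_of_pos hL0 _
      have hreg : ∀ n ω, W.y n ω ∈ Sl.reg := fun n ω => hW.dom ▸ W.y_mem n ω
      have hgU : DifferentiableOn ℂ (Sl.fj ⟪i⟫) W.U := by
        rw [hW.dom]; exact (Sl.fj_diff hS _).mono Sl.wlk_reg_subset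
      have h0U : ∀ z ∈ W.U, Sl.fj ⟪i⟫ z ≠ 0 := fun z hz => ((Sl.clk_mem_reg hW hz).2.1 i).1
      obtain ⟨hu, hs⟩ := W.mart_log (Sl.fj ⟪i⟫) hgU h0U
      have := switch_count unif (Sl.cutL W L) (Sl.cut_cutL W hW.dom hS L) (fun n ω => Sl.a ⟪i⟫ (W.y n ω)) hu
        (fun n ω _ => (hs n ω).ge) (-(2 * L ^ γ)) (-(L ^ γ)) (2 * L) (L ^ (1 + ε₁ - γ)) (by linarith) (by linarith)
        (fun n ω h => hLa L hL2 _ (hreg n ω).1 _ (Upto.k_lt Sl hS hW hLH h i).le) hlam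
      refine this.trans (le_of_eq ?_)
      have e1 : L ^ (-ε₁) = L * (L ^ γ)⁻¹ * (L ^ (1 + ε₁ - γ))⁻¹ := by
        rw [← Real.rpow_neg hL0.le, ← Real.rpow_neg hL0.le]
        nth_rewrite 2 [← Real.rpow_one L]
        rw [← Real.rpow_add hL0, ← Real.rpow_add hL0]; ring_nf
      have e2 : L ^ (-(1 + ε₁ - γ)) = (L ^ (1 + ε₁ - γ))⁻¹ := Real.rpow_neg hL0.le _
      rw [e1, e2]
      field_simp
      ring
  refine Rare.mono Sl (Rare.iUnion Sl hone) fun L W => ?_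
  rintro ω ⟨n, hn, i, hi⟩
  exact Set.mem_iUnion.mpr ⟨i, n, hn, hi⟩

/-! ### LF-S10d-2: the masked integrals (10.25) -/

omit hS in
theorem _root_.Claimed.Agent.R269.ini_dot_evec_le (D : ℂ × ℂ) (θ : ℂ) :
    ‖dotC D (evecC θ)‖ ≤ 2 * ‖D‖ * Real.exp |θ.im| := by
  unfold dotC evecC
  calc ‖D.1 * -Complex.sin θ + D.2 * Complex.cos θ‖ ≤ ‖D.1‖ * ‖Complex.sin θ‖ + ‖D.2‖ * ‖Complex.cos θ‖ := by
        refine (norm_add_le _ _).trans ?_
        rw [norm_mul, norm_mul, norm_neg]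
    _ ≤ ‖D‖ * Real.exp |θ.im| + ‖D‖ * Real.exp |θ.im| :=
        add_le_add (mul_le_mul (norm_fst_le D) (clk_norm_sin_le _) (norm_nonneg _) (norm_nonneg _))
          (mul_le_mul (norm_snd_le D) (clk_norm_cos_le _) (norm_nonneg _) (norm_nonneg _))
    _ = _ := by ring

omit hS in
theorem _root_.Claimed.Agent.R269.ini_dot_nvec_le (D : ℂ × ℂ) (θ : ℂ) :
    ‖dotC D (nvecC θ)‖ ≤ 2 * ‖D‖ * Real.exp |θ.im| := by
  unfold dotC nvecC
  calc ‖D.1 * Complex.cos θ + D.2 * Complex.sin θ‖ ≤ ‖D.1‖ * ‖Complex.cos θ‖ + ‖D.2‖ * ‖Complex.sin θ‖ := by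
        refine (norm_add_le _ _).trans ?_
        rw [norm_mul, norm_mul]
    _ ≤ ‖D‖ * Real.exp |θ.im| + ‖D‖ * Real.exp |θ.im| :=
        add_le_add (mul_le_mul (norm_fst_le D) (clk_norm_cos_le _) (norm_nonneg _) (norm_nonneg _))
          (mul_le_mul (norm_snd_le D) (clk_norm_sin_le _) (norm_nonneg _) (norm_nonneg _))
    _ = _ := by ring

omit hS in
theorem ini_X_le_maxX (y : ℂ) (i : Fin Sl.N) : ‖Sl.X ⟪i⟫ y‖ ≤ Sl.maxX y :=
  le_ciSup (f := fun i : Fin Sl.N => ‖Sl.X ⟪i⟫ y‖) (Set.finite_range _).bddAbove i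

omit hS in
theorem ini_maxX_nonneg (y : ℂ) : 0 ≤ Sl.maxX y := (norm_nonneg _).trans (Sl.ini_X_le_maxX y 0)

omit hS in
theorem ini_maxX_le (y : ℂ) (B : ℝ) (h : ∀ i : Fin Sl.N, ‖Sl.X ⟪i⟫ y‖ ≤ B) : Sl.maxX y ≤ B := ciSup_le h

omit hS in
theorem ini_Rrun_mono (W : Walk) (ω : Om ℝ) : Monotone fun n => Sl.Rrun W n ω :=
  monotone_nat_of_le_succ fun _ => le_max_left _ _

omit hS in
theorem ini_le_Rrun (W : Walk) (n : ℕ) (ω : Om ℝ) : 1 + Sl.maxX (W.y n ω) ≤ Sl.Rrun W n ω := by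
  cases n with
  | zero => exact le_rfl
  | succ n => exact le_max_right _ _

omit hS in
theorem ini_one_le_Rrun (W : Walk) (n : ℕ) (ω : Om ℝ) : 1 ≤ Sl.Rrun W n ω := by
  linarith [Sl.ini_le_Rrun W n ω, Sl.ini_maxX_nonneg (W.y n ω)]

omit hS in
theorem ini_X_le_Rrun (W : Walk) (n : ℕ) (ω : Om ℝ) (i : Fin Sl.N) : ‖Sl.X ⟪i⟫ (W.y n ω)‖ ≤ Sl.Rrun W n ω := by
  linarith [Sl.ini_le_Rrun W n ω, Sl.ini_X_le_maxX (W.y n ω) i]

omit hS in
theorem ini_Pmod_sub (W : Walk) (G : ℝ) (i : Fin Sl.N) (a m : ℕ) (ω : Om ℝ) (ham : a ≤ m)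
    (hst : ∀ l, a ≤ l → l < m → Sl.stA W G i l ω = false) :
    Sl.Pmod W G i m ω - Sl.Pmod W G i a ω = Sl.X ⟪i⟫ (W.y m ω) - Sl.X ⟪i⟫ (W.y a ω) := by
  unfold Pmod
  rw [← Finset.sum_Ico_eq_sub _ ham, ← Finset.sum_Ico_sub (fun l => Sl.X ⟪i⟫ (W.y l ω)) ham]
  refine Finset.sum_congr rfl fun l hl => ?_
  rw [Finset.mem_Ico] at hl
  rw [if_pos (hst l hl.1 hl.2)]

omit hS in
/-- the summand of `Ttin` -/
theorem ini_Ttin_sub (W : Walk) (G : ℝ) (i : Fin Sl.N) (a m : ℕ) (ω : Om ℝ) (ham : a ≤ m) :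
    Sl.Ttin W G i m ω - Sl.Ttin W G i a ω = ∑ l ∈ Finset.Ico a m, if Sl.stA W G i l ω = true then
      ((Sl.Rrun W l ω)⁻¹ : ℂ) * (Sl.Hs ⟪i⟫ (W.y (l + 1) ω) - Sl.Hs ⟪i⟫ (W.y l ω)) else 0 := by
  unfold Ttin
  rw [← Finset.sum_Ico_eq_sub _ ham]

omit hS in
/-- Abel summation on an interval where the site is tiny -/
theorem ini_Hs_sub_le (W : Walk) (G ε : ℝ) (i : Fin Sl.N) (a m : ℕ) (ω : Om ℝ) (ham : a < m)
    (hst : ∀ l, a ≤ l → l < m → Sl.stA W G i l ω = true)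
    (hT : ∀ l, l ≤ m → ‖Sl.Ttin W G i l ω‖ ≤ ε) :
    ‖Sl.Hs ⟪i⟫ (W.y m ω) - Sl.Hs ⟪i⟫ (W.y a ω)‖ ≤ 4 * ε * Sl.Rrun W (m - 1) ω := by
  have h1 := abel_bound (fun n => Sl.Rrun W n ω) (Sl.ini_Rrun_mono W ω)
    (fun n => zero_le_one.trans (Sl.ini_one_le_Rrun W n ω))
    (fun l => if Sl.stA W G i l ω = true then
      ((Sl.Rrun W l ω)⁻¹ : ℂ) * (Sl.Hs ⟪i⟫ (W.y (l + 1) ω) - Sl.Hs ⟪i⟫ (W.y l ω)) else 0) a m ham (2 * ε)
    (fun k hak hkm => by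
      rw [← Sl.ini_Ttin_sub W G i a k ω hak]
      exact (norm_sub_le _ _).trans (by linarith [hT k hkm, hT a ham.le]))
  have h2 : ∑ l ∈ Finset.Ico a m, ((Sl.Rrun W l ω : ℝ) : ℂ) * (if Sl.stA W G i l ω = true then
      ((Sl.Rrun W l ω)⁻¹ : ℂ) * (Sl.Hs ⟪i⟫ (W.y (l + 1) ω) - Sl.Hs ⟪i⟫ (W.y l ω)) else 0) =
      Sl.Hs ⟪i⟫ (W.y m ω) - Sl.Hs ⟪i⟫ (W.y a ω) := by
    rw [← Finset.sum_Ico_sub (fun l => Sl.Hs ⟪i⟫ (W.y l ω)) ham.le]
    refine Finset.sum_congr rfl fun l hl => ?_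
    rw [Finset.mem_Ico] at hl
    rw [if_pos (hst l hl.1 hl.2), ← mul_assoc, mul_inv_cancel₀, one_mul]
    have := Sl.ini_one_le_Rrun W l ω
    exact_mod_cast (by linarith : Sl.Rrun W l ω ≠ 0)
  rw [h2] at h1
  linarith

/-- `l2max` for a holomorphic function along the walk, with the clock dominated by a multiple of the shape clock -/
theorem ini_masked (W : Walk) (κ : ℝ) (hW : Sl.Fine W κ) (i : Fin Sl.N) (g : ℂ → ℂ) (hg : DifferentiableOn ℂ g Sl.reg)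
    (c : ℕ → Om ℝ → ℝ) (hc : Proc c) (K G lam : ℝ) (hK : 0 ≤ K) (hG : 0 < G) (hl : 0 < lam) :
    Pw {ω | ∃ n, (∀ m, m < n → c m ω ^ 2 * W.qv g (W.y m ω) ≤ K * Sl.qs W i m ω) ∧
        lam ≤ ‖∑ m ∈ Finset.range n, (c m ω : ℂ) * (g (W.y (m + 1) ω) - g (W.y m ω))‖}
      ≤ 2 * Sl.H ^ 2 / G + K * G / lam ^ 2 := by
  have hgU : DifferentiableOn ℂ g W.U := by rw [hW.dom]; exact hg
  obtain ⟨hM, hm⟩ := W.mart_holo g hgU
  have hv : Proc (fun n ω => W.qv g (W.y n ω)) := W.proc_comp _ (W.qv_continuousOn _ hgU)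
  have h1 := l2max unif (fun _ _ => True) woc_cut_true (fun n ω => g (W.y n ω)) hM c
    (fun n ω => W.qv g (W.y n ω)) hc hv (fun n ω _ => hm n ω) (fun n ω _ => (W.var_holo _ n ω).le)
    (K * G) lam (by positivity) hl
  have h2 := Sl.shape_clock hS W κ hW i G hG
  refine (measureReal_mono ?_ (measure_ne_top _ _)).trans ((measureReal_union_le _ _).trans (add_le_add h2 h1))
  rintro ω ⟨n, hn, hlam⟩
  by_cases hq : G < ∑ m ∈ Finset.range n, Sl.qs W i m ω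
  · exact Or.inl ⟨n, hq⟩
  · refine Or.inr ⟨n, fun _ _ => trivial, ?_, hlam⟩
    calc ∑ m ∈ Finset.range n, c m ω ^ 2 * W.qv g (W.y m ω) ≤ ∑ m ∈ Finset.range n, K * Sl.qs W i m ω :=
          Finset.sum_le_sum fun m hm => hn m (Finset.mem_range.mp hm)
      _ = K * ∑ m ∈ Finset.range n, Sl.qs W i m ω := by rw [Finset.mul_sum]
      _ ≤ K * G := mul_le_mul_of_nonneg_left (not_lt.mp hq) hK

/-- oscillation of `s_i'` on a step disc -/
theorem ini_s'_osc (W : Walk) (hW : Sl.Fine W 1) (i : Fin Sl.N) (z : ℂ) (hz : z ∈ Sl.reg) :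
    ∀ w ∈ closedBall z (W.r z), ‖deriv (Sl.s ⟪i⟫) w‖ ≤ Real.exp 1 * ‖deriv (Sl.s ⟪i⟫) z‖ := by
  intro w hw
  have hzU : z ∈ W.U := hW.dom ▸ hz
  have hwr : w ∈ Sl.reg := Sl.clk_mem_reg hW (W.woc_closedBall_subset hzU hw)
  have h2 := (abs_le.mp (hW.s' _ hz w hw i)).2
  have p1 : 0 < ‖Sl.s' ⟪i⟫ w‖ := norm_pos_iff.mpr (Sl.s'_ne hS i w hwr)
  have p2 : 0 < ‖Sl.s' ⟪i⟫ z‖ := norm_pos_iff.mpr (Sl.s'_ne hS i _ hz)
  have h3 : Real.log ‖Sl.s' ⟪i⟫ w‖ ≤ 1 + Real.log ‖Sl.s' ⟪i⟫ z‖ := by linarith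
  have h4 := Real.exp_le_exp.mpr h3
  rw [Real.exp_add, Real.exp_log p1, Real.exp_log p2] at h4
  exact h4

/-- the clock of a position component at a moderate site -/
theorem ini_qv_X (W : Walk) (hW : Sl.Fine W 1) (i : Fin Sl.N) (z : ℂ) (hz : z ∈ Sl.reg) (G r : ℝ)
    (ha : -(2 * G) < Sl.a ⟪i⟫ z) (hψ : ‖Sl.ψ ⟪i⟫ z‖ ≤ r) :
    W.qv (fun y => (Sl.X ⟪i⟫ y).1) z ≤ Real.exp (2 * Real.log Sl.Sh.G.c + 2 * r + 8 * G + 8) * W.qv (Sl.s ⟪i⟫) z ∧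
    W.qv (fun y => (Sl.X ⟪i⟫ y).2) z ≤ Real.exp (2 * Real.log Sl.Sh.G.c + 2 * r + 8 * G + 8) * W.qv (Sl.s ⟪i⟫) z := by
  have hc := Sl.Sh.G.c_pos
  have hzU : z ∈ W.U := hW.dom ▸ hz
  have hd1 : DifferentiableOn ℂ (fun y => (Sl.X ⟪i⟫ y).1) W.U := by rw [hW.dom]; exact (Sl.X_diff hS i).1
  have hd2 : DifferentiableOn ℂ (fun y => (Sl.X ⟪i⟫ y).2) W.U := by rw [hW.dom]; exact (Sl.X_diff hS i).2
  set M : ℝ := Sl.Sh.G.c * Real.exp (r + 1) * Real.exp (2 * G + 1) ^ 2 with hM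
  have hM0 : 0 ≤ M := by positivity
  have e : M ^ 2 * Real.exp (2 * 1) = Real.exp (2 * Real.log Sl.Sh.G.c + 2 * r + 8 * G + 8) := by
    have e1 : Sl.Sh.G.c = Real.exp (Real.log Sl.Sh.G.c) := (Real.exp_log hc).symm
    rw [hM]
    nth_rewrite 1 [e1]
    rw [← Real.exp_nat_mul, ← Real.exp_add, ← Real.exp_add, ← Real.exp_nat_mul, ← Real.exp_add]
    congr 1
    push_cast
    ring
  have hpt : ∀ w ∈ closedBall z (W.r z), w ∈ Sl.reg ∧ Real.exp |(Sl.ψ ⟪i⟫ w).im| ≤ Real.exp (r + 1) ∧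
      ‖(Sl.fj ⟪i⟫ w)⁻¹‖ ≤ Real.exp (2 * G + 1) := by
    intro w hw
    have hwr : w ∈ Sl.reg := Sl.clk_mem_reg hW (W.woc_closedBall_subset hzU hw)
    refine ⟨hwr, Real.exp_le_exp.mpr ?_, clk_inv_le_exp (hwr.2.1 i).1 ?_⟩
    · have h1 := hW.ψ z hz w hw i
      have h2 : ‖Sl.ψ ⟪i⟫ w‖ ≤ ‖Sl.ψ ⟪i⟫ z‖ + ‖Sl.ψ ⟪i⟫ w - Sl.ψ ⟪i⟫ z‖ := by
        have := norm_add_le (Sl.ψ ⟪i⟫ z) (Sl.ψ ⟪i⟫ w - Sl.ψ ⟪i⟫ z)
        rwa [add_sub_cancel] at this
      exact (Complex.abs_im_le_norm _).trans (by linarith)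
    · have h1 := (abs_le.mp (hW.a z hz w hw i)).1
      have h2 : Sl.a ⟪i⟫ w = Real.log ‖Sl.fj ⟪i⟫ w‖ := rfl
      linarith
  have hbd : ∀ (t : ℂ) (w : ℂ), w ∈ closedBall z (W.r z) → ‖t‖ ≤ Real.exp |(Sl.ψ ⟪i⟫ w).im| →
      ‖(Sl.Sh.G.c : ℂ) * t * (Sl.fj ⟪i⟫ w)⁻¹ ^ 2 * Sl.s' ⟪i⟫ w‖ ≤ M * ‖deriv (Sl.s ⟪i⟫) w‖ := by
    intro t w hw ht
    obtain ⟨-, h1, h2⟩ := hpt w hw
    rw [norm_mul, norm_mul, norm_mul, norm_pow, Complex.norm_real, Real.norm_eq_abs, abs_of_pos hc, hM]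
    refine mul_le_mul_of_nonneg_right ?_ (norm_nonneg _)
    exact mul_le_mul (mul_le_mul_of_nonneg_left (ht.trans h1) hc.le) (pow_le_pow_left₀ (norm_nonneg _) h2 2)
      (by positivity) (by positivity)
  constructor
  · rw [← e]
    refine W.qv_compare _ _ hd1 (Sl.clk_s_diff hS hW i) z hzU M 1 hM0 (fun w hw => ?_) (Sl.ini_s'_osc hS W hW i z hz)
    rw [(Sl.deriv_X hS i w (hpt w hw).1).1]
    refine hbd _ w hw ?_
    show ‖-Complex.sin (Sl.ψ ⟪i⟫ w)‖ ≤ _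
    rw [norm_neg]
    exact clk_norm_sin_le _
  · rw [← e]
    refine W.qv_compare _ _ hd2 (Sl.clk_s_diff hS hW i) z hzU M 1 hM0 (fun w hw => ?_) (Sl.ini_s'_osc hS W hW i z hz)
    rw [(Sl.deriv_X hS i w (hpt w hw).1).2]
    exact hbd _ w hw (clk_norm_cos_le _)

theorem ini_a_proc (W : Walk) (hW : W.U = Sl.reg) (i : Fin Sl.N) : Proc fun n ω => Sl.a ⟪i⟫ (W.y n ω) :=
  W.proc_comp (Sl.a ⟪i⟫) (by rw [hW]; exact Sl.wlk_a_cont hS i)

theorem ini_stA_reads (W : Walk) (hW : W.U = Sl.reg) (G : ℝ) (i : Fin Sl.N) (n : ℕ) :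
    Reads n (Sl.stA W G i n) ∧ Measurable (Sl.stA W G i n) :=
  stat_reads _ _ _ (Sl.ini_a_proc hS W hW i) n

theorem ini_mask_proc (W : Walk) (hW : W.U = Sl.reg) (G : ℝ) (i : Fin Sl.N) (b : Bool) :
    Proc fun n ω => if Sl.stA W G i n ω = b then (1 : ℝ) else 0 := by
  refine ⟨fun n => ?_, fun n ω ω' h => ?_, fun n => ⟨1, fun ω => ?_⟩⟩
  · exact Measurable.ite ((Sl.ini_stA_reads hS W hW G i n).2 (measurableSet_singleton b)) measurable_const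
      measurable_const
  · simp only [(Sl.ini_stA_reads hS W hW G i n).1 ω ω' h]
  · split_ifs <;> simp

omit hS in
theorem ini_Pmod_fst (W : Walk) (G : ℝ) (i : Fin Sl.N) (n : ℕ) (ω : Om ℝ) :
    (Sl.Pmod W G i n ω).1 = ∑ m ∈ Finset.range n, (((if Sl.stA W G i m ω = false then (1 : ℝ) else 0 : ℝ)) : ℂ) *
      ((Sl.X ⟪i⟫ (W.y (m + 1) ω)).1 - (Sl.X ⟪i⟫ (W.y m ω)).1) := by
  unfold Pmod
  rw [Prod.fst_sum]
  refine Finset.sum_congr rfl fun m _ => ?_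
  split_ifs <;> simp

omit hS in
theorem ini_Pmod_snd (W : Walk) (G : ℝ) (i : Fin Sl.N) (n : ℕ) (ω : Om ℝ) :
    (Sl.Pmod W G i n ω).2 = ∑ m ∈ Finset.range n, (((if Sl.stA W G i m ω = false then (1 : ℝ) else 0 : ℝ)) : ℂ) *
      ((Sl.X ⟪i⟫ (W.y (m + 1) ω)).2 - (Sl.X ⟪i⟫ (W.y m ω)).2) := by
  unfold Pmod
  rw [Prod.snd_sum]
  refine Finset.sum_congr rfl fun m _ => ?_
  split_ifs <;> simp

omit hS in
theorem _root_.Claimed.Agent.R269.ini_tendsto_exp_neg_rpow (γ c : ℝ) (hγ : 0 < γ) (hc : 0 < c) :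
    Tendsto (fun L : ℝ => Real.exp (-(c * L ^ γ))) atTop (𝓝 0) :=
  Real.tendsto_exp_neg_atTop_nhds_zero.comp ((tendsto_rpow_atTop hγ).const_mul_atTop hc)

/-- moderate positions: `l2max` for each component of `X_i` with mask `1{moderate}`, cut `cutL ∧ AS r_*`, clock `≤ e^{10G} ∑ qs ≤ G e^{10G}`
(`qv_compare` with `deriv_X`, `stat_false`, `Fine.*`; `shape_clock` with `lam = G`), threshold `e^{6G}`. -/
theorem masked_mod (ρ' γ : ℝ) (hρ : 0 < ρ') (hργ : ρ' < γ) (hγ1 : γ < 1) :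
    Sl.Rare fun L W => {ω | ∃ n, Sl.Upto W L n ω ∧ (∀ m, m < n → Sl.AS (L ^ ρ') (W.y m ω)) ∧ ∃ i : Fin Sl.N,
      Real.exp (6 * L ^ γ) ≤ ‖Sl.Pmod W (L ^ γ) i n ω‖} := by
  have hγ : 0 < γ := hρ.trans hργ
  have hone : ∀ i : Fin Sl.N, Sl.Rare fun L W => {ω | ∃ n, (∀ m, m < n → Sl.AS (L ^ ρ') (W.y m ω)) ∧
      Real.exp (6 * L ^ γ) ≤ ‖Sl.Pmod W (L ^ γ) i n ω‖} := by
    intro i
    obtain ⟨L1, hL1⟩ := Filter.eventually_atTop.mp
      ((ini_rpow_dom ρ' γ 2 hργ).and (ini_const_dom γ (2 * Real.log Sl.Sh.G.c + 8) hγ))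
    refine Sl.rare_of_le (fun L => 2 * (2 * Sl.H ^ 2 * L ^ (-γ) + Real.exp (-(1 * L ^ γ)))) ?_
      ⟨max 1 L1, fun L hL => ⟨1, one_pos, fun W hW => ?_⟩⟩
    · have t1 : Tendsto (fun L : ℝ => L ^ (-γ)) atTop (𝓝 0) := tendsto_rpow_neg_atTop hγ
      have t2 := ini_tendsto_exp_neg_rpow γ 1 hγ one_pos
      simpa using ((t1.const_mul (2 * Sl.H ^ 2)).add t2).const_mul 2
    · have hLone : 1 ≤ L := (le_max_left _ _).trans hL
      have hL0 : 0 < L := by linarith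
      obtain ⟨hd1, hd2⟩ := hL1 L ((le_max_right _ _).trans hL)
      set G : ℝ := L ^ γ with hG
      set r : ℝ := L ^ ρ' with hr
      have hG0 : 0 < G := Real.rpow_pos_of_pos hL0 _
      have hreg : ∀ n ω, W.y n ω ∈ Sl.reg := fun n ω => hW.dom ▸ W.y_mem n ω
      have hc := Sl.ini_mask_proc hS W hW.dom G i false
      have hclock : ∀ ω m, Sl.AS r (W.y m ω) →
          (if Sl.stA W G i m ω = false then (1 : ℝ) else 0) ^ 2 * W.qv (fun y => (Sl.X ⟪i⟫ y).1) (W.y m ω)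
            ≤ Real.exp (10 * G) * Sl.qs W i m ω ∧
          (if Sl.stA W G i m ω = false then (1 : ℝ) else 0) ^ 2 * W.qv (fun y => (Sl.X ⟪i⟫ y).2) (W.y m ω)
            ≤ Real.exp (10 * G) * Sl.qs W i m ω := by
        intro ω m hAS
        have hq0 : 0 ≤ Sl.qs W i m ω := W.qv_nonneg _ _
        by_cases hst : Sl.stA W G i m ω = false
        · rw [if_pos hst, one_pow, one_mul, one_mul]
          have ha : -(2 * G) < Sl.a ⟪i⟫ (W.y m ω) := stat_false _ _ (by linarith) _ m ω hst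
          have h1 := Sl.ini_qv_X hS W hW i _ (hreg m ω) G r ha (hAS i).1
          have h2 : Real.exp (2 * Real.log Sl.Sh.G.c + 2 * r + 8 * G + 8) ≤ Real.exp (10 * G) :=
            Real.exp_le_exp.mpr (by linarith)
          exact ⟨h1.1.trans (mul_le_mul_of_nonneg_right h2 hq0), h1.2.trans (mul_le_mul_of_nonneg_right h2 hq0)⟩
        · rw [if_neg hst]
          have : 0 ≤ Real.exp (10 * G) * Sl.qs W i m ω := by positivity
          constructor <;> simpa using this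
      have b1 := Sl.ini_masked hS W 1 hW i (fun y => (Sl.X ⟪i⟫ y).1) (Sl.X_diff hS i).1 _ hc (Real.exp (10 * G)) G
        (Real.exp (6 * G)) (Real.exp_pos _).le hG0 (Real.exp_pos _)
      have b2 := Sl.ini_masked hS W 1 hW i (fun y => (Sl.X ⟪i⟫ y).2) (Sl.X_diff hS i).2 _ hc (Real.exp (10 * G)) G
        (Real.exp (6 * G)) (Real.exp_pos _).le hG0 (Real.exp_pos _)
      have e1 : 2 * Sl.H ^ 2 / G + Real.exp (10 * G) * G / Real.exp (6 * G) ^ 2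
          ≤ 2 * Sl.H ^ 2 * L ^ (-γ) + Real.exp (-(1 * G)) := by
        have e2 : L ^ (-γ) = G⁻¹ := Real.rpow_neg hL0.le _
        have e3 : Real.exp (10 * G) * G / Real.exp (6 * G) ^ 2 = G * Real.exp (-(2 * G)) := by
          rw [← Real.exp_nat_mul, div_eq_mul_inv, ← Real.exp_neg, mul_right_comm, ← Real.exp_add, mul_comm]
          congr 2
          push_cast
          ring
        have e4 : G * Real.exp (-(2 * G)) ≤ Real.exp (-(1 * G)) := by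
          have h1 : G ≤ Real.exp G := by linarith [Real.add_one_le_exp G]
          calc G * Real.exp (-(2 * G)) ≤ Real.exp G * Real.exp (-(2 * G)) :=
                mul_le_mul_of_nonneg_right h1 (Real.exp_pos _).le
            _ = _ := by rw [← Real.exp_add]; ring_nf
        rw [e2, e3, div_eq_mul_inv]
        linarith
      refine (measureReal_mono ?_ (measure_ne_top _ _)).trans ((measureReal_union_le _ _).trans
        ((add_le_add (b1.trans e1) (b2.trans e1)).trans (le_of_eq (by ring))))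
      rintro ω ⟨n, hAS, hlam⟩
      rw [Prod.norm_def, le_max_iff] at hlam
      rcases hlam with h | h
      · refine Or.inl ⟨n, fun m hm => (hclock ω m (hAS m hm)).1, ?_⟩
        rwa [Sl.ini_Pmod_fst] at h
      · refine Or.inr ⟨n, fun m hm => (hclock ω m (hAS m hm)).2, ?_⟩
        rwa [Sl.ini_Pmod_snd] at h
  refine Rare.mono Sl (Rare.iUnion Sl hone) fun L W => ?_
  rintro ω ⟨n, -, hAS, i, hi⟩
  exact Set.mem_iUnion.mpr ⟨i, n, hAS, hi⟩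

/-- the clock of a support function at a tiny site -/
theorem ini_qv_Hs (W : Walk) (hW : Sl.Fine W 1) (i : Fin Sl.N) (z : ℂ) (hz : z ∈ Sl.reg) (G r R : ℝ)
    (ha : Sl.a ⟪i⟫ z < -G) (hψ : ‖Sl.ψ ⟪i⟫ z‖ ≤ r) (hR : 1 + ‖Sl.X ⟪i⟫ z‖ ≤ R) :
    W.qv (Sl.Hs ⟪i⟫) z ≤ R ^ 2 * Real.exp (Real.log 4 + 2 * r - 2 * G + 8) * W.qv (Sl.s ⟪i⟫) z := by
  have hzU : z ∈ W.U := hW.dom ▸ hz
  have hR0 : 0 < R := by linarith [norm_nonneg (Sl.X ⟪i⟫ z)]
  have hd : DifferentiableOn ℂ (Sl.Hs ⟪i⟫) W.U := by rw [hW.dom]; exact Sl.Hs_diff hS i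
  set M : ℝ := 2 * (Real.exp 1 * R) * Real.exp (r + 1) * Real.exp (-G + 1) with hM
  have hM0 : 0 ≤ M := by positivity
  have e : M ^ 2 * Real.exp (2 * 1) = R ^ 2 * Real.exp (Real.log 4 + 2 * r - 2 * G + 8) := by
    have e1 : (4 : ℝ) = Real.exp (Real.log 4) := (Real.exp_log (by norm_num)).symm
    have e2 : M ^ 2 * Real.exp (2 * 1) = R ^ 2 * (4 * (Real.exp 1 ^ 2 * Real.exp (r + 1) ^ 2 * Real.exp (-G + 1) ^ 2 *
        Real.exp (2 * 1))) := by rw [hM]; ring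
    rw [e2]
    nth_rewrite 1 [e1]
    rw [← Real.exp_nat_mul, ← Real.exp_nat_mul, ← Real.exp_nat_mul, ← Real.exp_add, ← Real.exp_add, ← Real.exp_add,
      ← Real.exp_add]
    congr 2
    push_cast
    ring
  rw [← e]
  refine W.qv_compare _ _ hd (Sl.clk_s_diff hS hW i) z hzU M 1 hM0 (fun w hw => ?_) (Sl.ini_s'_osc hS W hW i z hz)
  have hwr : w ∈ Sl.reg := Sl.clk_mem_reg hW (W.woc_closedBall_subset hzU hw)
  rw [Sl.deriv_Hs hS i w hwr, norm_mul, norm_mul, hM]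
  refine mul_le_mul_of_nonneg_right ?_ (norm_nonneg _)
  have h1 : Real.exp |(Sl.ψ ⟪i⟫ w).im| ≤ Real.exp (r + 1) := by
    refine Real.exp_le_exp.mpr ?_
    have h1 := hW.ψ z hz w hw i
    have h2 : ‖Sl.ψ ⟪i⟫ w‖ ≤ ‖Sl.ψ ⟪i⟫ z‖ + ‖Sl.ψ ⟪i⟫ w - Sl.ψ ⟪i⟫ z‖ := by
      have := norm_add_le (Sl.ψ ⟪i⟫ z) (Sl.ψ ⟪i⟫ w - Sl.ψ ⟪i⟫ z)
      rwa [add_sub_cancel] at this
    exact (Complex.abs_im_le_norm _).trans (by linarith)
  have h2 : ‖Sl.fj ⟪i⟫ w‖ ≤ Real.exp (-G + 1) := by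
    refine clk_norm_le_exp (hwr.2.1 i).1 ?_
    have h1 := (abs_le.mp (hW.a z hz w hw i)).2
    have h2 : Sl.a ⟪i⟫ w = Real.log ‖Sl.fj ⟪i⟫ w‖ := rfl
    linarith
  have h3 : ‖Sl.X ⟪i⟫ w‖ ≤ Real.exp 1 * R := by
    have h4 := (abs_le.mp (hW.X z hz w hw i)).2
    have p1 : 0 < 1 + ‖Sl.X ⟪i⟫ w‖ := by linarith [norm_nonneg (Sl.X ⟪i⟫ w)]
    have p2 : 0 < 1 + ‖Sl.X ⟪i⟫ z‖ := by linarith [norm_nonneg (Sl.X ⟪i⟫ z)]
    have h5 : Real.log (1 + ‖Sl.X ⟪i⟫ w‖) ≤ 1 + Real.log (1 + ‖Sl.X ⟪i⟫ z‖) := by linarith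
    have h6 := Real.exp_le_exp.mpr h5
    rw [Real.exp_add, Real.exp_log p1, Real.exp_log p2] at h6
    have h7 : Real.exp 1 * (1 + ‖Sl.X ⟪i⟫ z‖) ≤ Real.exp 1 * R := mul_le_mul_of_nonneg_left hR (Real.exp_pos _).le
    linarith
  refine mul_le_mul ((ini_dot_evec_le _ _).trans ?_) h2 (norm_nonneg _) (by positivity)
  exact mul_le_mul (by linarith) h1 (Real.exp_pos _).le (by positivity)

theorem ini_normX_cont (i : Fin Sl.N) : ContinuousOn (fun y => ‖Sl.X ⟪i⟫ y‖) Sl.reg :=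
  ((Sl.X_diff hS i).1.continuousOn.prodMk (Sl.X_diff hS i).2.continuousOn).norm

theorem ini_maxX_meas (W : Walk) (hW : W.U = Sl.reg) (n : ℕ) : Measurable fun ω => Sl.maxX (W.y n ω) := by
  unfold maxX
  exact Measurable.iSup fun i =>
    (W.proc_comp (fun y => ‖Sl.X ⟪i⟫ y‖) (by rw [hW]; exact Sl.ini_normX_cont hS i)).meas n

theorem ini_Rrun_meas (W : Walk) (hW : W.U = Sl.reg) (n : ℕ) : Measurable (Sl.Rrun W n) := by
  induction n with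
  | zero => exact measurable_const.add (Sl.ini_maxX_meas hS W hW 0)
  | succ n ih => exact ih.max (measurable_const.add (Sl.ini_maxX_meas hS W hW (n + 1)))

omit hS in
theorem ini_Rrun_reads (W : Walk) (n : ℕ) : Reads n (Sl.Rrun W n) := by
  induction n with
  | zero =>
    intro ω ω' h
    show 1 + Sl.maxX (W.y 0 ω) = 1 + Sl.maxX (W.y 0 ω')
    rw [W.y_reads 0 ω ω' h]
  | succ n ih =>
    intro ω ω' h
    show max (Sl.Rrun W n ω) (1 + Sl.maxX (W.y (n + 1) ω)) = max (Sl.Rrun W n ω') (1 + Sl.maxX (W.y (n + 1) ω'))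
    rw [W.y_reads (n + 1) ω ω' h, ih ω ω' fun i hi => h i (by omega)]

theorem ini_tmask_proc (W : Walk) (hW : W.U = Sl.reg) (G : ℝ) (i : Fin Sl.N) :
    Proc fun n ω => if Sl.stA W G i n ω = true then (Sl.Rrun W n ω)⁻¹ else 0 := by
  refine ⟨fun n => ?_, fun n ω ω' h => ?_, fun n => ⟨1, fun ω => ?_⟩⟩
  · exact Measurable.ite ((Sl.ini_stA_reads hS W hW G i n).2 (measurableSet_singleton true))
      (Sl.ini_Rrun_meas hS W hW n).inv measurable_const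
  · simp only [(Sl.ini_stA_reads hS W hW G i n).1 ω ω' h, Sl.ini_Rrun_reads W n ω ω' h]
  · have h1 := Sl.ini_one_le_Rrun W n ω
    split_ifs
    · rw [Real.norm_eq_abs, abs_of_nonneg (by positivity)]
      exact inv_le_one_of_one_le₀ h1
    · simp

omit hS in
theorem ini_Ttin_eq (W : Walk) (G : ℝ) (i : Fin Sl.N) (n : ℕ) (ω : Om ℝ) :
    Sl.Ttin W G i n ω = ∑ m ∈ Finset.range n, (((if Sl.stA W G i m ω = true then (Sl.Rrun W m ω)⁻¹ else 0 : ℝ)) : ℂ) *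
      (Sl.Hs ⟪i⟫ (W.y (m + 1) ω) - Sl.Hs ⟪i⟫ (W.y m ω)) := by
  unfold Ttin
  refine Finset.sum_congr rfl fun m _ => ?_
  split_ifs <;> simp

/-- tiny supports: `l2max` for `Hs_i` with coefficient `1{tiny} 𝓡^{-1}`, clock `≤ e^{-G} ∑ qs` (`deriv_Hs`, `stat_true`, `Fine.X`), threshold
`e^{-G/3}`. -/
theorem masked_tiny (ρ' γ : ℝ) (hρ : 0 < ρ') (hργ : ρ' < γ) (hγ1 : γ < 1) :
    Sl.Rare fun L W => {ω | ∃ n, Sl.Upto W L n ω ∧ (∀ m, m < n → Sl.AS (L ^ ρ') (W.y m ω)) ∧ ∃ i : Fin Sl.N,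
      Real.exp (-(L ^ γ / 3)) ≤ ‖Sl.Ttin W (L ^ γ) i n ω‖} := by
  have hγ : 0 < γ := hρ.trans hργ
  have hone : ∀ i : Fin Sl.N, Sl.Rare fun L W => {ω | ∃ n, (∀ m, m < n → Sl.AS (L ^ ρ') (W.y m ω)) ∧
      Real.exp (-(L ^ γ / 3)) ≤ ‖Sl.Ttin W (L ^ γ) i n ω‖} := by
    intro i
    obtain ⟨L1, hL1⟩ := Filter.eventually_atTop.mp
      ((ini_rpow_dom ρ' γ 4 hργ).and (ini_const_dom γ (2 * (Real.log 4 + 8)) hγ))
    refine Sl.rare_of_le (fun L => 2 * Sl.H ^ 2 * L ^ (-γ) + 6 * Real.exp (-(1 / 6 * L ^ γ))) ?_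
      ⟨max 1 L1, fun L hL => ⟨1, one_pos, fun W hW => ?_⟩⟩
    · have t1 : Tendsto (fun L : ℝ => L ^ (-γ)) atTop (𝓝 0) := tendsto_rpow_neg_atTop hγ
      have t2 := ini_tendsto_exp_neg_rpow γ (1 / 6) hγ (by norm_num)
      simpa using (t1.const_mul (2 * Sl.H ^ 2)).add (t2.const_mul 6)
    · have hLone : 1 ≤ L := (le_max_left _ _).trans hL
      have hL0 : 0 < L := by linarith
      obtain ⟨hd1, hd2⟩ := hL1 L ((le_max_right _ _).trans hL)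
      set G : ℝ := L ^ γ with hG
      set r : ℝ := L ^ ρ' with hr
      have hG0 : 0 < G := Real.rpow_pos_of_pos hL0 _
      have hreg : ∀ n ω, W.y n ω ∈ Sl.reg := fun n ω => hW.dom ▸ W.y_mem n ω
      have hc := Sl.ini_tmask_proc hS W hW.dom G i
      have hclock : ∀ ω m, Sl.AS r (W.y m ω) →
          (if Sl.stA W G i m ω = true then (Sl.Rrun W m ω)⁻¹ else 0) ^ 2 * W.qv (Sl.Hs ⟪i⟫) (W.y m ω)
            ≤ Real.exp (-G) * Sl.qs W i m ω := by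
        intro ω m hAS
        have hq0 : 0 ≤ Sl.qs W i m ω := W.qv_nonneg _ _
        by_cases hst : Sl.stA W G i m ω = true
        · rw [if_pos hst]
          have ha : Sl.a ⟪i⟫ (W.y m ω) < -G := stat_true _ _ (by linarith) _ m ω hst
          have hR1 := Sl.ini_one_le_Rrun W m ω
          have h1 := Sl.ini_qv_Hs hS W hW i _ (hreg m ω) G r (Sl.Rrun W m ω) ha (hAS i).1
            (by linarith [Sl.ini_le_Rrun W m ω, Sl.ini_X_le_maxX (W.y m ω) i])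
          have h2 : Real.exp (Real.log 4 + 2 * r - 2 * G + 8) ≤ Real.exp (-G) :=
            Real.exp_le_exp.mpr (by linarith)
          calc (Sl.Rrun W m ω)⁻¹ ^ 2 * W.qv (Sl.Hs ⟪i⟫) (W.y m ω)
              ≤ (Sl.Rrun W m ω)⁻¹ ^ 2 * (Sl.Rrun W m ω ^ 2 * Real.exp (Real.log 4 + 2 * r - 2 * G + 8) *
                  W.qv (Sl.s ⟪i⟫) (W.y m ω)) := mul_le_mul_of_nonneg_left h1 (by positivity)
            _ = Real.exp (Real.log 4 + 2 * r - 2 * G + 8) * Sl.qs W i m ω := by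
                unfold qs
                field_simp
            _ ≤ _ := mul_le_mul_of_nonneg_right h2 hq0
        · rw [if_neg hst]
          have : 0 ≤ Real.exp (-G) * Sl.qs W i m ω := by positivity
          simpa using this
      have b1 := Sl.ini_masked hS W 1 hW i (Sl.Hs ⟪i⟫) (Sl.Hs_diff hS i) _ hc (Real.exp (-G)) G
        (Real.exp (-(G / 3))) (Real.exp_pos _).le hG0 (Real.exp_pos _)
      have e1 : 2 * Sl.H ^ 2 / G + Real.exp (-G) * G / Real.exp (-(G / 3)) ^ 2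
          ≤ 2 * Sl.H ^ 2 * L ^ (-γ) + 6 * Real.exp (-(1 / 6 * G)) := by
        have e2 : L ^ (-γ) = G⁻¹ := Real.rpow_neg hL0.le _
        have e3 : Real.exp (-G) * G / Real.exp (-(G / 3)) ^ 2 = G * Real.exp (-(G / 3)) := by
          rw [← Real.exp_nat_mul, div_eq_mul_inv, ← Real.exp_neg, mul_right_comm, ← Real.exp_add, mul_comm]
          congr 2
          push_cast
          ring
        have e4 : G * Real.exp (-(G / 3)) ≤ 6 * Real.exp (-(1 / 6 * G)) := by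
          have h1 : G / 6 ≤ Real.exp (G / 6) := by linarith [Real.add_one_le_exp (G / 6)]
          calc G * Real.exp (-(G / 3)) = 6 * (G / 6 * Real.exp (-(G / 3))) := by ring
            _ ≤ 6 * (Real.exp (G / 6) * Real.exp (-(G / 3))) := by gcongr
            _ = _ := by rw [← Real.exp_add]; ring_nf
        rw [e2, e3, div_eq_mul_inv]
        linarith
      refine (measureReal_mono ?_ (measure_ne_top _ _)).trans (b1.trans e1)
      rintro ω ⟨n, hAS, hlam⟩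
      refine ⟨n, fun m hm => hclock ω m (hAS m hm), ?_⟩
      rwa [Sl.ini_Ttin_eq] at hlam
  refine Rare.mono Sl (Rare.iUnion Sl hone) fun L W => ?_
  rintro ω ⟨n, -, hAS, i, hi⟩
  exact Set.mem_iUnion.mpr ⟨i, n, hAS, hi⟩

/-! ### LF-S10d-3: the deterministic induction over the switch intervals -/

/-- one interval without switches.  `a ≤ n`, all statuses constant on `[a, n)`. -/
theorem interval_step : ∃ C : ℝ, 0 < C ∧ ∀ (W : Walk) (ω : Om ℝ) (G r : ℝ) (a n : ℕ), W.U = Sl.reg → 1 ≤ r → a ≤ n →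
    C * (1 + r) ≤ G / 3 - 2 →
    (∀ m, m ≤ n → Sl.AS r (W.y m ω)) →
    (∀ i : Fin Sl.N, ∀ m, a ≤ m → m < n → Sl.stA W G i m ω = Sl.stA W G i a ω) →
    (∀ i : Fin Sl.N, ∀ m, m ≤ n → ‖Sl.Pmod W G i m ω‖ ≤ Real.exp (6 * G)) →
    (∀ i : Fin Sl.N, ∀ m, m ≤ n → ‖Sl.Ttin W G i m ω‖ ≤ Real.exp (-(G / 3))) →
    Sl.Rrun W n ω ≤ Real.exp (C * (1 + r)) * (Sl.Rrun W a ω + Real.exp (6 * G)) := by
  obtain ⟨Cr, hCr, hrec⟩ := Sl.reconstruction hS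
  refine ⟨Cr + 10, by positivity, fun W ω G r a n hU hr han hC hAS hst hP hT => ?_⟩
  have hreg : ∀ m, W.y m ω ∈ Sl.reg := fun m => hU ▸ W.y_mem m ω
  set E : ℝ := Real.exp (Cr * (1 + r)) with hE
  set Ra : ℝ := Sl.Rrun W a ω with hRa
  set P : ℝ := Real.exp (6 * G) with hPdef
  set ε : ℝ := Real.exp (-(G / 3)) with hε
  set er : ℝ := Real.exp r with her
  set A : ℝ := E * (2 * er * (Ra + 2 * P)) with hA
  have hRa1 : 1 ≤ Ra := Sl.ini_one_le_Rrun W a ω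
  have hE1 : 1 ≤ E := Real.one_le_exp (by positivity)
  have her1 : 1 ≤ er := Real.one_le_exp (by linarith)
  have hP0 : 0 < P := Real.exp_pos _
  have hε0 : 0 < ε := Real.exp_pos _
  have hsmall : 4 * E * ε ≤ 1 / 2 := by
    have h1 : E * ε = Real.exp (Cr * (1 + r) - G / 3) := by rw [hE, hε, ← Real.exp_add]; ring_nf
    have h2 : Cr * (1 + r) - G / 3 ≤ -9 := by nlinarith
    have h3 : Real.exp (Cr * (1 + r) - G / 3) ≤ Real.exp (-9) := Real.exp_le_exp.mpr h2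
    have h4 : Real.exp (-9) ≤ 10⁻¹ := by
      rw [Real.exp_neg]
      have := Real.add_one_le_exp (9 : ℝ)
      exact inv_anti₀ (by norm_num) (by linarith)
    have h5 : E * ε ≤ 10⁻¹ := by rw [h1]; exact h3.trans h4
    nlinarith
  have hHsX : ∀ m, m ≤ n → ∀ i : Fin Sl.N, ‖Sl.Hs ⟪i⟫ (W.y m ω)‖ ≤ 2 * er * ‖Sl.X ⟪i⟫ (W.y m ω)‖ := by
    intro m hm i
    unfold Hs
    refine (ini_dot_nvec_le _ _).trans ?_
    have h1 : Real.exp |(Sl.ψ ⟪i⟫ (W.y m ω)).im| ≤ er :=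
      Real.exp_le_exp.mpr ((Complex.abs_im_le_norm _).trans (hAS m hm i).1)
    calc 2 * ‖Sl.X ⟪i⟫ (W.y m ω)‖ * Real.exp |(Sl.ψ ⟪i⟫ (W.y m ω)).im| ≤ 2 * ‖Sl.X ⟪i⟫ (W.y m ω)‖ * er :=
          mul_le_mul_of_nonneg_left h1 (by positivity)
      _ = _ := by ring
  have hA_ge : Ra ≤ A := by
    calc Ra ≤ 1 * (2 * 1 * (Ra + 2 * P)) := by linarith
      _ ≤ E * (2 * er * (Ra + 2 * P)) := by gcongr
  have key : ∀ m, a ≤ m → m ≤ n → Sl.Rrun W m ω ≤ 2 * (1 + A) := by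
    intro m ham
    induction m, ham using Nat.le_induction with
    | base => intro _; linarith
    | succ m ham ih =>
      intro hm1
      have ihm := ih (by omega)
      have hRm0 : 0 ≤ Sl.Rrun W m ω := zero_le_one.trans (Sl.ini_one_le_Rrun W m ω)
      show max (Sl.Rrun W m ω) (1 + Sl.maxX (W.y (m + 1) ω)) ≤ 2 * (1 + A)
      refine max_le ihm ?_
      have hHs : ∀ i : Fin Sl.N, ‖Sl.Hs ⟪i⟫ (W.y (m + 1) ω)‖ ≤ 2 * er * (Ra + 2 * P) + 4 * ε * Sl.Rrun W m ω := by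
        intro i
        cases hsa : Sl.stA W G i a ω with
        | false =>
          have h1 := Sl.ini_Pmod_sub W G i a (m + 1) ω (by omega)
            (fun l hl1 hl2 => (hst i l hl1 (by omega)).trans hsa)
          have h2 : ‖Sl.X ⟪i⟫ (W.y (m + 1) ω)‖ ≤ Ra + 2 * P := by
            have e : Sl.X ⟪i⟫ (W.y (m + 1) ω) =
                Sl.X ⟪i⟫ (W.y a ω) + (Sl.Pmod W G i (m + 1) ω - Sl.Pmod W G i a ω) := by rw [h1]; abel
            rw [e]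
            refine (norm_add_le _ _).trans ?_
            have := norm_sub_le (Sl.Pmod W G i (m + 1) ω) (Sl.Pmod W G i a ω)
            linarith [hP i (m + 1) hm1, hP i a han, Sl.ini_X_le_Rrun W a ω i]
          calc ‖Sl.Hs ⟪i⟫ (W.y (m + 1) ω)‖ ≤ 2 * er * ‖Sl.X ⟪i⟫ (W.y (m + 1) ω)‖ := hHsX _ hm1 i
            _ ≤ 2 * er * (Ra + 2 * P) := by gcongr
            _ ≤ _ := by
              have : 0 ≤ 4 * ε * Sl.Rrun W m ω := by positivity
              linarith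
        | true =>
          have h1 := Sl.ini_Hs_sub_le W G ε i a (m + 1) ω (by omega)
            (fun l hl1 hl2 => (hst i l hl1 (by omega)).trans hsa) (fun l hl => hT i l (by omega))
          rw [Nat.add_sub_cancel] at h1
          have h2 : ‖Sl.Hs ⟪i⟫ (W.y a ω)‖ ≤ 2 * er * Ra :=
            (hHsX a han i).trans (mul_le_mul_of_nonneg_left (Sl.ini_X_le_Rrun W a ω i) (by positivity))
          have h3 : ‖Sl.Hs ⟪i⟫ (W.y (m + 1) ω)‖ ≤
              ‖Sl.Hs ⟪i⟫ (W.y a ω)‖ + ‖Sl.Hs ⟪i⟫ (W.y (m + 1) ω) - Sl.Hs ⟪i⟫ (W.y a ω)‖ := by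
            have := norm_add_le (Sl.Hs ⟪i⟫ (W.y a ω)) (Sl.Hs ⟪i⟫ (W.y (m + 1) ω) - Sl.Hs ⟪i⟫ (W.y a ω))
            rwa [add_sub_cancel] at this
          have h4 : 2 * er * Ra ≤ 2 * er * (Ra + 2 * P) := mul_le_mul_of_nonneg_left (by linarith) (by positivity)
          linarith
      have hXb := hrec _ (hreg (m + 1)) r _ (by linarith) (hAS (m + 1) hm1) hHs
      have h5 : Sl.maxX (W.y (m + 1) ω) ≤ E * (2 * er * (Ra + 2 * P) + 4 * ε * Sl.Rrun W m ω) :=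
        Sl.ini_maxX_le _ _ hXb
      have h6 : 4 * E * ε * Sl.Rrun W m ω ≤ 1 / 2 * (2 * (1 + A)) := mul_le_mul hsmall ihm hRm0 (by norm_num)
      have h7 : E * (2 * er * (Ra + 2 * P) + 4 * ε * Sl.Rrun W m ω) = A + 4 * E * ε * Sl.Rrun W m ω := by
        rw [hA]; ring
      linarith
  refine (key n han le_rfl).trans ?_
  have e1 : Real.exp ((Cr + 10) * (1 + r)) = E * er * Real.exp (10 + 9 * r) := by
    rw [hE, her, ← Real.exp_add, ← Real.exp_add]; ring_nf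
  have e2 : 10 ≤ Real.exp (10 + 9 * r) := by
    have := Real.add_one_le_exp (10 + 9 * r)
    linarith
  have hZ : 1 ≤ E * er * (Ra + P) := by
    calc (1 : ℝ) = 1 * 1 * 1 := by ring
      _ ≤ E * er * (Ra + P) := by gcongr; linarith
  have hEe : 0 < E * er := by positivity
  rw [e1, hA]
  calc 2 * (1 + E * (2 * er * (Ra + 2 * P))) = 2 + 4 * (E * er * (Ra + P)) + 4 * (E * er) * P := by ring
    _ ≤ 2 * (E * er * (Ra + P)) + 4 * (E * er * (Ra + P)) + 4 * (E * er * (Ra + P)) := by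
        have : 4 * (E * er) * P ≤ 4 * (E * er * (Ra + P)) := by nlinarith
        linarith
    _ = E * er * 10 * (Ra + P) := by ring
    _ ≤ E * er * Real.exp (10 + 9 * r) * (Ra + P) := by gcongr

omit hS in
theorem ini_swA_succ (W : Walk) (G : ℝ) (i : Fin Sl.N) (n : ℕ) (ω : Om ℝ) :
    Sl.swA W G i (n + 1) ω = Sl.swA W G i n ω + (if Sl.stA W G i (n + 1) ω ≠ Sl.stA W G i n ω then 1 else 0) :=
  mrt4_nsw_succ _ _ _ n ω

/-- accumulation over at most `S` switches -/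
theorem switch_induction : ∃ C : ℝ, 0 < C ∧ ∀ (W : Walk) (ω : Om ℝ) (G r : ℝ) (n S : ℕ), W.U = Sl.reg → 1 ≤ r →
    C * (1 + r) ≤ G / 3 - 2 →
    (∀ m, m ≤ n → Sl.AS r (W.y m ω)) →
    (∑ i : Fin Sl.N, Sl.swA W G i n ω ≤ S) →
    (∀ i : Fin Sl.N, ∀ m, m ≤ n → ‖Sl.Pmod W G i m ω‖ ≤ Real.exp (6 * G)) →
    (∀ i : Fin Sl.N, ∀ m, m ≤ n → ‖Sl.Ttin W G i m ω‖ ≤ Real.exp (-(G / 3))) →
    Real.log (Sl.Rrun W n ω) ≤ C * (S + 1) * (1 + r) + 6 * G + C := by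
  obtain ⟨C1, hC1, hstep⟩ := Sl.interval_step hS
  obtain ⟨C0, hC0, hreal⟩ := Sl.real_bounds hS
  refine ⟨2 * (C1 + 1) + (2 + C0), by positivity, fun W ω G r n S hU hr hC hAS hS' hP hT => ?_⟩
  have hC' : C1 * (1 + r) ≤ G / 3 - 2 := by nlinarith
  have hG : 0 < G := by nlinarith
  set P : ℝ := Real.exp (6 * G) with hPdef
  have hP1 : 1 ≤ P := Real.one_le_exp (by linarith)
  set E : ℝ := Real.exp ((C1 + 1) * (1 + r)) with hE
  have hE1 : 1 ≤ E := Real.one_le_exp (by positivity)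
  have hE0 : 0 < E := by linarith
  set T : ℕ → ℕ := fun k => ∑ i : Fin Sl.N, Sl.swA W G i k ω with hTdef
  -- one interval
  have hint : ∀ a k, a ≤ k → k ≤ n → (∀ i : Fin Sl.N, ∀ m, a ≤ m → m < k → Sl.stA W G i m ω = Sl.stA W G i a ω) →
      Sl.Rrun W k ω + P ≤ E * (Sl.Rrun W a ω + P) := by
    intro a k hak hkn hst
    have h1 := hstep W ω G r a k hU hr hak hC' (fun m hm => hAS m (hm.trans hkn)) hst
      (fun i m hm => hP i m (hm.trans hkn)) (fun i m hm => hT i m (hm.trans hkn))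
    have hQ : 0 < Sl.Rrun W a ω + P := by linarith [Sl.ini_one_le_Rrun W a ω]
    have e1 : E = Real.exp (C1 * (1 + r)) * Real.exp (1 + r) := by rw [hE, ← Real.exp_add]; ring_nf
    have e2 : 2 ≤ Real.exp (1 + r) := by
      have := Real.add_one_le_exp (1 + r)
      linarith
    have e3 : 1 ≤ Real.exp (C1 * (1 + r)) := Real.one_le_exp (by positivity)
    calc Sl.Rrun W k ω + P ≤ Real.exp (C1 * (1 + r)) * (Sl.Rrun W a ω + P) + 1 * (Sl.Rrun W a ω + P) := by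
          linarith [Sl.ini_one_le_Rrun W a ω]
      _ ≤ Real.exp (C1 * (1 + r)) * (Sl.Rrun W a ω + P) + Real.exp (C1 * (1 + r)) * (Sl.Rrun W a ω + P) := by gcongr
      _ = Real.exp (C1 * (1 + r)) * 2 * (Sl.Rrun W a ω + P) := by ring
      _ ≤ Real.exp (C1 * (1 + r)) * Real.exp (1 + r) * (Sl.Rrun W a ω + P) := by gcongr
      _ = _ := by rw [e1]
  have hTmono : ∀ k, T k ≤ T (k + 1) := fun k =>
    Finset.sum_le_sum fun i _ => by rw [Sl.ini_swA_succ]; exact Nat.le_add_right _ _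
  have hQ0 : 0 < Sl.Rrun W 0 ω + P := by linarith [Sl.ini_one_le_Rrun W 0 ω]
  have inv : ∀ k, k ≤ n → ∃ a, a ≤ k ∧ (∀ i : Fin Sl.N, ∀ m, a ≤ m → m ≤ k → Sl.stA W G i m ω = Sl.stA W G i a ω) ∧
      Sl.Rrun W a ω + P ≤ E ^ (2 * T k) * (Sl.Rrun W 0 ω + P) := by
    intro k
    induction k with
    | zero =>
      intro _
      refine ⟨0, le_rfl, fun i m _ hm => by rw [Nat.le_zero.mp hm], ?_⟩
      calc Sl.Rrun W 0 ω + P = 1 * (Sl.Rrun W 0 ω + P) := by ring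
        _ ≤ _ := mul_le_mul_of_nonneg_right (one_le_pow₀ hE1) hQ0.le
    | succ k ih =>
      intro hk
      obtain ⟨a, hak, hst, hQa⟩ := ih (by omega)
      by_cases hsw : ∀ i : Fin Sl.N, Sl.stA W G i (k + 1) ω = Sl.stA W G i k ω
      · refine ⟨a, by omega, fun i m ham hm => ?_, hQa.trans ?_⟩
        · rcases Nat.lt_or_ge k m with h | h
          · have : m = k + 1 := by omega
            rw [this, hsw i]
            exact hst i k hak le_rfl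
          · exact hst i m ham h
        · exact mul_le_mul_of_nonneg_right (pow_le_pow_right₀ hE1 (by have := hTmono k; omega)) hQ0.le
      · push Not at hsw
        obtain ⟨i0, hi0⟩ := hsw
        have hT1 : T k + 1 ≤ T (k + 1) := by
          have h1 : Sl.swA W G i0 k ω < Sl.swA W G i0 (k + 1) ω := by
            rw [Sl.ini_swA_succ, if_pos hi0]; exact Nat.lt_succ_self _
          have h2 : T k < T (k + 1) := Finset.sum_lt_sum (s := Finset.univ) (f := fun i => Sl.swA W G i k ω)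
            (g := fun i => Sl.swA W G i (k + 1) ω)
            (fun i _ => by rw [Sl.ini_swA_succ]; exact Nat.le_add_right _ _) ⟨i0, Finset.mem_univ _, h1⟩
          exact h2
        refine ⟨k + 1, le_rfl, fun i m h1 h2 => by rw [le_antisymm h2 h1], ?_⟩
        have s1 := hint k (k + 1) (Nat.le_succ k) hk (fun i m h1 h2 => by rw [show m = k by omega])
        have s2 := hint a k hak (by omega) (fun i m h1 h2 => hst i m h1 h2.le)
        calc Sl.Rrun W (k + 1) ω + P ≤ E * (Sl.Rrun W k ω + P) := s1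
          _ ≤ E * (E * (Sl.Rrun W a ω + P)) := by gcongr
          _ ≤ E * (E * (E ^ (2 * T k) * (Sl.Rrun W 0 ω + P))) := by gcongr
          _ = E ^ (2 * (T k + 1)) * (Sl.Rrun W 0 ω + P) := by ring
          _ ≤ _ := mul_le_mul_of_nonneg_right (pow_le_pow_right₀ hE1 (by omega)) hQ0.le
  obtain ⟨a, han, hst, hQa⟩ := inv n le_rfl
  have s3 := hint a n han le_rfl (fun i m h1 h2 => hst i m h1 h2.le)
  have hR0 : Sl.Rrun W 0 ω ≤ 1 + C0 := by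
    show 1 + Sl.maxX (W.y 0 ω) ≤ 1 + C0
    obtain ⟨x, hx, e⟩ := W.y_zero_mem ω
    rw [e]
    linarith [Sl.ini_maxX_le (x : ℂ) C0 fun i => (hreal x hx i).2.2.2.1]
  have hfin : Sl.Rrun W n ω ≤ E ^ (2 * S + 1) * ((2 + C0) * P) := by
    calc Sl.Rrun W n ω ≤ Sl.Rrun W n ω + P := by linarith
      _ ≤ E * (Sl.Rrun W a ω + P) := s3
      _ ≤ E * (E ^ (2 * T n) * (Sl.Rrun W 0 ω + P)) := by gcongr
      _ = E ^ (2 * T n + 1) * (Sl.Rrun W 0 ω + P) := by ring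
      _ ≤ E ^ (2 * S + 1) * ((2 + C0) * P) := by
          refine mul_le_mul (pow_le_pow_right₀ hE1 (by have : T n ≤ S := hS'; omega)) ?_ hQ0.le (by positivity)
          nlinarith
  have hRpos : 0 < Sl.Rrun W n ω := by linarith [Sl.ini_one_le_Rrun W n ω]
  have hlog := Real.log_le_log hRpos hfin
  rw [Real.log_mul (by positivity) (by positivity), Real.log_mul (by positivity) (by positivity), Real.log_pow, hE,
    Real.log_exp, hPdef, Real.log_exp] at hlog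
  have hl2 : Real.log (2 + C0) ≤ 2 + C0 := by
    have := Real.log_le_sub_one_of_pos (by positivity : 0 < 2 + C0)
    linarith
  push_cast at hlog
  have hS0 : (0 : ℝ) ≤ S := Nat.cast_nonneg _
  nlinarith [mul_nonneg (mul_nonneg hS0 (by positivity : 0 ≤ 2 + C0)) (by linarith : 0 ≤ 1 + r),
    mul_nonneg (by positivity : 0 ≤ 2 + C0) (by linarith : 0 ≤ 1 + r), mul_nonneg hC1.le (by linarith : 0 ≤ 1 + r)]

/-! ### LF-S10d-4: positions, lengths, assembly -/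

/-- positions: `log 𝓡 ≤ 7 L^γ` through `τ_L`, if `(1+ρ')/2 < γ < 1` -/
theorem positions (ρ' γ : ℝ) (hρ : 0 < ρ') (hγ : (1 + ρ') / 2 < γ) (hγ1 : γ < 1)
    (hAS : Sl.Rare fun L W => {ω | ∃ n, Sl.Upto W L n ω ∧ ¬ Sl.AS (L ^ ρ') (W.y n ω)}) :
    Sl.Rare fun L W => {ω | ∃ n, Sl.Upto W L n ω ∧ 7 * L ^ γ < Real.log (Sl.Rrun W n ω)} := by
  have hργ : ρ' < γ := by linarith
  have hγ0 : 0 < γ := hρ.trans hργ
  set ε₁ : ℝ := (2 * γ - 1 - ρ') / 2 with hε₁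
  have hε0 : 0 < ε₁ := by rw [hε₁]; linarith
  set e : ℝ := 1 + ε₁ - γ with he
  have he1 : e + ρ' < γ := by rw [he, hε₁]; linarith
  have he2 : e < γ := by linarith
  obtain ⟨C, hC, hind⟩ := Sl.switch_induction hS
  have hN : (0 : ℝ) < Sl.N := by
    have := Sl.N_ge
    exact_mod_cast (by omega : 0 < Sl.N)
  obtain ⟨L1, hL1⟩ := Filter.eventually_atTop.mp
    ((ini_rpow_dom e γ (5 * C * Sl.N) he2).and ((ini_rpow_dom (e + ρ') γ (5 * C * Sl.N) he1).and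
      ((ini_const_dom γ (15 * C + 12) hγ0).and (ini_rpow_dom ρ' γ (10 * C) hργ))))
  refine Rare.mono' Sl (Rare.union Sl (Rare.union Sl hAS (Sl.switches hS γ ε₁ hγ0 hγ1 hε0))
    (Rare.union Sl (Sl.masked_mod hS ρ' γ hρ hργ hγ1) (Sl.masked_tiny hS ρ' γ hρ hργ hγ1)))
    ⟨max 1 L1, fun L hL => ⟨1, one_pos, fun W hW => ?_⟩⟩
  have hLone : 1 ≤ L := (le_max_left _ _).trans hL
  have hL0 : 0 < L := by linarith
  obtain ⟨d1, d2, d3, d4⟩ := hL1 L ((le_max_right _ _).trans hL)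
  set G : ℝ := L ^ γ with hG
  set r : ℝ := L ^ ρ' with hr
  have hr1 : 1 ≤ r := Real.one_le_rpow hLone hρ.le
  rintro ω ⟨n, hn, hbig⟩
  by_contra hcon
  simp only [Set.mem_union, Set.mem_ofPred_eq, not_or, not_exists, not_and, not_not, not_lt, not_le] at hcon
  obtain ⟨⟨c1, c2⟩, c3, c4⟩ := hcon
  have hup : ∀ m, m ≤ n → Sl.Upto W L m ω := fun m hm => Upto.of_le Sl hn hm
  have hAS' : ∀ m, m ≤ n → Sl.AS r (W.y m ω) := fun m hm => c1 m (hup m hm)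
  have hsum : ∑ i : Fin Sl.N, Sl.swA W G i n ω ≤ ⌈Sl.N * L ^ e⌉₊ := by
    have h1 : ((∑ i : Fin Sl.N, Sl.swA W G i n ω : ℕ) : ℝ) ≤ Sl.N * L ^ e := by
      push_cast
      calc ∑ i : Fin Sl.N, (Sl.swA W G i n ω : ℝ) ≤ ∑ _i : Fin Sl.N, L ^ e :=
            Finset.sum_le_sum fun i _ => c2 n hn i
        _ = _ := by rw [Finset.sum_const, Finset.card_univ, Fintype.card_fin, nsmul_eq_mul]
    exact_mod_cast h1.trans (Nat.le_ceil _)
  have h2 := hind W ω G r n ⌈Sl.N * L ^ e⌉₊ hW.dom hr1 (by nlinarith) hAS' hsum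
    (fun i m hm => (c3 m (hup m hm) (fun m' hm' => hAS' m' (by omega)) i).le)
    (fun i m hm => (c4 m (hup m hm) (fun m' hm' => hAS' m' (by omega)) i).le)
  have hpe : 0 < L ^ e := Real.rpow_pos_of_pos hL0 _
  have h3 : (⌈Sl.N * L ^ e⌉₊ : ℝ) ≤ Sl.N * L ^ e + 1 := (Nat.ceil_lt_add_one (by positivity)).le
  have h4 : L ^ (e + ρ') = L ^ e * r := Real.rpow_add hL0 _ _
  rw [h4] at d2
  have h5 : C * ((⌈Sl.N * L ^ e⌉₊ : ℝ) + 1) * (1 + r) ≤ C * (Sl.N * L ^ e + 2) * (1 + r) := by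
    have : C * ((⌈Sl.N * L ^ e⌉₊ : ℝ) + 1) ≤ C * (Sl.N * L ^ e + 2) := mul_le_mul_of_nonneg_left (by linarith) hC.le
    exact mul_le_mul_of_nonneg_right this (by linarith)
  have h6 : C * (Sl.N * L ^ e + 2) * (1 + r) =
      C * Sl.N * L ^ e + C * Sl.N * (L ^ e * r) + 2 * C + 2 * C * r := by ring
  nlinarith

/-- pointwise: `log |ℓ_i| ≤ log(2 max|X|) + C(1 + r)` -/
theorem ℓ_upper : ∃ C : ℝ, 0 < C ∧ ∀ y ∈ Sl.reg, ∀ r : ℝ, 0 ≤ r → (∀ i : Fin Sl.N, ‖Sl.ψ ⟪i⟫ y‖ ≤ r) → ∀ i : Fin Sl.N,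
    Real.log ‖Sl.ℓ ⟪i⟫ y‖ ≤ Real.log (1 + Sl.maxX y) + C * (1 + r) := by
  obtain ⟨Cθ, hCθ, hθ⟩ := Sl.θ_le hS
  refine ⟨Cθ + 2, by positivity, fun y hy r hr hψ i => ?_⟩
  have hm := Sl.ini_maxX_nonneg y
  have h1 : ‖Sl.ℓ ⟪i⟫ y‖ ≤ 4 * (1 + Sl.maxX y) * Real.exp (Cθ * (1 + r)) := by
    unfold ℓ
    rw [Sl.X_succ hS i y hy]
    refine (ini_dot_evec_le _ _).trans ?_
    have h2 : ‖Sl.X ⟪i + 1⟫ y - Sl.X ⟪i⟫ y‖ ≤ 2 * (1 + Sl.maxX y) :=
      (norm_sub_le _ _).trans (by linarith [Sl.ini_X_le_maxX y (i + 1), Sl.ini_X_le_maxX y i])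
    have h3 : Real.exp |(Sl.θ ⟪i⟫ y).im| ≤ Real.exp (Cθ * (1 + r)) :=
      Real.exp_le_exp.mpr ((Complex.abs_im_le_norm _).trans (hθ y hy.1 r hψ i).1)
    calc 2 * ‖Sl.X ⟪i + 1⟫ y - Sl.X ⟪i⟫ y‖ * Real.exp |(Sl.θ ⟪i⟫ y).im|
        ≤ 2 * (2 * (1 + Sl.maxX y)) * Real.exp (Cθ * (1 + r)) :=
          mul_le_mul (by linarith) h3 (Real.exp_pos _).le (by positivity)
      _ = _ := by ring
  have h4 : Real.log ‖Sl.ℓ ⟪i⟫ y‖ ≤ Real.log (4 * (1 + Sl.maxX y) * Real.exp (Cθ * (1 + r))) :=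
    Real.log_le_log (norm_pos_iff.mpr (hy.2.1 i).2.2) h1
  rw [Real.log_mul (by positivity) (Real.exp_pos _).ne', Real.log_mul (by norm_num) (by positivity), Real.log_exp] at h4
  have h5 : Real.log 4 ≤ 2 := by
    have := Real.log_le_sub_one_of_pos (by norm_num : (0 : ℝ) < 4)
    have h6 : Real.log 4 = 2 * Real.log 2 := by
      rw [show (4 : ℝ) = 2 ^ 2 by norm_num, Real.log_pow]; norm_num
    have h7 := Real.log_two_lt_d9
    linarith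
  nlinarith

/-- **Lemma 10.7.** -/
theorem initial_geometry : ∃ σ : ℝ, 0 < σ ∧ σ < 1 ∧
    Sl.Rare fun L W => {ω | ∃ n, Sl.Upto W L n ω ∧ L ^ σ < Sl.geo (W.y n ω)} := by
  obtain ⟨ρ', hρ0, hρ1, hAS⟩ := Sl.sines hS
  obtain ⟨Cl, hCl, hℓ⟩ := Sl.ℓ_upper hS
  obtain ⟨C0, hC0, hreal⟩ := Sl.real_bounds hS
  set γ : ℝ := (3 + ρ') / 4 with hγ
  set σ' : ℝ := (1 + γ) / 2 with hσ'
  set σ : ℝ := (1 + σ') / 2 with hσ
  have g1 : (1 + ρ') / 2 < γ := by rw [hγ]; linarith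
  have g2 : γ < 1 := by rw [hγ]; linarith
  have g3 : γ < σ' := by rw [hσ']; linarith
  have g4 : σ' < 1 := by rw [hσ']; linarith
  have g5 : σ' < σ := by rw [hσ]; linarith
  have g6 : σ < 1 := by rw [hσ]; linarith
  have g7 : ρ' < γ := by linarith
  have g8 : 0 < σ' := by linarith
  refine ⟨σ, by linarith, g6, ?_⟩
  have hpos := Sl.positions hS ρ' γ hρ0 g1 g2 hAS
  have hld : ∀ i : Fin Sl.N, Sl.Rare fun L W => {ω | ∃ n, Alive (fun _ _ => True) n ω ∧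
      (∀ m, m < n → Real.log ‖Sl.ℓ ⟪i⟫ (W.y m ω)‖ ≤ C0 + (7 * L ^ γ + Cl * (1 + L ^ ρ'))) ∧
      Real.log ‖Sl.ℓ ⟪i⟫ (W.y n ω)‖ ≤ -(L ^ σ')} := by
    intro i
    refine Sl.rare_of_le (fun L => (2 * C0 + Cl + 1) * L ^ (-σ') + 7 * L ^ (-(σ' - γ)) + Cl * L ^ (-(σ' - ρ'))) ?_
      ⟨1, fun L hL => ⟨1, one_pos, fun W hW => ?_⟩⟩
    · have t1 : Tendsto (fun L : ℝ => L ^ (-σ')) atTop (𝓝 0) := tendsto_rpow_neg_atTop g8
      have t2 : Tendsto (fun L : ℝ => L ^ (-(σ' - γ))) atTop (𝓝 0) := tendsto_rpow_neg_atTop (by linarith)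
      have t3 : Tendsto (fun L : ℝ => L ^ (-(σ' - ρ'))) atTop (𝓝 0) := tendsto_rpow_neg_atTop (by linarith)
      simpa using ((t1.const_mul (2 * C0 + Cl + 1)).add (t2.const_mul 7)).add (t3.const_mul Cl)
    · have hL0 : 0 < L := by linarith
      have hp : 0 < L ^ σ' := Real.rpow_pos_of_pos hL0 _
      have hp1 : 0 < L ^ ρ' := Real.rpow_pos_of_pos hL0 _
      have hp2 : 0 < L ^ γ := Real.rpow_pos_of_pos hL0 _
      have := Sl.slice_logdef hS W 1 zero_le_one hW (Sl.ℓ ⟪i⟫) (Sl.ℓ_diff hS i)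
        (fun z hz => (hz.2.1 i).2.2) (fun z hz w hw => hW.ℓ z hz w hw i) C0 (C0 + (7 * L ^ γ + Cl * (1 + L ^ ρ')))
        (L ^ σ') (fun x hx => (hreal x hx i).2.2.2.2.2.2.1) (by nlinarith) hp (fun _ _ => True) woc_cut_true
      refine this.trans ?_
      have e1 : L ^ (-σ') = (L ^ σ')⁻¹ := Real.rpow_neg hL0.le _
      have e2 : L ^ (-(σ' - γ)) = L ^ γ * (L ^ σ')⁻¹ := by
        rw [← Real.rpow_neg hL0.le, ← Real.rpow_add hL0]; ring_nf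
      have e3 : L ^ (-(σ' - ρ')) = L ^ ρ' * (L ^ σ')⁻¹ := by
        rw [← Real.rpow_neg hL0.le, ← Real.rpow_add hL0]; ring_nf
      rw [e1, e2, e3]
      have hnum : 0 ≤ C0 + (7 * L ^ γ + Cl * (1 + L ^ ρ')) + 1 + C0 := by positivity
      calc (C0 + (7 * L ^ γ + Cl * (1 + L ^ ρ')) + 1 + C0) / (C0 + (7 * L ^ γ + Cl * (1 + L ^ ρ')) + 1 + L ^ σ')
          ≤ (C0 + (7 * L ^ γ + Cl * (1 + L ^ ρ')) + 1 + C0) / L ^ σ' :=
            div_le_div_of_nonneg_left hnum hp (by nlinarith)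
        _ = _ := by rw [div_eq_mul_inv]; ring
  obtain ⟨L1, hL1⟩ := Filter.eventually_atTop.mp
    ((ini_rpow_dom ρ' σ 6 (by linarith)).and ((ini_rpow_dom γ σ 21 (by linarith)).and
      ((ini_rpow_dom σ' σ 3 g5).and ((ini_const_dom σ' (3 * Cl) g8).and
        ((ini_rpow_dom γ σ' 21 g3).and (ini_rpow_dom ρ' σ' (3 * Cl) (by linarith)))))))
  refine Rare.mono' Sl (Rare.union Sl (Rare.union Sl hAS hpos) (Rare.iUnion Sl hld))
    ⟨max 1 L1, fun L hL => ⟨1, one_pos, fun W hW => ?_⟩⟩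
  have hLone : 1 ≤ L := (le_max_left _ _).trans hL
  have hL0 : 0 < L := by linarith
  obtain ⟨d1, d2, d3, d4, d5, d6⟩ := hL1 L ((le_max_right _ _).trans hL)
  have hreg : ∀ n, ∀ ω, W.y n ω ∈ Sl.reg := fun n ω => hW.dom ▸ W.y_mem n ω
  rintro ω ⟨n, hn, hbig⟩
  by_contra hcon
  simp only [Set.mem_union, Set.mem_ofPred_eq, Set.mem_iUnion, not_or, not_exists, not_and, not_not, not_lt,
    not_le] at hcon
  obtain ⟨⟨c1, c2⟩, c3⟩ := hcon
  have hp1 : 0 < L ^ ρ' := Real.rpow_pos_of_pos hL0 _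
  have hup : ∀ m, m ≤ n → Sl.Upto W L m ω := fun m hm => Upto.of_le Sl hn hm
  have hX : ∀ m, m ≤ n → Real.log (1 + Sl.maxX (W.y m ω)) ≤ 7 * L ^ γ := fun m hm =>
    (Real.log_le_log (by linarith [Sl.ini_maxX_nonneg (W.y m ω)]) (Sl.ini_le_Rrun W m ω)).trans (c2 m (hup m hm))
  have hℓu : ∀ m, m ≤ n → ∀ i : Fin Sl.N, Real.log ‖Sl.ℓ ⟪i⟫ (W.y m ω)‖ ≤ 7 * L ^ γ + Cl * (1 + L ^ ρ') :=
    fun m hm i => (hℓ _ (hreg m ω) _ hp1.le (fun j => (c1 m (hup m hm) j).1) i).trans (by linarith [hX m hm])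
  have hgeo : Sl.geo (W.y n ω) ≤ L ^ σ := by
    refine ciSup_le fun i => ?_
    unfold geo1
    have a1 := (c1 n hn i).1
    have a2 := (c1 n hn i).2
    have a3 : Real.log (1 + ‖Sl.X ⟪i⟫ (W.y n ω)‖) ≤ 7 * L ^ γ :=
      (Real.log_le_log (by linarith [norm_nonneg (Sl.X ⟪i⟫ (W.y n ω))])
        (by linarith [Sl.ini_X_le_maxX (W.y n ω) i])).trans (hX n le_rfl)
    have a4 : |Real.log ‖Sl.ℓ ⟪i⟫ (W.y n ω)‖| ≤ L ^ σ' := by
      refine abs_le.mpr ⟨?_, ?_⟩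
      · exact (c3 i n (fun _ _ => trivial) (fun m hm => by linarith [hℓu m hm.le i])).le
      · have := hℓu n le_rfl i
        nlinarith
    linarith
  linarith

end Slice

end Claimed.Agent.R269
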