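/-
Row 269, P1 Lemma 10.8 (phase depth and phase clock).  Owner: helper171.  DISCRETE VERSION (see S10/Walk.lean).
Black boxes: S10/Facts.lean, Walk.lean, Time.lean, Init.lean, Lib/*.lean.
RULES: fill the `sorry`s IN PLACE (auxiliary lemmas above the statement, prefix `pha_`); do not change a statement without telling helper171.
-/
import Claimed.Agent.R269.S10.Init

set_option autoImplicit false

namespace Claimed.Agent.R269

open Complex Metric Set Filter Topology Chn MeasureTheory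
open scoped Real ENNReal

local notation "⟪" i "⟫" => ((Fin.val i : ℕ) : ℤ)

namespace Slice

variable (Sl : Slice) (hS : Sl.Hyp)
include hS

/-! ### LF-S10d-5 -/

/-- pointwise (10.27): under `𝒢 ≤ L` and all log depths `≤ 3L`: `|w_j| + |s_j'| ≤ e^{C₁ L}`
(`cofactor`, `Bmat_upper` with `U = 3L`, `amplitude_upper`, definition of `w`). -/
theorem rough_derivative : ∃ C₁ : ℝ, 0 < C₁ ∧ ∀ y ∈ Sl.reg, ∀ L : ℝ, 1 ≤ L → Sl.geo y ≤ L →
    (∀ i : Fin Sl.N, Sl.k ⟪i⟫ y ≤ 3 * L) → ∀ i : Fin Sl.N, ‖Sl.w ⟪i⟫ y‖ + ‖Sl.s' ⟪i⟫ y‖ ≤ Real.exp (C₁ * L) := by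
  obtain ⟨cA, hcA, hcof⟩ := Sl.cofactor hS
  obtain ⟨Cb, hCb, hup⟩ := Sl.Bmat_upper hS
  obtain ⟨C2, hC2, hamp⟩ := Sl.amplitude_upper hS
  have hc := Sl.Sh.G.c_pos
  have hci : 0 < Sl.Sh.G.c⁻¹ := inv_pos.mpr hc
  have hN : (0 : ℝ) < Sl.N := by
    have := Sl.N_ge
    exact_mod_cast (by omega : 0 < Sl.N)
  set A : ℝ := |Real.log cA| + Sl.N + 3 * Cb with hA
  have hA0 : 0 < A := by positivity
  set A' : ℝ := A + 2 * (3 + 5 * C2) + 1 + Sl.Sh.G.c⁻¹ with hA'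
  refine ⟨A' + 1, by positivity, fun y hy L hL hgeo hk i => ?_⟩
  have hg : ∀ j : Fin Sl.N, |Real.log ‖Sl.sd ⟪j⟫ y‖| ≤ L ∧ |Real.log ‖Sl.ℓ ⟪j⟫ y‖| ≤ L := by
    intro j
    have h1 := (Sl.clk_geo1_le y j).trans hgeo
    unfold geo1 at h1
    have h2 : 0 ≤ ‖Sl.ψ ⟪j⟫ y‖ := norm_nonneg _
    have h3 : 0 ≤ Real.log (1 + ‖Sl.X ⟪j⟫ y‖) := Real.log_nonneg (by linarith [norm_nonneg (Sl.X ⟪j⟫ y)])
    have h4 := abs_nonneg (Real.log ‖Sl.sd ⟪j⟫ y‖)
    have h5 := abs_nonneg (Real.log ‖Sl.ℓ ⟪j⟫ y‖)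
    constructor <;> linarith
  -- the cofactor identity
  have hAdm : Sl.Adm (Finset.univ.erase i) ∅ :=
    ⟨fun h => Finset.notMem_erase i Finset.univ (by rw [h]; exact Finset.mem_univ i), Finset.disjoint_empty_right _⟩
  have hdet : ‖(Sl.Bmat (Finset.univ.erase i) ∅ y).det‖ ≤ Real.exp (Cb * (3 * L)) := by
    have h1 := (hup _ _ hAdm y hy (3 * L) (by linarith) (by linarith) (fun j _ => hk j)).1
    exact (Real.log_le_iff_le_exp (norm_pos_iff.mpr (hy.2.2 _ _ hAdm))).mp h1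
  have hprod : ∏ j : Fin Sl.N, ‖Sl.ℓ ⟪j⟫ y‖ ≤ Real.exp (Sl.N * L) := by
    calc ∏ j : Fin Sl.N, ‖Sl.ℓ ⟪j⟫ y‖ ≤ ∏ _j : Fin Sl.N, Real.exp L :=
          Finset.prod_le_prod (fun j _ => norm_nonneg _)
            fun j _ => clk_norm_le_exp (hy.2.1 j).2.2 (abs_le.mp (hg j).2).2
      _ = _ := by rw [Finset.prod_const, Finset.card_univ, Fintype.card_fin, ← Real.exp_nat_mul]
  have hw2 : ‖Sl.w ⟪i⟫ y‖ ^ 2 ≤ Real.exp (A * L) := by
    rw [hcof y hy i]
    have e1 : cA ≤ Real.exp (|Real.log cA| * L) := by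
      calc cA = Real.exp (Real.log cA) := (Real.exp_log hcA).symm
        _ ≤ _ := Real.exp_le_exp.mpr ((le_abs_self _).trans (by nlinarith [abs_nonneg (Real.log cA)]))
    calc cA * (∏ j : Fin Sl.N, ‖Sl.ℓ ⟪j⟫ y‖) * ‖(Sl.Bmat (Finset.univ.erase i) ∅ y).det‖
        ≤ Real.exp (|Real.log cA| * L) * Real.exp (Sl.N * L) * Real.exp (Cb * (3 * L)) :=
          mul_le_mul (mul_le_mul e1 hprod (Finset.prod_nonneg fun j _ => norm_nonneg _) (Real.exp_pos _).le) hdet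
            (norm_nonneg _) (by positivity)
      _ = _ := by rw [← Real.exp_add, ← Real.exp_add, hA]; ring_nf
  have hw : ‖Sl.w ⟪i⟫ y‖ ≤ Real.exp (A * L) := by
    have h1 : (1 : ℝ) ≤ Real.exp (A * L) := Real.one_le_exp (by positivity)
    have h2 : ‖Sl.w ⟪i⟫ y‖ ^ 2 ≤ Real.exp (A * L) ^ 2 := hw2.trans (by nlinarith)
    exact (pow_le_pow_iff_left₀ (norm_nonneg _) (Real.exp_pos _).le two_ne_zero).mp h2
  -- from `w` to `s'`
  have hf : Sl.fj ⟪i⟫ y ≠ 0 := (hy.2.1 i).1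
  have hsd : Sl.sd ⟪i⟫ y ≠ 0 := (hy.2.1 i).2.1
  have hcc : (Sl.Sh.G.c : ℂ) ≠ 0 := by exact_mod_cast hc.ne'
  have hs' : Sl.s' ⟪i⟫ y = Sl.w ⟪i⟫ y * Sl.fj ⟪i⟫ y ^ 2 * ((Sl.Sh.G.c : ℂ)⁻¹ * (Sl.sd ⟪i⟫ y)⁻¹) := by
    unfold w
    field_simp
  have ha : Sl.a ⟪i⟫ y ≤ (3 + 5 * C2) * L := by
    have h1 := hamp y hy.1 ⟪i⟫
    have h2 : max (Sl.k ⟪i⟫ y) 0 ≤ 3 * L := max_le (hk i) (by linarith)
    have h2' : 0 ≤ max (Sl.k ⟪i⟫ y) 0 := le_max_right _ _
    have h3 : Real.log (2 + max (Sl.k ⟪i⟫ y) 0) ≤ 1 + 3 * L := by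
      have := Real.log_le_sub_one_of_pos (by linarith : 0 < 2 + max (Sl.k ⟪i⟫ y) 0)
      linarith
    have : C2 * Real.log (2 + max (Sl.k ⟪i⟫ y) 0) ≤ C2 * (1 + 3 * L) := mul_le_mul_of_nonneg_left h3 hC2.le
    nlinarith
  have hs'n : ‖Sl.s' ⟪i⟫ y‖ ≤ Real.exp (A' * L) := by
    rw [hs', norm_mul, norm_mul, norm_mul, norm_pow, norm_inv, Complex.norm_real, Real.norm_eq_abs, abs_of_pos hc]
    have e1 : ‖Sl.fj ⟪i⟫ y‖ ^ 2 ≤ Real.exp ((3 + 5 * C2) * L) ^ 2 :=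
      pow_le_pow_left₀ (norm_nonneg _) (clk_norm_le_exp hf ha) 2
    have e2 : ‖(Sl.sd ⟪i⟫ y)⁻¹‖ ≤ Real.exp L := clk_inv_le_exp hsd (abs_le.mp (hg i).1).1
    have e3 : Sl.Sh.G.c⁻¹ ≤ Real.exp (Sl.Sh.G.c⁻¹ * L) := by
      have := Real.add_one_le_exp (Sl.Sh.G.c⁻¹ * L)
      nlinarith
    calc ‖Sl.w ⟪i⟫ y‖ * ‖Sl.fj ⟪i⟫ y‖ ^ 2 * (Sl.Sh.G.c⁻¹ * ‖(Sl.sd ⟪i⟫ y)⁻¹‖)
        ≤ Real.exp (A * L) * Real.exp ((3 + 5 * C2) * L) ^ 2 * (Real.exp (Sl.Sh.G.c⁻¹ * L) * Real.exp L) :=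
          mul_le_mul (mul_le_mul hw e1 (by positivity) (Real.exp_pos _).le)
            (mul_le_mul e3 e2 (norm_nonneg _) (Real.exp_pos _).le) (by positivity) (by positivity)
      _ = _ := by
          rw [← Real.exp_nat_mul, ← Real.exp_add, ← Real.exp_add, ← Real.exp_add, hA']
          congr 1
          push_cast
          ring
  have hw' : ‖Sl.w ⟪i⟫ y‖ ≤ Real.exp (A' * L) := hw.trans (Real.exp_le_exp.mpr (by
    have : A ≤ A' := by rw [hA']; nlinarith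
    nlinarith))
  have e4 : (2 : ℝ) ≤ Real.exp L := by
    have := Real.add_one_le_exp L
    linarith
  calc ‖Sl.w ⟪i⟫ y‖ + ‖Sl.s' ⟪i⟫ y‖ ≤ Real.exp (A' * L) * 2 := by linarith
    _ ≤ Real.exp (A' * L) * Real.exp L := mul_le_mul_of_nonneg_left e4 (Real.exp_pos _).le
    _ = _ := by rw [← Real.exp_add]; ring_nf

omit hS in
open Classical in
/-- the mask "the phase depth has been `≤ d` at some time `≤ m`" -/
noncomputable def phaMask (W : Walk) (d : ℝ) (m : ℕ) (ω : Om ℝ) : ℝ :=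
  if ∃ m', m' ≤ m ∧ Sl.ry (W.y m' ω) ≤ d then 1 else 0

omit hS in
theorem pha_mask_proc (W : Walk) (d : ℝ) : Proc (Sl.phaMask W d) := by
  have hry_cont : ContinuousOn (fun z : ℂ => Slice.ry Sl z) W.U := by
    unfold Slice.ry
    exact (continuous_const.sub (continuous_abs.comp Complex.continuous_im)).continuousOn
  have hP : Proc fun n ω => Slice.ry Sl (W.y n ω) := W.proc_comp (fun z => Slice.ry Sl z) hry_cont
  refine ⟨fun n => ?_, fun n ω ω' h => ?_, fun n => ⟨1, fun ω => ?_⟩⟩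
  · have hset : MeasurableSet {ω : Om ℝ | ∃ m', m' ≤ n ∧ Slice.ry Sl (W.y m' ω) ≤ d} := by
      have e : {ω : Om ℝ | ∃ m', m' ≤ n ∧ Slice.ry Sl (W.y m' ω) ≤ d} =
          ⋃ m', ⋃ (_ : m' ≤ n), {ω | Slice.ry Sl (W.y m' ω) ≤ d} := by
        ext ω; simp
      rw [e]
      exact MeasurableSet.iUnion fun m' => MeasurableSet.iUnion fun _ => measurableSet_le (hP.meas m') measurable_const
    unfold phaMask
    exact Measurable.ite hset measurable_const measurable_const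
  · unfold phaMask
    have e : (∃ m', m' ≤ n ∧ Slice.ry Sl (W.y m' ω) ≤ d) ↔ (∃ m', m' ≤ n ∧ Slice.ry Sl (W.y m' ω') ≤ d) := by
      constructor
      · rintro ⟨m', h1, h2⟩
        exact ⟨m', h1, by rwa [← W.y_reads m' ω ω' fun i hi => h i (hi.trans h1)]⟩
      · rintro ⟨m', h1, h2⟩
        exact ⟨m', h1, by rwa [W.y_reads m' ω ω' fun i hi => h i (hi.trans h1)]⟩
    simp only [e]
  · unfold phaMask
    split_ifs <;> simp

omit hS in
theorem pha_mask_eq (W : Walk) (d : ℝ) (ω : Om ℝ) (T : ℕ) (hT : Sl.ry (W.y T ω) ≤ d)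
    (hmin : ∀ m, m < T → ¬ Sl.ry (W.y m ω) ≤ d) (m : ℕ) : Sl.phaMask W d m ω = if T ≤ m then 1 else 0 := by
  unfold phaMask
  by_cases h : T ≤ m
  · rw [if_pos h, if_pos ⟨T, h, hT⟩]
  · rw [if_neg h, if_neg]
    rintro ⟨m', h1, h2⟩
    exact hmin m' (by omega) h2

omit hS in
/-- sums against the mask start at the hitting time -/
theorem pha_mask_sum {E : Type} [AddCommMonoid E] (W : Walk) (d : ℝ) (ω : Om ℝ) (T n : ℕ) (hTn : T ≤ n)
    (hT : Sl.ry (W.y T ω) ≤ d) (hmin : ∀ m, m < T → ¬ Sl.ry (W.y m ω) ≤ d) (F : ℝ → ℕ → E) (hF : ∀ m, F 0 m = 0) :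
    ∑ m ∈ Finset.range n, F (Sl.phaMask W d m ω) m = ∑ m ∈ Finset.Ico T n, F 1 m := by
  rw [← Finset.sum_range_add_sum_Ico _ hTn]
  have h1 : ∑ m ∈ Finset.range T, F (Sl.phaMask W d m ω) m = 0 := by
    refine Finset.sum_eq_zero fun m hm => ?_
    rw [Sl.pha_mask_eq W d ω T hT hmin m, if_neg (by have := Finset.mem_range.mp hm; omega), hF]
  rw [h1, zero_add]
  refine Finset.sum_congr rfl fun m hm => ?_
  rw [Sl.pha_mask_eq W d ω T hT hmin m, if_pos (Finset.mem_Ico.mp hm).1]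

omit hS in
/-- `l2max` for a holomorphic function along the walk -/
theorem _root_.Claimed.Agent.R269.Chn.Walk.pha_l2 (W : Walk) (g : ℂ → ℂ) (hg : DifferentiableOn ℂ g W.U)
    (c : ℕ → Om ℝ → ℝ) (hc : Proc c) (B lam : ℝ) (hB : 0 ≤ B) (hl : 0 < lam) :
    Pw {ω | ∃ n, ∑ m ∈ Finset.range n, c m ω ^ 2 * W.qv g (W.y m ω) ≤ B ∧
        lam ≤ ‖∑ m ∈ Finset.range n, (c m ω : ℂ) * (g (W.y (m + 1) ω) - g (W.y m ω))‖} ≤ B / lam ^ 2 := by
  obtain ⟨hM, hm⟩ := W.mart_holo g hg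
  have hv : Proc (fun n ω => W.qv g (W.y n ω)) := W.proc_comp _ (W.qv_continuousOn _ hg)
  have h1 := l2max unif (fun _ _ => True) woc_cut_true (fun n ω => g (W.y n ω)) hM c
    (fun n ω => W.qv g (W.y n ω)) hc hv (fun n ω _ => hm n ω) (fun n ω _ => (W.var_holo _ n ω).le) B lam hB hl
  refine (measureReal_mono ?_ (measure_ne_top _ _)).trans h1
  rintro ω ⟨n, h2, h3⟩
  exact ⟨n, fun _ _ => trivial, h2, h3⟩

omit hS in
theorem _root_.Claimed.Agent.R269.pha_tendsto_exp_neg (c : ℝ) (hc : 0 < c) :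
    Tendsto (fun L : ℝ => Real.exp (-(c * L))) atTop (𝓝 0) :=
  Real.tendsto_exp_neg_atTop_nhds_zero.comp (tendsto_id.const_mul_atTop hc)

/-- **phase depth**: `n_y ≤ C₂ L` through `τ_L`.
Let `T` = first time with `r_y ≤ e^{-C₂ L}`, and suppose `T < τ_L`.  By `term`, `τ_{2L} < ∞` a.s.; by `initial_geometry` at level `2L` and
`rough_derivative`, `|s_j'| ≤ e^{2 C₁ L}` through `τ_{2L}`; by `phase_remaining` (`d = T_clock = e^{-C₂L}`) the phase clock after `T` is `≤ e^{-C₂ L}`;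
so the shape clocks after `T` are `≤ e^{(4C₁ - C₂) L + 1}` (`qs_bounds`); `l2max` with mask `1{T ≤ m}` and this clock bound: all increments of `s_j`
after `T` are `< e^{-L}/4`.  But at `T` all depths are `> e^{-L}` and at `τ_{2L}` one depth is `≤ e^{-2L}`. -/
theorem phase_depth : ∃ C₂ : ℝ, 0 < C₂ ∧
    Sl.Rare fun L W => {ω | ∃ n, Sl.Upto W L n ω ∧ Sl.ry (W.y n ω) < Real.exp (-(C₂ * L))} := by
  obtain ⟨C₁, hC₁, hrd⟩ := Sl.rough_derivative hS
  obtain ⟨σ, hσ0, hσ1, hgeo⟩ := Sl.initial_geometry hS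
  set C₂ : ℝ := 4 * C₁ + 4 with hC₂
  have hC₂0 : 0 < C₂ := by positivity
  refine ⟨C₂, hC₂0, ?_⟩
  have hE1 : Sl.Rare fun L W => {ω | ∃ n, Sl.Upto W (2 * L) n ω ∧ (2 * L) ^ σ < Sl.geo (W.y n ω)} :=
    Rare.comp Sl hgeo (fun L => 2 * L) (tendsto_id.const_mul_atTop two_pos)
  have hE2 : Sl.Rare fun L W => {ω | ∃ m n, m ≤ n ∧ Sl.ry (W.y m ω) ≤ Real.exp (-(C₂ * L)) ∧
      Real.exp (-(C₂ * L)) < ∑ l ∈ Finset.Ico m n, Sl.qy W l ω} := by
    refine Sl.rare_of_le (fun L => 10 * Real.exp (-(C₂ / 2 * L))) ?_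
      ⟨0, fun L _ => ⟨1 / 2, by norm_num, fun W hW => ?_⟩⟩
    · simpa using (pha_tendsto_exp_neg (C₂ / 2) (by positivity)).const_mul 10
    · have := Sl.phase_remaining hS W (1 / 2) le_rfl hW (Real.exp (-(C₂ * L))) (Real.exp (-(C₂ * L)))
        (Real.exp_pos _).le (Real.exp_pos _)
      refine this.trans (le_of_eq ?_)
      have e1 : Real.exp (-(C₂ * L)) = Real.exp (-(C₂ / 2 * L)) ^ 2 := by
        rw [← Real.exp_nat_mul]; congr 1; push_cast; ring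
      rw [e1, Real.sqrt_sq (Real.exp_pos _).le]
      have := Real.exp_pos (-(C₂ / 2 * L))
      field_simp
  have hE3 : Sl.Rare fun L W => {ω | ∀ n, Sl.cutL W (2 * L) n ω} :=
    Sl.rare_of_le (fun _ => 0) tendsto_const_nhds
      ⟨0, fun L _ => ⟨1, one_pos, fun W hW => (Sl.term hS W 1 hW (2 * L)).le⟩⟩
  have hE4 : ∀ i : Fin Sl.N, Sl.Rare fun L W => {ω | ∃ n,
      ∑ m ∈ Finset.range n, Sl.phaMask W (Real.exp (-(C₂ * L))) m ω ^ 2 * W.qv (Sl.s ⟪i⟫) (W.y m ω)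
        ≤ Real.exp (1 + 4 * C₁ * L) * Real.exp (-(C₂ * L)) ∧
      Real.exp (-L) / 4 ≤ ‖∑ m ∈ Finset.range n, (Sl.phaMask W (Real.exp (-(C₂ * L))) m ω : ℂ) *
        (Sl.s ⟪i⟫ (W.y (m + 1) ω) - Sl.s ⟪i⟫ (W.y m ω))‖} := by
    intro i
    refine Sl.rare_of_le (fun L => 16 * Real.exp 1 * Real.exp (-(2 * L))) ?_
      ⟨0, fun L _ => ⟨1, one_pos, fun W hW => ?_⟩⟩
    · simpa using (pha_tendsto_exp_neg 2 two_pos).const_mul (16 * Real.exp 1)
    · have := W.pha_l2 (Sl.s ⟪i⟫) (Sl.clk_s_diff hS hW i) _ (Sl.pha_mask_proc W (Real.exp (-(C₂ * L))))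
        (Real.exp (1 + 4 * C₁ * L) * Real.exp (-(C₂ * L))) (Real.exp (-L) / 4) (by positivity) (by positivity)
      refine this.trans (le_of_eq ?_)
      have e1 : Real.exp (1 + 4 * C₁ * L) * Real.exp (-(C₂ * L)) =
          Real.exp 1 * Real.exp (-(2 * L)) * Real.exp (-L) ^ 2 := by
        rw [← Real.exp_nat_mul, ← Real.exp_add, ← Real.exp_add, ← Real.exp_add, hC₂]
        congr 1; push_cast; ring
      rw [e1]
      have := Real.exp_pos (-L)
      field_simp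
      ring
  refine Rare.mono' Sl (Rare.union Sl (Rare.union Sl hE1 hE2) (Rare.union Sl hE3 (Rare.iUnion Sl hE4)))
    ⟨max 3 (-Real.log Sl.H + 1), fun L hL => ⟨1 / 2, by norm_num, fun W hW => ?_⟩⟩
  have hL3 : 3 ≤ L := (le_max_left _ _).trans hL
  have hLH : -Real.log Sl.H < L := by
    have := (le_max_right _ _).trans hL
    linarith
  have hreg : ∀ n ω, W.y n ω ∈ Sl.reg := fun n ω => hW.dom ▸ W.y_mem n ω
  set d : ℝ := Real.exp (-(C₂ * L)) with hd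
  rintro ω ⟨n0, hn0, hlt⟩
  by_contra hcon
  simp only [Set.mem_union, Set.mem_ofPred_eq, Set.mem_iUnion, not_or, not_exists, not_and, not_lt, not_le,
    not_forall] at hcon
  obtain ⟨⟨c1, c2⟩, c3, c4⟩ := hcon
  classical
  -- the hitting time of the phase depth
  have hex : ∃ m, Slice.ry Sl (W.y m ω) ≤ d := ⟨n0, hlt.le⟩
  set T := Nat.find hex with hTdef
  have hT : Slice.ry Sl (W.y T ω) ≤ d := Nat.find_spec hex
  have hTmin : ∀ m, m < T → ¬ Slice.ry Sl (W.y m ω) ≤ d := fun m hm => Nat.find_min hex hm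
  have hTn0 : T ≤ n0 := Nat.find_min' hex hlt.le
  have hUT : Sl.Upto W L T ω := Upto.of_le Sl hn0 hTn0
  -- the exit time of level `2L`
  set n1 := Nat.find c3 with hn1def
  have hn1 : ¬ Sl.cutL W (2 * L) n1 ω := Nat.find_spec c3
  have hUn1 : Sl.Upto W (2 * L) n1 ω := fun m hm => not_not.mp (Nat.find_min c3 hm)
  have hTn1 : T < n1 := by
    by_contra hle
    exact hn1 fun i => (Upto.k_lt Sl hS hW hLH (Upto.of_le Sl hUT (not_lt.mp hle)) i).trans_le (by linarith)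
  unfold cutL at hn1
  push Not at hn1
  obtain ⟨i, hi⟩ := hn1
  -- derivative bound through the exit time
  have hder : ∀ m, m ≤ n1 → ‖Sl.s' ⟪i⟫ (W.y m ω)‖ ≤ Real.exp (C₁ * (2 * L)) := by
    intro m hm
    have hUm := Upto.of_le Sl hUn1 hm
    have g1 : Sl.geo (W.y m ω) ≤ 2 * L := by
      refine (c1 m hUm).trans ?_
      calc (2 * L) ^ σ ≤ (2 * L) ^ (1 : ℝ) := Real.rpow_le_rpow_of_exponent_le (by linarith) hσ1.le
        _ = 2 * L := Real.rpow_one _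
    have g2 : ∀ j : Fin Sl.N, Sl.k ⟪j⟫ (W.y m ω) ≤ 3 * (2 * L) := fun j =>
      (Upto.k_lt Sl hS hW (by linarith) hUm j).le.trans (by linarith)
    have := hrd _ (hreg m ω) (2 * L) (by linarith) g1 g2 i
    linarith [norm_nonneg (Sl.w ⟪i⟫ (W.y m ω))]
  -- the clock
  have hclock : ∑ m ∈ Finset.range n1, Sl.phaMask W d m ω ^ 2 * W.qv (Sl.s ⟪i⟫) (W.y m ω)
      ≤ Real.exp (1 + 4 * C₁ * L) * d := by
    rw [Sl.pha_mask_sum W d ω T n1 hTn1.le hT hTmin (fun c m => c ^ 2 * W.qv (Sl.s ⟪i⟫) (W.y m ω))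
      (fun m => by simp)]
    calc ∑ m ∈ Finset.Ico T n1, (1 : ℝ) ^ 2 * W.qv (Sl.s ⟪i⟫) (W.y m ω)
        ≤ ∑ m ∈ Finset.Ico T n1, Real.exp (1 + 4 * C₁ * L) * Sl.qy W m ω := by
          refine Finset.sum_le_sum fun m hm => ?_
          rw [one_pow, one_mul]
          have h1 := (Sl.qs_bounds hS W (1 / 2) hW i m ω).2
          have h2 := hder m (Finset.mem_Ico.mp hm).2.le
          have h3 : ‖Sl.s' ⟪i⟫ (W.y m ω)‖ ^ 2 ≤ Real.exp (C₁ * (2 * L)) ^ 2 := pow_le_pow_left₀ (norm_nonneg _) h2 2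
          have hq : 0 ≤ Sl.qy W m ω := sq_nonneg _
          calc W.qv (Sl.s ⟪i⟫) (W.y m ω) ≤ Real.exp (2 * (1 / 2)) * (‖Sl.s' ⟪i⟫ (W.y m ω)‖ ^ 2 * Sl.qy W m ω) := h1
            _ ≤ Real.exp (2 * (1 / 2)) * (Real.exp (C₁ * (2 * L)) ^ 2 * Sl.qy W m ω) := by gcongr
            _ = _ := by
                rw [← Real.exp_nat_mul, ← mul_assoc, ← Real.exp_add]
                congr 2; push_cast; ring
      _ = Real.exp (1 + 4 * C₁ * L) * ∑ m ∈ Finset.Ico T n1, Sl.qy W m ω := by rw [Finset.mul_sum]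
      _ ≤ _ := mul_le_mul_of_nonneg_left (c2 T n1 hTn1.le hT) (Real.exp_pos _).le
  have hinc := c4 i n1 hclock
  rw [Sl.pha_mask_sum W d ω T n1 hTn1.le hT hTmin
    (fun c m => (c : ℂ) * (Sl.s ⟪i⟫ (W.y (m + 1) ω) - Sl.s ⟪i⟫ (W.y m ω))) (fun m => by simp)] at hinc
  simp only [Complex.ofReal_one, one_mul] at hinc
  rw [Finset.sum_Ico_sub (fun m => Sl.s ⟪i⟫ (W.y m ω)) hTn1.le] at hinc
  -- depths
  have hdT := Sl.clk_im_of_k hS ⟪i⟫ _ (hreg T ω).1 (L + 1 / 2) (Upto.k_lt Sl hS hW hLH hUT i)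
  have hdn : Sl.H - Real.exp (-(2 * L)) ≤ |(Sl.s ⟪i⟫ (W.y n1 ω)).im| := by
    have hδ := Sl.δ_pos hS ⟪i⟫ _ (hreg n1 ω).1
    unfold k at hi
    have h1 : Real.log (Sl.δ ⟪i⟫ (W.y n1 ω)) ≤ -(2 * L) := by linarith
    have h2 := (Real.log_le_iff_le_exp hδ).mp h1
    unfold δ at h2
    linarith
  have htri : |(Sl.s ⟪i⟫ (W.y n1 ω)).im| ≤ |(Sl.s ⟪i⟫ (W.y T ω)).im| + ‖Sl.s ⟪i⟫ (W.y n1 ω) - Sl.s ⟪i⟫ (W.y T ω)‖ := by
    have h1 := Complex.abs_im_le_norm (Sl.s ⟪i⟫ (W.y n1 ω) - Sl.s ⟪i⟫ (W.y T ω))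
    rw [Complex.sub_im] at h1
    have h2 := abs_sub_abs_le_abs_sub (Sl.s ⟪i⟫ (W.y n1 ω)).im (Sl.s ⟪i⟫ (W.y T ω)).im
    linarith
  set x : ℝ := Real.exp (-L) with hx
  have hx0 : 0 < x := Real.exp_pos _
  have hx4 : x ≤ 1 / 4 := by
    have h1 : Real.exp (-L) ≤ Real.exp (-3) := Real.exp_le_exp.mpr (by linarith)
    have h2 : Real.exp (-3) ≤ 4⁻¹ := by
      rw [Real.exp_neg]
      exact inv_anti₀ (by norm_num) (by linarith [Real.add_one_le_exp (3 : ℝ)])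
    linarith
  have e1 : Real.exp (-(2 * L)) = x ^ 2 := by rw [hx, ← Real.exp_nat_mul]; congr 1; push_cast; ring
  have e2 : x / 2 ≤ Real.exp (-(L + 1 / 2)) := by
    have h1 : Real.exp (-(L + 1 / 2)) = x * Real.exp (-(1 / 2)) := by rw [hx, ← Real.exp_add]; ring_nf
    have h2 : (2 : ℝ)⁻¹ ≤ Real.exp (-(1 / 2)) := by
      rw [Real.exp_neg]
      refine inv_anti₀ (Real.exp_pos _) ?_
      have h4 : Real.exp (1 / 2) ^ 2 = Real.exp 1 := by rw [← Real.exp_nat_mul]; norm_num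
      have h5 := Real.exp_one_lt_d9
      have h6 := Real.exp_pos (1 / 2)
      nlinarith
    rw [h1]
    nlinarith
  rw [e1] at hdn
  nlinarith

omit hS in
theorem _root_.Claimed.Agent.R269.pha_log_one_sub {u : ℝ} (h1 : -(1 / 2) ≤ u) (h2 : u ≤ 1 / 2) :
    Real.log (1 - u) ≤ -u - u ^ 2 / 6 := by
  have hq : 0 < 1 - u / 2 - u ^ 2 / 12 := by nlinarith
  have h3 : 1 - u ≤ (1 - u / 2 - u ^ 2 / 12) ^ 2 := by
    have : 0 ≤ u ^ 2 * (1 + u + u ^ 2 / 12) := mul_nonneg (sq_nonneg u) (by nlinarith)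
    nlinarith
  calc Real.log (1 - u) ≤ Real.log ((1 - u / 2 - u ^ 2 / 12) ^ 2) := Real.log_le_log (by linarith) h3
    _ = 2 * Real.log (1 - u / 2 - u ^ 2 / 12) := by rw [Real.log_pow]; norm_num
    _ ≤ 2 * ((1 - u / 2 - u ^ 2 / 12) - 1) := by linarith [Real.log_le_sub_one_of_pos hq]
    _ = _ := by ring

omit hS in
theorem _root_.Claimed.Agent.R269.pha_wall {A t : ℝ} (hA : 0 < A) (ht : |t| ≤ A / 2) :
    -Real.log A + t / A + t ^ 2 / (6 * A ^ 2) ≤ -Real.log (A - t) := by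
  obtain ⟨t1, t2⟩ := abs_le.mp ht
  have h1 : -(1 / 2) ≤ t / A := by rw [le_div_iff₀ hA]; linarith
  have h2 : t / A ≤ 1 / 2 := by rw [div_le_iff₀ hA]; linarith
  have h3 := pha_log_one_sub h1 h2
  have h4 : A - t = A * (1 - t / A) := by field_simp
  rw [h4, Real.log_mul hA.ne' (by linarith)]
  have h5 : (t / A) ^ 2 / 6 = t ^ 2 / (6 * A ^ 2) := by field_simp
  linarith

/-- the occupation bound: `g(η) = -log(h-η) - log(h+η)` has a quadratic lower bound with `m = 1/(3 r_y²)` on step intervals (`κ ≤ 1/2`), so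
`g(Im y_n)` is a submartingale with drift `≥ r²/(6 r_y²)` (`avg_im_quad`); `occup` with the cut `r_y ≥ d`. -/
theorem phase_occupation (W : Walk) (κ : ℝ) (hκ : κ ≤ 1 / 2) (hW : Sl.Fine W κ) (d lam : ℝ) (hd : 0 < d) (hd1 : d ≤ Sl.h)
    (hl : 0 < lam) :
    Pw {ω | ∃ n, (∀ m, m < n → d ≤ Sl.ry (W.y m ω)) ∧
        lam < ∑ m ∈ Finset.range n, Sl.qy W m ω / Sl.ry (W.y m ω) ^ 2}
      ≤ 6 * (2 * Real.log (Sl.h / d) + 2) / lam := by
  have hh : 0 < Sl.h := Sl.h_pos hS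
  have hκ0 := Sl.wlk_fine_nonneg hS hW
  set Φ : ℝ → ℝ := fun η => -Real.log (Sl.h - η) - Real.log (Sl.h + η) with hΦ
  have hreg : ∀ n ω, W.y n ω ∈ Sl.reg := fun n ω => hW.dom ▸ W.y_mem n ω
  have hpos : ∀ z ∈ Sl.reg, 0 < Slice.ry Sl z ∧ Slice.ry Sl z ≤ Sl.h - z.im ∧ Slice.ry Sl z ≤ Sl.h + z.im := by
    intro z hz
    have h1 : |z.im| < Sl.h := hz.1
    unfold Slice.ry
    refine ⟨by linarith, by linarith [le_abs_self z.im], by linarith [neg_abs_le z.im]⟩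
  have hry_cont : ContinuousOn (fun z : ℂ => Slice.ry Sl z) W.U := by
    unfold Slice.ry
    exact (continuous_const.sub (continuous_abs.comp Complex.continuous_im)).continuousOn
  have hΦc : ContinuousOn (fun z : ℂ => Φ z.im) W.U := by
    rw [hW.dom]
    refine ContinuousOn.sub (ContinuousOn.neg (ContinuousOn.log ?_ fun z hz => ?_)) (ContinuousOn.log ?_ fun z hz => ?_)
    · exact (continuous_const.sub Complex.continuous_im).continuousOn
    · have := hpos z hz; linarith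
    · exact (continuous_const.add Complex.continuous_im).continuousOn
    · have := hpos z hz; linarith
  have hg : Proc fun n ω => Φ (W.y n ω).im := W.proc_comp (fun z => Φ z.im) hΦc
  have hcc : ContinuousOn (fun z : ℂ => W.r z ^ 2 / (12 * Slice.ry Sl z ^ 2)) W.U := by
    refine ContinuousOn.div (W.lip.continuous.continuousOn.pow 2) (continuousOn_const.mul (hry_cont.pow 2)) fun z hz => ?_
    have := (hpos z (hW.dom ▸ hz)).1
    positivity
  have hc : Proc fun n ω => W.r (W.y n ω) ^ 2 / (12 * Slice.ry Sl (W.y n ω) ^ 2) :=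
    W.proc_comp (fun z => W.r z ^ 2 / (12 * Slice.ry Sl z ^ 2)) hcc
  have hcut : Cut fun m ω => d ≤ Slice.ry Sl (W.y m ω) := by
    have hP : Proc fun n ω => Slice.ry Sl (W.y n ω) := W.proc_comp (fun z => Slice.ry Sl z) hry_cont
    refine ⟨fun n => measurableSet_le measurable_const (hP.meas n), fun n ω ω' h => ?_⟩
    rw [W.y_reads n ω ω' h]
  have hsym : ∀ η : ℝ, Φ η = -Real.log (Sl.h - |η|) - Real.log (Sl.h + |η|) := by
    intro η
    rcases le_total 0 η with h | h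
    · rw [abs_of_nonneg h]
    · rw [abs_of_nonpos h, hΦ]
      simp only [sub_neg_eq_add, ← sub_eq_add_neg]
      ring
  have hdrift : ∀ z ∈ Sl.reg, Φ z.im + W.r z ^ 2 / (12 * Slice.ry Sl z ^ 2) ≤
      Real.circleAverage (fun w => Φ w.im) z (W.r z) := by
    intro z hz
    obtain ⟨p0, p1, p2⟩ := hpos z hz
    have hr : W.r z ≤ Slice.ry Sl z / 2 := by
      have := Fine.rad_le Sl hS hW z hz
      nlinarith
    have hr0 := W.nonneg z
    have hint : ∀ t ∈ Icc (z.im - W.r z) (z.im + W.r z), |t - z.im| ≤ Slice.ry Sl z / 2 := fun t ht =>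
      abs_le.mpr ⟨by linarith [ht.1], by linarith [ht.2]⟩
    have h1 := W.avg_im_quad Φ z (1 / (Sl.h - z.im) - 1 / (Sl.h + z.im)) (1 / (6 * Slice.ry Sl z ^ 2)) ?_ ?_
    · refine le_trans (le_of_eq ?_) h1
      field_simp
      ring
    · refine ContinuousOn.sub (ContinuousOn.neg (ContinuousOn.log ?_ fun t ht => ?_))
        (ContinuousOn.log ?_ fun t ht => ?_)
      · exact (continuous_const.sub continuous_id).continuousOn
      · have := abs_le.mp (hint t ht); linarith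
      · exact (continuous_const.add continuous_id).continuousOn
      · have := abs_le.mp (hint t ht); linarith
    · intro t ht
      have ht' := hint t ht
      have w1 := pha_wall (A := Sl.h - z.im) (t := t - z.im) (by linarith) (by linarith)
      have w2 := pha_wall (A := Sl.h + z.im) (t := -(t - z.im)) (by linarith) (by rw [abs_neg]; linarith)
      have e1 : Sl.h - z.im - (t - z.im) = Sl.h - t := by ring
      have e2 : Sl.h + z.im - -(t - z.im) = Sl.h + t := by ring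
      rw [e1] at w1
      rw [e2] at w2
      have q0 : 0 ≤ (t - z.im) ^ 2 := sq_nonneg _
      have hm : 1 / (6 * Slice.ry Sl z ^ 2) * (t - z.im) ^ 2 ≤
          (t - z.im) ^ 2 / (6 * (Sl.h - z.im) ^ 2) + (-(t - z.im)) ^ 2 / (6 * (Sl.h + z.im) ^ 2) := by
        have n1 : 0 ≤ (t - z.im) ^ 2 / (6 * (Sl.h - z.im) ^ 2) := by positivity
        have n2 : 0 ≤ (-(t - z.im)) ^ 2 / (6 * (Sl.h + z.im) ^ 2) := by positivity
        rcases le_total 0 z.im with h | h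
        · have : Slice.ry Sl z = Sl.h - z.im := by unfold Slice.ry; rw [abs_of_nonneg h]
          rw [this]
          have : 1 / (6 * (Sl.h - z.im) ^ 2) * (t - z.im) ^ 2 = (t - z.im) ^ 2 / (6 * (Sl.h - z.im) ^ 2) := by ring
          linarith
        · have : Slice.ry Sl z = Sl.h + z.im := by unfold Slice.ry; rw [abs_of_nonpos h]; ring
          rw [this]
          have : 1 / (6 * (Sl.h + z.im) ^ 2) * (t - z.im) ^ 2 = (-(t - z.im)) ^ 2 / (6 * (Sl.h + z.im) ^ 2) := by ring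
          linarith
      have e3 : (1 / (Sl.h - z.im) - 1 / (Sl.h + z.im)) * (t - z.im) =
          (t - z.im) / (Sl.h - z.im) + -(t - z.im) / (Sl.h + z.im) := by ring
      simp only [hΦ]
      linarith
  have hocc := occup unif (fun m ω => d ≤ Slice.ry Sl (W.y m ω)) hcut (fun n ω => Φ (W.y n ω).im)
    (fun n ω => W.r (W.y n ω) ^ 2 / (12 * Slice.ry Sl (W.y n ω) ^ 2)) hg hc (fun n ω => by positivity)
    (fun n ω _ => by
      rw [W.stp_comp (fun z => Φ z.im) n ω]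
      exact hdrift _ (hreg n ω))
    (-(2 * Real.log Sl.h)) (1 / 2 - Real.log d - Real.log Sl.h) (lam / 12)
    (fun ω => by
      obtain ⟨x, -, e⟩ := W.y_zero_mem ω
      simp only [e, hΦ, Complex.ofReal_im, sub_zero, add_zero]
      linarith)
    (fun n ω h => by
      have hlogd : Real.log d ≤ Real.log Sl.h := Real.log_le_log hd hd1
      cases n with
      | zero =>
        obtain ⟨x, -, e⟩ := W.y_zero_mem ω
        simp only [e, hΦ, Complex.ofReal_im, sub_zero, add_zero]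
        linarith
      | succ m =>
        have h1 := h m (Nat.lt_succ_self m)
        have h2 := (abs_le.mp (hW.ry _ (hreg m ω) _ (sphere_subset_closedBall (W.y_succ_mem m ω)))).1
        have h3 : Real.log d ≤ Real.log (Slice.ry Sl (W.y m ω)) := Real.log_le_log hd h1
        have h4 : Real.log Sl.h ≤ Real.log (Sl.h + |(W.y (m + 1) ω).im|) :=
          Real.log_le_log hh (by linarith [abs_nonneg (W.y (m + 1) ω).im])
        have h5 : Slice.ry Sl (W.y (m + 1) ω) = Sl.h - |(W.y (m + 1) ω).im| := rfl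
        show Φ (W.y (m + 1) ω).im ≤ _
        rw [hsym, ← h5]
        linarith)
    (by positivity)
  refine (measureReal_mono ?_ (measure_ne_top _ _)).trans (hocc.trans ?_)
  · rintro ω ⟨n, hn, hlam⟩
    refine ⟨n, hn, ?_⟩
    have e : ∑ i ∈ Finset.range n, W.r (W.y i ω) ^ 2 / (12 * Slice.ry Sl (W.y i ω) ^ 2) =
        (∑ m ∈ Finset.range n, Sl.qy W m ω / Slice.ry Sl (W.y m ω) ^ 2) / 12 := by
      rw [Finset.sum_div]
      refine Finset.sum_congr rfl fun m _ => ?_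
      unfold qy Walk.rad
      rw [div_div, mul_comm]
    rw [e]
    linarith
  · have e1 : Real.log (Sl.h / d) = Real.log Sl.h - Real.log d := Real.log_div hh.ne' hd.ne'
    have e2 : 0 ≤ Real.log (Sl.h / d) := Real.log_nonneg (by rw [le_div_iff₀ hd]; linarith)
    rw [div_le_div_iff₀ (by positivity) hl, e1]
    rw [e1] at e2
    nlinarith

/-- **Lemma 10.8, phase clock**: `∑_{m < τ_L} r(y_m)² / r_y(y_m)² ≤ L²`. -/
theorem phase_clock :
    Sl.Rare fun L W => {ω | ∃ n, Sl.Upto W L n ω ∧ L ^ 2 < ∑ m ∈ Finset.range n, Sl.qy W m ω / Sl.ry (W.y m ω) ^ 2} := by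
  obtain ⟨C₂, hC₂, hdep⟩ := Sl.phase_depth hS
  have hh := Sl.h_pos hS
  have hocc : Sl.Rare fun L W => {ω | ∃ n, (∀ m, m < n → Real.exp (-(C₂ * L)) ≤ Sl.ry (W.y m ω)) ∧
      L ^ 2 < ∑ m ∈ Finset.range n, Sl.qy W m ω / Sl.ry (W.y m ω) ^ 2} := by
    refine Sl.rare_of_le (fun L => (12 * Real.log Sl.h + 12) * L⁻¹ ^ 2 + 12 * C₂ * L⁻¹) ?_
      ⟨max 1 (-Real.log Sl.h / C₂), fun L hL => ⟨1 / 2, by norm_num, fun W hW => ?_⟩⟩
    · have h1 : Tendsto (fun L : ℝ => L⁻¹) atTop (𝓝 0) := tendsto_inv_atTop_zero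
      simpa using ((h1.pow 2).const_mul (12 * Real.log Sl.h + 12)).add (h1.const_mul (12 * C₂))
    · have hL1 : 1 ≤ L := (le_max_left _ _).trans hL
      have hL0 : 0 < L := by linarith
      have hL2 : -Real.log Sl.h ≤ C₂ * L := by
        have := (le_max_right _ _).trans hL
        rw [div_le_iff₀ hC₂] at this
        linarith
      have hd1 : Real.exp (-(C₂ * L)) ≤ Sl.h := by
        rw [← Real.exp_log hh]
        exact Real.exp_le_exp.mpr (by linarith)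
      have := Sl.phase_occupation hS W (1 / 2) le_rfl hW (Real.exp (-(C₂ * L))) (L ^ 2) (Real.exp_pos _) hd1
        (by positivity)
      refine this.trans (le_of_eq ?_)
      rw [Real.log_div hh.ne' (Real.exp_pos _).ne', Real.log_exp]
      field_simp
      ring
  refine Rare.mono Sl (Rare.union Sl hdep hocc) fun L W => ?_
  rintro ω ⟨n, hn, hbig⟩
  by_cases h : ∃ m, m < n ∧ Slice.ry Sl (W.y m ω) < Real.exp (-(C₂ * L))
  · obtain ⟨m, hm, hlt⟩ := h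
    exact Or.inl ⟨m, Upto.of_le Sl hn hm.le, hlt⟩
  · push Not at h
    exact Or.inr ⟨n, h, hbig⟩

end Slice

end Claimed.Agent.R269
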