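/-
Row 269, P1 Theorem 10.9 (stopped geometry at every power).  Owner: helper171.  DISCRETE VERSION (see S10/Walk.lean).
`GeoRare σ`: `𝒢 ≤ L^σ` through `τ_L` with probability tending to one.  `improve : GeoRare σ → GeoRare ((σ+σ²)/2)`.
Notation of P1: `H₀ = L^{σ+ε}`, menu `ξ_m = σ + ε/3 + 2 m η`, `η = ε/(3(N+1))`, `m ≤ N`; `H_* = L^{ξ+η}`.
Black boxes: S10/Facts, Walk, Time, Init, Phase, Lib/*.
RULES: fill the `sorry`s of your package IN PLACE (auxiliary lemmas above the statement, prefix `pow_`); do not change a statement without telling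
helper171; land every compiled state.
-/
import Claimed.Agent.R269.S10.Phase
import Claimed.Agent.R269.Lib.Elim

set_option autoImplicit false

namespace Claimed.Agent.R269

open Complex Metric Set Filter Topology Chn MeasureTheory
open scoped Real ENNReal

local notation "⟪" i "⟫" => ((Fin.val i : ℕ) : ℤ)

namespace Slice

variable (Sl : Slice)

/-- `𝒢 ≤ L^σ` through `τ_L` with probability tending to one -/
def GeoRare (σ : ℝ) : Prop := Sl.Rare fun L W => {ω | ∃ n, Sl.Upto W L n ω ∧ L ^ σ < Sl.geo (W.y n ω)}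

/-- the width of the menu intervals -/
noncomputable def mη (ε : ℝ) : ℝ := ε / (3 * (Sl.N + 1))

/-- the menu of exponents -/
noncomputable def mξ (σ ε : ℝ) (m : ℕ) : ℝ := σ + ε / 3 + 2 * m * Sl.mη ε

/-- `τ_{H₀} ≤ m` -/
def Late (W : Walk) (H₀ : ℝ) (m : ℕ) (ω : Om ℝ) : Prop := ¬ Sl.Upto W H₀ (m + 1) ω

open Classical in
/-- the angle increments after `τ_{H₀}` -/
noncomputable def Ainc (W : Walk) (H₀ : ℝ) (i : Fin Sl.N) (n : ℕ) (ω : Om ℝ) : ℂ :=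
  ∑ m ∈ Finset.range n, if Sl.Late W H₀ m ω then Sl.ψ ⟪i⟫ (W.y (m + 1) ω) - Sl.ψ ⟪i⟫ (W.y m ω) else 0

open Classical in
/-- the integral of `𝓡^{-1} dH_i⁰` after `τ_{H₀}` -/
noncomputable def Sinc (W : Walk) (H₀ : ℝ) (i : Fin Sl.N) (n : ℕ) (ω : Om ℝ) : ℂ :=
  ∑ m ∈ Finset.range n, if Sl.Late W H₀ m ω then
    ((Sl.Rrun W m ω)⁻¹ : ℂ) * (Sl.Hs ⟪i⟫ (W.y (m + 1) ω) - Sl.Hs ⟪i⟫ (W.y m ω)) else 0

/-- the bad event of the inverse estimates for the exponents `ξ, η` (all admissible pairs) -/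
def BadInv (C ξ η : ℝ) (L : ℝ) (W : Walk) : Set (Om ℝ) :=
  {ω | ∃ I F : Finset (Fin Sl.N), Sl.Adm I F ∧ ∃ n,
    (∀ m, m ≤ n → Sl.geo (W.y m ω) ≤ L ^ (ξ + η / 4) ∧ ∀ i ∈ I, Sl.k ⟪i⟫ (W.y m ω) ≤ L ^ (ξ + η / 4)) ∧
    ∃ i k, Real.exp (C * L ^ (ξ + η / 2)) < ‖(Sl.Bmat I F (W.y n ω))⁻¹ i k‖}

/-- the scaled angle differential `r_y |ψ_j'| = r_y |f_j s_j'|` is at most `t` at all sites -/
def DiffLe (t : ℝ) (y : ℂ) : Prop := ∀ j : Fin Sl.N, Sl.ry y * ‖Sl.fj ⟪j⟫ y * Sl.s' ⟪j⟫ y‖ ≤ t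

variable (hS : Sl.Hyp)
include hS

/-! ### LF-S10e-1: pointwise suppression -/

omit hS in
theorem Bmat_eq (I F : Finset (Fin Sl.N)) (y : ℂ) :
    Sl.Bmat I F y = bmat (Sl.M₀ y) (fun i => Sl.V ⟪i⟫ y) I F := by
  rfl

/-- **Suppression at every site** ((10.31)-(10.34)).  `E` = geometry cap, `e^b` = bound of all modified inverses with truthful set `I`, `Hst = H_*`.
`z_j = r_y w_j`; `schwarz_pick` gives `log|z_j| + 2a_j + k_j ≤ E + C`; `F = {j ∉ I : |z_j| > e^{-Hst/8}}`; on `F`: `a_j < -(3/16) Hst + ..`, so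
`|𝒱_j| ≤ e^{-(9/16)Hst + ..}`; `elim` (Lib/Elim.lean) with `Hmat_w`; finally `2 r_y f_j s_j' = (M₀ z)_j` (`M₀_w`). -/
theorem suppression : ∃ C : ℝ, 0 < C ∧ ∀ y ∈ Sl.reg, ∀ (I : Finset (Fin Sl.N)) (E b Hst : ℝ), I ≠ Finset.univ → 1 ≤ E → 0 ≤ b →
    C * (E + b) ≤ Hst → Sl.geo y ≤ E → (∀ j, j ∉ I → Hst / 2 ≤ Sl.k ⟪j⟫ y) →
    (∀ F : Finset (Fin Sl.N), Disjoint I F → ∀ i k, ‖(Sl.Bmat I F y)⁻¹ i k‖ ≤ Real.exp b) →
    (∀ j : Fin Sl.N, Sl.ry y * ‖Sl.w ⟪j⟫ y‖ ≤ Real.exp (-(Hst / 16))) ∧ Sl.DiffLe (Real.exp (-(Hst / 32))) y := by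
  classical
  have hc := Sl.Sh.G.c_pos
  have hci : 0 < Sl.Sh.G.c⁻¹ := inv_pos.mpr hc
  have hN : (0 : ℝ) < Sl.N := by
    have := Sl.N_ge
    exact_mod_cast (by omega : 0 < Sl.N)
  set A0 : ℝ := 2 * Sl.Sh.G.c + 2 * Sl.Sh.G.c⁻¹ + 8 * (Sl.N : ℝ) ^ 2 with hA0
  have hA0p : 0 < A0 := by positivity
  have hA0e : A0 ≤ Real.exp A0 := by linarith [Real.add_one_le_exp A0]
  have k1 : 2 * Sl.Sh.G.c ≤ Real.exp A0 := le_trans (by rw [hA0]; nlinarith [sq_nonneg (Sl.N : ℝ)]) hA0e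
  have k2 : 2 * Sl.Sh.G.c⁻¹ ≤ Real.exp A0 := le_trans (by rw [hA0]; nlinarith [sq_nonneg (Sl.N : ℝ)]) hA0e
  have k3 : 8 * (Sl.N : ℝ) ^ 2 ≤ Real.exp A0 := le_trans (by rw [hA0]; nlinarith) hA0e
  have hN1 : (1 : ℝ) ≤ Sl.N := by
    have := Sl.N_ge
    exact_mod_cast (by omega : 1 ≤ Sl.N)
  clear_value A0
  refine ⟨32 * (A0 + 1), by positivity, fun y hy I E b Hst hI hE hb hC hgeo hdeep hinv => ?_⟩
  have hS32 : A0 + E + b ≤ Hst / 32 := by nlinarith [mul_nonneg hA0p.le hb, mul_nonneg hA0p.le (by linarith : 0 ≤ E - 1)]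
  have hry : 0 < Slice.ry Sl y := by
    have h1 : |y.im| < Sl.h := hy.1
    unfold Slice.ry
    linarith
  have hg : ∀ j : Fin Sl.N, |Real.log ‖Sl.sd ⟪j⟫ y‖| ≤ E ∧ |Real.log ‖Sl.ℓ ⟪j⟫ y‖| ≤ E := by
    intro j
    have h1 := (Sl.clk_geo1_le y j).trans hgeo
    unfold geo1 at h1
    have h2 : 0 ≤ ‖Sl.ψ ⟪j⟫ y‖ := norm_nonneg _
    have h3 : 0 ≤ Real.log (1 + ‖Sl.X ⟪j⟫ y‖) := Real.log_nonneg (by linarith [norm_nonneg (Sl.X ⟪j⟫ y)])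
    have h4 := abs_nonneg (Real.log ‖Sl.sd ⟪j⟫ y‖)
    have h5 := abs_nonneg (Real.log ‖Sl.ℓ ⟪j⟫ y‖)
    constructor <;> linarith
  set z : Fin Sl.N → ℂ := fun j => (Slice.ry Sl y : ℂ) * Sl.w ⟪j⟫ y with hz
  have hzn : ∀ j, ‖z j‖ = Slice.ry Sl y * ‖Sl.w ⟪j⟫ y‖ := fun j => by
    rw [hz]
    simp only [norm_mul, Complex.norm_real, Real.norm_eq_abs, abs_of_pos hry]
  -- Schwarz-Pick
  have hzb : ∀ j : Fin Sl.N, ‖z j‖ ≤ Real.exp (A0 + E - 2 * Sl.a ⟪j⟫ y - Sl.k ⟪j⟫ y) := by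
    intro j
    have hf : Sl.fj ⟪j⟫ y ≠ 0 := (hy.2.1 j).1
    have hδ := Sl.δ_pos hS ⟪j⟫ y hy.1
    have h1 := Sl.schwarz_pick hS ⟪j⟫ y hy.1
    have h2 : Sl.δ ⟪j⟫ y = Real.exp (-Sl.k ⟪j⟫ y) := by
      unfold k; rw [neg_neg, Real.exp_log hδ]
    have h3 : ‖Sl.sd ⟪j⟫ y‖ ≤ Real.exp E := clk_norm_le_exp (hy.2.1 j).2.1 (abs_le.mp (hg j).1).2
    have h4 : ‖(Sl.fj ⟪j⟫ y)⁻¹‖ = Real.exp (-Sl.a ⟪j⟫ y) := by
      unfold a; rw [norm_inv, Real.exp_neg, Real.exp_log (norm_pos_iff.mpr hf)]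
    rw [hzn]
    unfold w
    rw [norm_mul, norm_mul, norm_mul, norm_pow, Complex.norm_real, Real.norm_eq_abs, abs_of_pos hc, h4]
    calc Slice.ry Sl y * (Sl.Sh.G.c * ‖Sl.sd ⟪j⟫ y‖ * Real.exp (-Sl.a ⟪j⟫ y) ^ 2 * ‖Sl.s' ⟪j⟫ y‖)
        = Sl.Sh.G.c * ‖Sl.sd ⟪j⟫ y‖ * Real.exp (-Sl.a ⟪j⟫ y) ^ 2 * (Slice.ry Sl y * ‖Sl.s' ⟪j⟫ y‖) := by ring
      _ ≤ Sl.Sh.G.c * Real.exp E * Real.exp (-Sl.a ⟪j⟫ y) ^ 2 * (2 * Real.exp (-Sl.k ⟪j⟫ y)) := by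
          rw [← h2]
          gcongr
      _ = 2 * Sl.Sh.G.c * (Real.exp E * Real.exp (-Sl.a ⟪j⟫ y) ^ 2 * Real.exp (-Sl.k ⟪j⟫ y)) := by ring
      _ ≤ Real.exp A0 * (Real.exp E * Real.exp (-Sl.a ⟪j⟫ y) ^ 2 * Real.exp (-Sl.k ⟪j⟫ y)) := by gcongr
      _ = _ := by
          rw [← Real.exp_nat_mul, ← Real.exp_add, ← Real.exp_add, ← Real.exp_add]
          congr 1; push_cast; ring
  -- the flattened set
  set F : Finset (Fin Sl.N) := Finset.univ.filter fun j => j ∉ I ∧ Real.exp (-(Hst / 8)) < ‖z j‖ with hF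
  have hIF : Disjoint I F := by
    rw [Finset.disjoint_left]
    intro j hj hjF
    exact (Finset.mem_filter.mp hjF).2.1 hj
  have hAdm : Sl.Adm I F := ⟨hI, hIF⟩
  have hVF : ∀ j ∈ F, ‖Sl.V ⟪j⟫ y‖ ≤ Real.exp (5 / 2 * A0 + 5 / 2 * E - 9 / 16 * Hst) := by
    intro j hj
    obtain ⟨-, hjI, hjz⟩ := Finset.mem_filter.mp hj
    have h1 := hjz.trans_le (hzb j)
    have h2 := Real.exp_lt_exp.mp h1
    have h3 := hdeep j hjI
    have hf : Sl.fj ⟪j⟫ y ≠ 0 := (hy.2.1 j).1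
    have h4 := Sl.clk_V_le ⟪j⟫ y (Sl.a ⟪j⟫ y) E (clk_norm_le_exp hf le_rfl)
      (clk_inv_le_exp (hy.2.1 j).2.1 (abs_le.mp (hg j).1).1)
    calc ‖Sl.V ⟪j⟫ y‖ ≤ 2 * Sl.Sh.G.c⁻¹ * Real.exp (3 * Sl.a ⟪j⟫ y + E) := h4
      _ ≤ Real.exp A0 * Real.exp (3 * Sl.a ⟪j⟫ y + E) := by gcongr
      _ = Real.exp (A0 + (3 * Sl.a ⟪j⟫ y + E)) := by rw [← Real.exp_add]
      _ ≤ _ := Real.exp_le_exp.mpr (by linarith)
  have hμ : ∀ i k, ‖Sl.M₀ y i k‖ ≤ 4 * Real.exp E := Sl.clk_M₀_le hS y hy (Real.exp E) fun i =>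
    clk_inv_le_exp (hy.2.1 i).2.2 (abs_le.mp (hg i).2).1
  have hHz : (Sl.M₀ y - Matrix.diagonal fun i : Fin Sl.N => Sl.V ⟪i⟫ y).mulVec z = 0 := by
    have h1 := Sl.Hmat_w hS y hy
    have h2 : z = (Slice.ry Sl y : ℂ) • fun i : Fin Sl.N => Sl.w ⟪i⟫ y := by
      funext j; simp [hz]
    rw [h2, Matrix.mulVec_smul]
    unfold Hmat at h1
    rw [h1, smul_zero]
  have hsm : (Fintype.card (Fin Sl.N) : ℝ) * Real.exp b * Real.exp (5 / 2 * A0 + 5 / 2 * E - 9 / 16 * Hst) ≤ 1 / 2 := by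
    rw [Fintype.card_fin]
    have h1 : (Sl.N : ℝ) ≤ Real.exp A0 / 8 := by nlinarith
    calc (Sl.N : ℝ) * Real.exp b * Real.exp (5 / 2 * A0 + 5 / 2 * E - 9 / 16 * Hst)
        ≤ Real.exp A0 / 8 * Real.exp b * Real.exp (5 / 2 * A0 + 5 / 2 * E - 9 / 16 * Hst) := by gcongr
      _ = Real.exp (A0 + b + (5 / 2 * A0 + 5 / 2 * E - 9 / 16 * Hst)) / 8 := by
          rw [Real.exp_add, Real.exp_add]; ring
      _ ≤ Real.exp 0 / 8 := by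
          gcongr
          linarith
      _ ≤ 1 / 2 := by rw [Real.exp_zero]; norm_num
  have helim := elim (Sl.M₀ y) (fun i => Sl.V ⟪i⟫ y) z I F hIF hHz
    (by rw [← Sl.Bmat_eq]; exact hy.2.2 I F hAdm) (Real.exp b) (4 * Real.exp E)
    (Real.exp (5 / 2 * A0 + 5 / 2 * E - 9 / 16 * Hst)) (Real.exp (-(Hst / 8)))
    (by rw [← Sl.Bmat_eq]; exact hinv F hIF) hμ hVF
    (fun i hi => by
      by_contra hcon
      refine hi (Finset.mem_union_right _ (Finset.mem_filter.mpr ⟨Finset.mem_univ _, fun hiI => ?_, not_le.mp hcon⟩))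
      exact hi (Finset.mem_union_left _ hiI))
    hsm (Real.exp_pos _).le
  rw [Fintype.card_fin] at helim
  have hzall : ∀ j, ‖z j‖ ≤ Real.exp (-(Hst / 16)) := by
    intro j
    by_cases hj : j ∈ I ∪ F
    · refine (helim j hj).trans ?_
      calc 2 * (Sl.N : ℝ) ^ 2 * Real.exp b * (4 * Real.exp E) * Real.exp (-(Hst / 8))
          = 8 * (Sl.N : ℝ) ^ 2 * (Real.exp b * Real.exp E * Real.exp (-(Hst / 8))) := by ring
        _ ≤ Real.exp A0 * (Real.exp b * Real.exp E * Real.exp (-(Hst / 8))) := by gcongr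
        _ = Real.exp (A0 + (b + E + -(Hst / 8))) := by rw [Real.exp_add, Real.exp_add, Real.exp_add]
        _ ≤ _ := Real.exp_le_exp.mpr (by linarith)
    · have h1 : ‖z j‖ ≤ Real.exp (-(Hst / 8)) := by
        by_contra hcon
        refine hj (Finset.mem_union_right _ (Finset.mem_filter.mpr ⟨Finset.mem_univ _, fun hiI => ?_, not_le.mp hcon⟩))
        exact hj (Finset.mem_union_left _ hiI)
      exact h1.trans (Real.exp_le_exp.mpr (by linarith))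
  refine ⟨fun j => by rw [← hzn]; exact hzall j, fun j => ?_⟩
  have h1 := Sl.M₀_w hS y hy j
  have h2 : (2 : ℂ) * ((Slice.ry Sl y : ℂ) * (Sl.fj ⟪j⟫ y * Sl.s' ⟪j⟫ y)) = ∑ k, Sl.M₀ y j k * z k := by
    have : ∑ k, Sl.M₀ y j k * z k = (Slice.ry Sl y : ℂ) * (Sl.M₀ y).mulVec (fun i => Sl.w ⟪i⟫ y) j := by
      simp only [Matrix.mulVec, dotProduct, hz, Finset.mul_sum]
      refine Finset.sum_congr rfl fun k _ => by ring
    rw [this, ← h1]; ring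
  have h3 : ‖∑ k, Sl.M₀ y j k * z k‖ ≤ Sl.N * (4 * Real.exp E * Real.exp (-(Hst / 16))) := by
    calc ‖∑ k, Sl.M₀ y j k * z k‖ ≤ ∑ k, ‖Sl.M₀ y j k * z k‖ := norm_sum_le _ _
      _ ≤ ∑ _k : Fin Sl.N, 4 * Real.exp E * Real.exp (-(Hst / 16)) := by
          refine Finset.sum_le_sum fun k _ => ?_
          rw [norm_mul]
          exact mul_le_mul (hμ j k) (hzall k) (norm_nonneg _) (by positivity)
      _ = _ := by rw [Finset.sum_const, Finset.card_univ, Fintype.card_fin, nsmul_eq_mul]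
  rw [← h2, norm_mul, norm_mul, Complex.norm_real, Real.norm_eq_abs, abs_of_pos hry, show ‖(2 : ℂ)‖ = 2 by simp] at h3
  have h4 : 2 * (Sl.N : ℝ) ≤ Real.exp A0 := by nlinarith
  calc Slice.ry Sl y * ‖Sl.fj ⟪j⟫ y * Sl.s' ⟪j⟫ y‖ ≤ 2 * (Sl.N : ℝ) * (Real.exp E * Real.exp (-(Hst / 16))) := by linarith
    _ ≤ Real.exp A0 * (Real.exp E * Real.exp (-(Hst / 16))) := by gcongr
    _ = Real.exp (A0 + (E + -(Hst / 16))) := by rw [Real.exp_add, Real.exp_add]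
    _ ≤ _ := Real.exp_le_exp.mpr (by linarith)

/-! ### LF-S10e-2: the inverse estimates of the menu; the late differential bound -/

/-- finite union of `modified_inverse` with `U = L^{ξ+η/4}`, `V = L^{ξ+η/2}` -/
theorem badInv_rare : ∃ C : ℝ, 0 < C ∧ ∀ ξ η : ℝ, 0 < ξ → 0 < η → Sl.Rare (Sl.BadInv C ξ η) := by
  obtain ⟨C, hC, hmi⟩ := Sl.modified_inverse hS
  refine ⟨C, hC, fun ξ η hξ hη => ?_⟩
  have hone : ∀ p : Finset (Fin Sl.N) × Finset (Fin Sl.N), Sl.Rare fun L W => {ω | Sl.Adm p.1 p.2 ∧ ∃ n,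
      (∀ m, m ≤ n → Sl.geo (W.y m ω) ≤ L ^ (ξ + η / 4) ∧ ∀ i ∈ p.1, Sl.k ⟪i⟫ (W.y m ω) ≤ L ^ (ξ + η / 4)) ∧
      ∃ i k, Real.exp (C * L ^ (ξ + η / 2)) < ‖(Sl.Bmat p.1 p.2 (W.y n ω))⁻¹ i k‖} := by
    intro p
    refine Sl.rare_of_le (fun L => C * L ^ (-(η / 4))) ?_ ⟨1, fun L hL => ⟨1, one_pos, fun W hW => ?_⟩⟩
    · simpa using (tendsto_rpow_neg_atTop (by positivity : 0 < η / 4)).const_mul C
    · have hL0 : 0 < L := by linarith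
      by_cases hp : Sl.Adm p.1 p.2
      · have := hmi W 1 zero_le_one le_rfl hW p.1 p.2 hp (L ^ (ξ + η / 4)) (L ^ (ξ + η / 2))
          (Real.one_le_rpow hL (by positivity)) (Real.rpow_le_rpow_of_exponent_le hL (by linarith))
        refine (measureReal_mono (fun ω hω => hω.2) (measure_ne_top _ _)).trans (this.trans (le_of_eq ?_))
        rw [mul_div_assoc, ← Real.rpow_sub hL0]
        congr 2
        ring
      · have e : {ω | Sl.Adm p.1 p.2 ∧ ∃ n,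
            (∀ m, m ≤ n → Sl.geo (W.y m ω) ≤ L ^ (ξ + η / 4) ∧ ∀ i ∈ p.1, Sl.k ⟪i⟫ (W.y m ω) ≤ L ^ (ξ + η / 4)) ∧
            ∃ i k, Real.exp (C * L ^ (ξ + η / 2)) < ‖(Sl.Bmat p.1 p.2 (W.y n ω))⁻¹ i k‖} = ∅ := by
          ext ω
          simp [hp]
        rw [e]
        simp only [Pw, measureReal_empty]
        positivity
  refine Rare.mono Sl (Rare.iUnion Sl hone) fun L W => ?_
  rintro ω ⟨I, F, hA, h⟩
  exact Set.mem_iUnion.mpr ⟨(I, F), hA, h⟩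

omit hS in
theorem pow_mη_pos (ε : ℝ) (hε : 0 < ε) : 0 < Sl.mη ε := by unfold mη; positivity

omit hS in
theorem pow_mξ_lt (σ ε : ℝ) (hε : 0 < ε) (m : ℕ) (hm : m ≤ Sl.N) : Sl.mξ σ ε m + Sl.mη ε < σ + ε := by
  have hη := Sl.pow_mη_pos ε hε
  have h1 : 2 * ((Sl.N : ℝ) + 1) * Sl.mη ε = 2 * ε / 3 := by
    unfold mη
    field_simp
  have h2 : (m : ℝ) ≤ Sl.N := by exact_mod_cast hm
  unfold mξ
  nlinarith

omit hS in
theorem pow_mξ_step (σ ε : ℝ) (hε : 0 < ε) (m₁ m₂ : ℕ) (h : m₁ < m₂) : Sl.mξ σ ε m₁ + Sl.mη ε ≤ Sl.mξ σ ε m₂ := by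
  have hη := Sl.pow_mη_pos ε hε
  have h2 : (m₁ : ℝ) + 1 ≤ m₂ := by exact_mod_cast h
  unfold mξ
  nlinarith

omit hS in
theorem pow_mξ_ge (σ ε : ℝ) (hε : 0 < ε) (m : ℕ) : σ + ε / 3 ≤ Sl.mξ σ ε m := by
  have hη := Sl.pow_mη_pos ε hε
  have h2 : (0 : ℝ) ≤ m := Nat.cast_nonneg _
  unfold mξ
  nlinarith [mul_nonneg h2 hη.le]

omit hS in
/-- pigeonhole over the menu: one of `N + 1` ordered disjoint intervals contains none of the `N` histories -/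
theorem _root_.Claimed.Agent.R269.pow_pigeon (N n : ℕ) (k : Fin N → ℕ → ℝ) (a b : ℕ → ℝ)
    (hab : ∀ m₁ m₂, m₁ < m₂ → b m₁ ≤ a m₂) :
    ∃ m, m ≤ N ∧ ∀ j : Fin N, (∀ m', m' ≤ n → k j m' ≤ a m) ∨ (∃ m', m' ≤ n ∧ b m ≤ k j m') := by
  by_contra hcon
  push Not at hcon
  have h1 : ∀ m : Fin (N + 1), ∃ j : Fin N, (∃ m', m' ≤ n ∧ a m < k j m') ∧ (∀ m', m' ≤ n → k j m' < b m) :=
    fun m => hcon m (by have := m.2; omega)
  choose f hf using h1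
  obtain ⟨m₁, m₂, hne, heq⟩ := Fintype.exists_ne_map_eq_of_card_lt f (by simp)
  have key : ∀ m₁ m₂ : Fin (N + 1), m₁ < m₂ → f m₁ = f m₂ → False := by
    intro m₁ m₂ hlt heq
    obtain ⟨m', hm', h2⟩ := (hf m₂).1
    have h3 := (hf m₁).2 m' hm'
    rw [heq] at h3
    have h4 := hab m₁ m₂ hlt
    linarith
  rcases lt_or_gt_of_ne hne with h | h
  · exact key m₁ m₂ h heq
  · exact key m₂ m₁ h heq.symm

/-- **The uniform pointwise differential bound on the good event.**  At a time `τ_{H₀} ≤ n ≤ τ_L`: pigeonhole: one of the `N+1` disjoint intervals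
`(L^{ξ_m}, L^{ξ_m+η})` contains none of the `N` histories `K_j(n) = max_{m' ≤ n} k_j`; `I = {j : K_j(n) ≤ L^{ξ_m}}` is proper because one history is
`≥ H₀ = L^{σ+ε} ≥ L^{ξ_m+η}`; the deep sites have `k_j ≥ H_* - 3 log L ≥ H_*/2`; `suppression` with `E = L^σ`, `b = C L^{ξ_m+η/2}`, `Hst = L^{ξ_m+η}`. -/
theorem late_diff (C σ ε : ℝ) (hC : 0 < C) (hσ : 0 < σ) (hε : 0 < ε) (hσε : σ + ε < 1) :
    ∃ L0 : ℝ, ∀ L, L0 ≤ L → ∀ (W : Walk) (κ : ℝ), κ ≤ 1 → Sl.Fine W κ → ∀ (ω : Om ℝ) (n : ℕ),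
      Sl.Upto W L n ω → Sl.Late W (L ^ (σ + ε)) n ω → (∀ m, m ≤ n → Sl.geo (W.y m ω) ≤ L ^ σ) →
      (∀ m, m ≤ n → ∀ i : Fin Sl.N, Sl.k ⟪i⟫ (W.y m ω) - 3 * Real.log L ≤ Sl.k ⟪i⟫ (W.y n ω)) →
      (∀ m, m ≤ Sl.N → ω ∉ Sl.BadInv C (Sl.mξ σ ε m) (Sl.mη ε) L W) →
      Sl.DiffLe (Real.exp (-(L ^ (σ + ε / 3) / 32))) (W.y n ω) := by
  classical
  obtain ⟨Cs, hCs, hsup⟩ := Sl.suppression hS
  have hη := Sl.pow_mη_pos ε hε
  have hlog : ∀ᶠ L : ℝ in atTop, ‖Real.log L‖ ≤ 6⁻¹ * ‖L ^ σ‖ :=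
    (isLittleO_log_rpow_atTop hσ).bound (by norm_num)
  obtain ⟨L1, hL1⟩ := Filter.eventually_atTop.mp
    (hlog.and (ini_const_dom (Sl.mη ε / 2) (Cs * (1 + C)) (by positivity)))
  refine ⟨max 2 L1, fun L hL W κ hκ hW ω n hn hlate hgeo hret hinv => ?_⟩
  have hL2 : 2 ≤ L := (le_max_left _ _).trans hL
  have hL1' : 1 ≤ L := by linarith
  have hL0 : 0 < L := by linarith
  obtain ⟨d1, d2⟩ := hL1 L ((le_max_right _ _).trans hL)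
  have hreg : ∀ m, W.y m ω ∈ Sl.reg := fun m => hW.dom ▸ W.y_mem m ω
  rw [Real.norm_eq_abs, Real.norm_eq_abs, abs_of_pos (Real.rpow_pos_of_pos hL0 _)] at d1
  have d1' : 6 * Real.log L ≤ L ^ σ := by
    have := (le_abs_self _).trans d1
    linarith
  obtain ⟨m, hm, hpig⟩ := pow_pigeon Sl.N n (fun j m' => Sl.k ⟪j⟫ (W.y m' ω)) (fun m => L ^ Sl.mξ σ ε m)
    (fun m => L ^ (Sl.mξ σ ε m + Sl.mη ε))
    (fun m₁ m₂ h => Real.rpow_le_rpow_of_exponent_le hL1' (Sl.pow_mξ_step σ ε hε m₁ m₂ h))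
  set ξ : ℝ := Sl.mξ σ ε m with hξ
  set η : ℝ := Sl.mη ε with hηdef
  have hξ1 : σ + ε / 3 ≤ ξ := Sl.pow_mξ_ge σ ε hε m
  have hξ2 : ξ + η < σ + ε := Sl.pow_mξ_lt σ ε hε m hm
  set I : Finset (Fin Sl.N) := Finset.univ.filter fun j => ∀ m', m' ≤ n → Sl.k ⟪j⟫ (W.y m' ω) ≤ L ^ ξ with hI
  have hIne : I ≠ Finset.univ := by
    intro hIu
    unfold Late Upto Alive at hlate
    push Not at hlate
    obtain ⟨m', hm', hcut⟩ := hlate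
    unfold cutL at hcut
    push Not at hcut
    obtain ⟨j0, hj0⟩ := hcut
    have h1 : j0 ∈ I := by rw [hIu]; exact Finset.mem_univ _
    have h2 := (Finset.mem_filter.mp h1).2 m' (by omega)
    have h3 : L ^ ξ < L ^ (σ + ε) := Real.rpow_lt_rpow_of_exponent_lt (by linarith) (by linarith)
    linarith
  have hHst : L ^ σ ≤ L ^ (ξ + η) := Real.rpow_le_rpow_of_exponent_le hL1' (by linarith)
  have hdeep : ∀ j, j ∉ I → L ^ (ξ + η) / 2 ≤ Sl.k ⟪j⟫ (W.y n ω) := by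
    intro j hj
    rcases hpig j with h | ⟨m', hm', h⟩
    · exact absurd (Finset.mem_filter.mpr ⟨Finset.mem_univ _, h⟩) hj
    · have := hret m' hm' j
      linarith
  have hb : ∀ F : Finset (Fin Sl.N), Disjoint I F → ∀ i k,
      ‖(Sl.Bmat I F (W.y n ω))⁻¹ i k‖ ≤ Real.exp (C * L ^ (ξ + η / 2)) := by
    intro F hF i k
    by_contra hcon
    refine hinv m hm ⟨I, F, ⟨hIne, hF⟩, n, fun m' hm' => ⟨?_, fun i hi => ?_⟩, i, k, not_le.mp hcon⟩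
    · exact (hgeo m' hm').trans (Real.rpow_le_rpow_of_exponent_le hL1' (by linarith))
    · exact ((Finset.mem_filter.mp hi).2 m' hm').trans (Real.rpow_le_rpow_of_exponent_le hL1' (by linarith))
  have hcond : Cs * (L ^ σ + C * L ^ (ξ + η / 2)) ≤ L ^ (ξ + η) := by
    have h1 : L ^ σ ≤ L ^ (ξ + η / 2) := Real.rpow_le_rpow_of_exponent_le hL1' (by linarith)
    have h2 : L ^ (ξ + η) = L ^ (η / 2) * L ^ (ξ + η / 2) := by rw [← Real.rpow_add hL0]; ring_nf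
    have h3 : 0 < L ^ (ξ + η / 2) := Real.rpow_pos_of_pos hL0 _
    rw [h2]
    calc Cs * (L ^ σ + C * L ^ (ξ + η / 2)) ≤ Cs * (L ^ (ξ + η / 2) + C * L ^ (ξ + η / 2)) := by gcongr
      _ = Cs * (1 + C) * L ^ (ξ + η / 2) := by ring
      _ ≤ _ := mul_le_mul_of_nonneg_right d2 h3.le
  have hres := (hsup _ (hreg n) I (L ^ σ) (C * L ^ (ξ + η / 2)) (L ^ (ξ + η)) hIne (Real.one_le_rpow hL1' hσ.le)
    (by positivity) hcond (hgeo n le_rfl) hdeep hb).2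
  intro j
  refine (hres j).trans (Real.exp_le_exp.mpr ?_)
  have : L ^ (σ + ε / 3) ≤ L ^ (ξ + η) := Real.rpow_le_rpow_of_exponent_le hL1' (by linarith)
  linarith

/-! ### LF-S10e-3: late increments of angles and supports -/

omit hS in
open Classical in
/-- the mask `1{τ_{H₀} ≤ m}` -/
noncomputable def powMask (W : Walk) (H₀ : ℝ) (m : ℕ) (ω : Om ℝ) : ℝ := if Sl.Late W H₀ m ω then 1 else 0

omit hS in
open Classical in
/-- the mask `1{τ_{H₀} ≤ m} 𝓡^{-1}` -/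
noncomputable def powMaskR (W : Walk) (H₀ : ℝ) (m : ℕ) (ω : Om ℝ) : ℝ :=
  if Sl.Late W H₀ m ω then (Sl.Rrun W m ω)⁻¹ else 0

theorem pow_late_meas (W : Walk) (hW : W.U = Sl.reg) (H₀ : ℝ) (m : ℕ) :
    MeasurableSet {ω | Sl.Late W H₀ m ω} ∧ Reads m (Sl.Late W H₀ m) := by
  have hcut := Sl.cut_cutL W hW hS H₀
  refine ⟨(chn_alive_meas _ hcut (m + 1)).compl, fun ω ω' h => ?_⟩
  unfold Late Upto
  rw [chn_alive_reads _ hcut m ω ω' h]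

theorem pow_mask_proc (W : Walk) (hW : W.U = Sl.reg) (H₀ : ℝ) : Proc (Sl.powMask W H₀) := by
  classical
  refine ⟨fun n => ?_, fun n ω ω' h => ?_, fun n => ⟨1, fun ω => ?_⟩⟩
  · unfold powMask
    exact Measurable.ite (Sl.pow_late_meas hS W hW H₀ n).1 measurable_const measurable_const
  · unfold powMask
    have e : Sl.Late W H₀ n ω ↔ Sl.Late W H₀ n ω' := by rw [(Sl.pow_late_meas hS W hW H₀ n).2 ω ω' h]
    exact if_congr e rfl rfl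
  · unfold powMask
    split_ifs <;> simp

theorem pow_maskR_proc (W : Walk) (hW : W.U = Sl.reg) (H₀ : ℝ) : Proc (Sl.powMaskR W H₀) := by
  classical
  refine ⟨fun n => ?_, fun n ω ω' h => ?_, fun n => ⟨1, fun ω => ?_⟩⟩
  · unfold powMaskR
    exact Measurable.ite (Sl.pow_late_meas hS W hW H₀ n).1 (Sl.ini_Rrun_meas hS W hW n).inv measurable_const
  · unfold powMaskR
    have e : Sl.Late W H₀ n ω ↔ Sl.Late W H₀ n ω' := by rw [(Sl.pow_late_meas hS W hW H₀ n).2 ω ω' h]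
    exact if_congr e (by rw [Sl.ini_Rrun_reads W n ω ω' h]) rfl
  · have h1 := Sl.ini_one_le_Rrun W n ω
    unfold powMaskR
    split_ifs
    · rw [Real.norm_eq_abs, abs_of_nonneg (by positivity)]
      exact inv_le_one_of_one_le₀ h1
    · simp

omit hS in
theorem pow_Ainc_eq (W : Walk) (H₀ : ℝ) (i : Fin Sl.N) (n : ℕ) (ω : Om ℝ) :
    Sl.Ainc W H₀ i n ω = ∑ m ∈ Finset.range n, (Sl.powMask W H₀ m ω : ℂ) *
      (Sl.ψ ⟪i⟫ (W.y (m + 1) ω) - Sl.ψ ⟪i⟫ (W.y m ω)) := by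
  unfold Ainc powMask
  refine Finset.sum_congr rfl fun m _ => ?_
  split_ifs <;> simp

omit hS in
theorem pow_Sinc_eq (W : Walk) (H₀ : ℝ) (i : Fin Sl.N) (n : ℕ) (ω : Om ℝ) :
    Sl.Sinc W H₀ i n ω = ∑ m ∈ Finset.range n, (Sl.powMaskR W H₀ m ω : ℂ) *
      (Sl.Hs ⟪i⟫ (W.y (m + 1) ω) - Sl.Hs ⟪i⟫ (W.y m ω)) := by
  unfold Sinc powMaskR
  refine Finset.sum_congr rfl fun m _ => ?_
  split_ifs <;> simp

/-- the angle differential on a step disc -/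
theorem pow_dψ_le (W : Walk) (hW : Sl.Fine W 1) (i : Fin Sl.N) (z : ℂ) (hz : z ∈ Sl.reg) (t : ℝ) (ht : Sl.DiffLe t z) :
    ∀ w ∈ closedBall z (W.r z), w ∈ Sl.reg ∧
      ‖Sl.fj ⟪i⟫ w * Sl.s' ⟪i⟫ w‖ ≤ Real.exp 2 * t / Slice.ry Sl z := by
  intro w hw
  have hzU : z ∈ W.U := hW.dom ▸ hz
  have hwr : w ∈ Sl.reg := Sl.clk_mem_reg hW (W.woc_closedBall_subset hzU hw)
  have hry : 0 < Slice.ry Sl z := by
    have h1 : |z.im| < Sl.h := hz.1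
    unfold Slice.ry
    linarith
  refine ⟨hwr, ?_⟩
  have h1 : ‖Sl.s' ⟪i⟫ w‖ ≤ Real.exp 1 * ‖Sl.s' ⟪i⟫ z‖ := Sl.ini_s'_osc hS W hW i z hz w hw
  have h2 : ‖Sl.fj ⟪i⟫ w‖ ≤ Real.exp 1 * ‖Sl.fj ⟪i⟫ z‖ := by
    have h3 := (abs_le.mp (hW.a z hz w hw i)).2
    have p1 : 0 < ‖Sl.fj ⟪i⟫ w‖ := norm_pos_iff.mpr (hwr.2.1 i).1
    have p2 : 0 < ‖Sl.fj ⟪i⟫ z‖ := norm_pos_iff.mpr (hz.2.1 i).1
    have h4 : Real.log ‖Sl.fj ⟪i⟫ w‖ ≤ 1 + Real.log ‖Sl.fj ⟪i⟫ z‖ := by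
      have e1 : Sl.a ⟪i⟫ w = Real.log ‖Sl.fj ⟪i⟫ w‖ := rfl
      have e2 : Sl.a ⟪i⟫ z = Real.log ‖Sl.fj ⟪i⟫ z‖ := rfl
      linarith
    have h5 := Real.exp_le_exp.mpr h4
    rwa [Real.exp_add, Real.exp_log p1, Real.exp_log p2] at h5
  have h3 := ht i
  rw [norm_mul] at h3 ⊢
  rw [le_div_iff₀ hry]
  have e : Real.exp 2 = Real.exp 1 * Real.exp 1 := by rw [← Real.exp_add]; norm_num
  calc ‖Sl.fj ⟪i⟫ w‖ * ‖Sl.s' ⟪i⟫ w‖ * Slice.ry Sl z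
      ≤ (Real.exp 1 * ‖Sl.fj ⟪i⟫ z‖) * (Real.exp 1 * ‖Sl.s' ⟪i⟫ z‖) * Slice.ry Sl z := by gcongr
    _ = Real.exp 2 * (Slice.ry Sl z * (‖Sl.fj ⟪i⟫ z‖ * ‖Sl.s' ⟪i⟫ z‖)) := by rw [e]; ring
    _ ≤ Real.exp 2 * t := by gcongr

theorem pow_qv_ψ (W : Walk) (hW : Sl.Fine W 1) (i : Fin Sl.N) (z : ℂ) (hz : z ∈ Sl.reg) (t : ℝ) (ht : Sl.DiffLe t z) :
    W.qv (Sl.ψ ⟪i⟫) z ≤ Real.exp 4 * t ^ 2 * (W.r z ^ 2 / Slice.ry Sl z ^ 2) := by
  have hzU : z ∈ W.U := hW.dom ▸ hz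
  have hd : DifferentiableOn ℂ (Sl.ψ ⟪i⟫) W.U := by
    rw [hW.dom]; exact (Sl.ψ_diff hS _).mono Sl.wlk_reg_subset
  have h1 := W.qv_le (Sl.ψ ⟪i⟫) hd z hzU (Real.exp 2 * t / Slice.ry Sl z) fun w hw => by
    obtain ⟨hwr, h2⟩ := Sl.pow_dψ_le hS W hW i z hz t ht w hw
    rw [Sl.deriv_ψ hS i w hwr.1]
    exact h2
  refine h1.trans (le_of_eq ?_)
  have e : Real.exp 4 = Real.exp 2 ^ 2 := by rw [← Real.exp_nat_mul]; norm_num
  rw [e]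
  ring

theorem pow_qv_Hs (W : Walk) (hW : Sl.Fine W 1) (i : Fin Sl.N) (z : ℂ) (hz : z ∈ Sl.reg) (t r R : ℝ) (_ht0 : 0 ≤ t)
    (ht : Sl.DiffLe t z) (hψ : ‖Sl.ψ ⟪i⟫ z‖ ≤ r) (hR : 1 + ‖Sl.X ⟪i⟫ z‖ ≤ R) :
    W.qv (Sl.Hs ⟪i⟫) z ≤ R ^ 2 * (4 * Real.exp (2 * r + 8)) * t ^ 2 * (W.r z ^ 2 / Slice.ry Sl z ^ 2) := by
  have hzU : z ∈ W.U := hW.dom ▸ hz
  have hR0 : 0 < R := by linarith [norm_nonneg (Sl.X ⟪i⟫ z)]
  have hry : 0 < Slice.ry Sl z := by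
    have h1 : |z.im| < Sl.h := hz.1
    unfold Slice.ry
    linarith
  have hd : DifferentiableOn ℂ (Sl.Hs ⟪i⟫) W.U := by rw [hW.dom]; exact Sl.Hs_diff hS i
  have h1 := W.qv_le (Sl.Hs ⟪i⟫) hd z hzU (2 * (Real.exp 1 * R) * Real.exp (r + 1) * (Real.exp 2 * t / Slice.ry Sl z))
    fun w hw => by
      obtain ⟨hwr, h2⟩ := Sl.pow_dψ_le hS W hW i z hz t ht w hw
      rw [Sl.deriv_Hs hS i w hwr, mul_assoc, norm_mul]
      have h3 : Real.exp |(Sl.ψ ⟪i⟫ w).im| ≤ Real.exp (r + 1) := by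
        refine Real.exp_le_exp.mpr ?_
        have h1 := hW.ψ z hz w hw i
        have h2 : ‖Sl.ψ ⟪i⟫ w‖ ≤ ‖Sl.ψ ⟪i⟫ z‖ + ‖Sl.ψ ⟪i⟫ w - Sl.ψ ⟪i⟫ z‖ := by
          have := norm_add_le (Sl.ψ ⟪i⟫ z) (Sl.ψ ⟪i⟫ w - Sl.ψ ⟪i⟫ z)
          rwa [add_sub_cancel] at this
        exact (Complex.abs_im_le_norm _).trans (by linarith)
      have h4 : ‖Sl.X ⟪i⟫ w‖ ≤ Real.exp 1 * R := by
        have h4 := (abs_le.mp (hW.X z hz w hw i)).2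
        have p1 : 0 < 1 + ‖Sl.X ⟪i⟫ w‖ := by linarith [norm_nonneg (Sl.X ⟪i⟫ w)]
        have p2 : 0 < 1 + ‖Sl.X ⟪i⟫ z‖ := by linarith [norm_nonneg (Sl.X ⟪i⟫ z)]
        have h5 : Real.log (1 + ‖Sl.X ⟪i⟫ w‖) ≤ 1 + Real.log (1 + ‖Sl.X ⟪i⟫ z‖) := by linarith
        have h6 := Real.exp_le_exp.mpr h5
        rw [Real.exp_add, Real.exp_log p1, Real.exp_log p2] at h6
        have h7 : Real.exp 1 * (1 + ‖Sl.X ⟪i⟫ z‖) ≤ Real.exp 1 * R := mul_le_mul_of_nonneg_left hR (Real.exp_pos _).le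
        linarith
      refine mul_le_mul ((ini_dot_evec_le _ _).trans ?_) h2 (norm_nonneg _) (by positivity)
      exact mul_le_mul (by linarith) h3 (Real.exp_pos _).le (by positivity)
  refine h1.trans (le_of_eq ?_)
  have e : Real.exp (2 * r + 8) = Real.exp 1 ^ 2 * Real.exp (r + 1) ^ 2 * Real.exp 2 ^ 2 := by
    rw [← Real.exp_nat_mul, ← Real.exp_nat_mul, ← Real.exp_nat_mul, ← Real.exp_add, ← Real.exp_add]
    congr 1; push_cast; ring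
  rw [e]
  ring

omit hS in
/-- `L² ≤ exp (c L^a)` eventually -/
theorem _root_.Claimed.Agent.R269.pow_sq_le_exp (a c : ℝ) (ha : 0 < a) (hc : 0 < c) :
    ∀ᶠ L : ℝ in atTop, L ^ 2 ≤ Real.exp (c * L ^ a) := by
  have hlog : ∀ᶠ L : ℝ in atTop, ‖Real.log L‖ ≤ c / 2 * ‖L ^ a‖ := (isLittleO_log_rpow_atTop ha).bound (by positivity)
  filter_upwards [hlog, eventually_gt_atTop 0] with L h1 hL0
  rw [Real.norm_eq_abs, Real.norm_eq_abs, abs_of_pos (Real.rpow_pos_of_pos hL0 _)] at h1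
  have h2 := (le_abs_self _).trans h1
  calc L ^ 2 = Real.exp (2 * Real.log L) := by
        rw [show (2 : ℝ) * Real.log L = ((2 : ℕ) : ℝ) * Real.log L by norm_num, Real.exp_nat_mul, Real.exp_log hL0]
    _ ≤ _ := Real.exp_le_exp.mpr (by linarith)

/-- `l2max` for `ψ_i` with mask `1{Late}`; clock `≤ e^4 t² ∑ r²/r_y² ≤ e^4 t² L²`, `t = exp(-L^{σ+ε/3}/32)`; threshold `exp(-L^{σ+ε/3}/64)`. -/
theorem late_angles (σ ε : ℝ) (hσ : 0 < σ) (hε : 0 < ε) :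
    Sl.Rare fun L W => {ω | ∃ n, Sl.Upto W L n ω ∧
      (∀ m, m < n → Sl.Late W (L ^ (σ + ε)) m ω → Sl.DiffLe (Real.exp (-(L ^ (σ + ε / 3) / 32))) (W.y m ω)) ∧
      ∑ m ∈ Finset.range n, Sl.qy W m ω / Sl.ry (W.y m ω) ^ 2 ≤ L ^ 2 ∧
      ∃ i : Fin Sl.N, Real.exp (-(L ^ (σ + ε / 3) / 64)) ≤ ‖Sl.Ainc W (L ^ (σ + ε)) i n ω‖} := by
  have ha : 0 < σ + ε / 3 := by positivity
  have hone : ∀ i : Fin Sl.N, Sl.Rare fun L W => {ω | ∃ n,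
      (∀ m, m < n → Sl.Late W (L ^ (σ + ε)) m ω → Sl.DiffLe (Real.exp (-(L ^ (σ + ε / 3) / 32))) (W.y m ω)) ∧
      ∑ m ∈ Finset.range n, Sl.qy W m ω / Sl.ry (W.y m ω) ^ 2 ≤ L ^ 2 ∧
      Real.exp (-(L ^ (σ + ε / 3) / 64)) ≤ ‖Sl.Ainc W (L ^ (σ + ε)) i n ω‖} := by
    intro i
    obtain ⟨L1, hL1⟩ := Filter.eventually_atTop.mp (pow_sq_le_exp (σ + ε / 3) (1 / 64) ha (by norm_num))
    refine Sl.rare_of_le (fun L => Real.exp 4 * Real.exp (-(1 / 64 * L ^ (σ + ε / 3)))) ?_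
      ⟨max 1 L1, fun L hL => ⟨1, one_pos, fun W hW => ?_⟩⟩
    · simpa using (ini_tendsto_exp_neg_rpow (σ + ε / 3) (1 / 64) ha (by norm_num)).const_mul (Real.exp 4)
    · have hd := hL1 L ((le_max_right _ _).trans hL)
      set A : ℝ := L ^ (σ + ε / 3) with hA
      set t : ℝ := Real.exp (-(A / 32)) with ht
      have hreg : ∀ n ω, W.y n ω ∈ Sl.reg := fun n ω => hW.dom ▸ W.y_mem n ω
      have hdψ : DifferentiableOn ℂ (Sl.ψ ⟪i⟫) W.U := by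
        rw [hW.dom]; exact (Sl.ψ_diff hS _).mono Sl.wlk_reg_subset
      have b1 := W.pha_l2 (Sl.ψ ⟪i⟫) hdψ _ (Sl.pow_mask_proc hS W hW.dom (L ^ (σ + ε))) (Real.exp 4 * t ^ 2 * L ^ 2)
        (Real.exp (-(A / 64))) (by positivity) (Real.exp_pos _)
      have e1 : Real.exp 4 * t ^ 2 * L ^ 2 / Real.exp (-(A / 64)) ^ 2 ≤ Real.exp 4 * Real.exp (-(1 / 64 * A)) := by
        have e2 : t ^ 2 / Real.exp (-(A / 64)) ^ 2 = Real.exp (-(1 / 32 * A)) := by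
          rw [ht, ← Real.exp_nat_mul, ← Real.exp_nat_mul, ← Real.exp_sub]
          congr 1; push_cast; ring
        calc Real.exp 4 * t ^ 2 * L ^ 2 / Real.exp (-(A / 64)) ^ 2
            = Real.exp 4 * (t ^ 2 / Real.exp (-(A / 64)) ^ 2 * L ^ 2) := by ring
          _ ≤ Real.exp 4 * (Real.exp (-(1 / 32 * A)) * Real.exp (1 / 64 * A)) := by rw [e2]; gcongr
          _ = _ := by rw [← Real.exp_add]; ring_nf
      refine (measureReal_mono ?_ (measure_ne_top _ _)).trans (b1.trans e1)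
      rintro ω ⟨n, hdiff, hclock, hlam⟩
      refine ⟨n, ?_, by rwa [Sl.pow_Ainc_eq] at hlam⟩
      calc ∑ m ∈ Finset.range n, Sl.powMask W (L ^ (σ + ε)) m ω ^ 2 * W.qv (Sl.ψ ⟪i⟫) (W.y m ω)
          ≤ ∑ m ∈ Finset.range n, Real.exp 4 * t ^ 2 * (Sl.qy W m ω / Slice.ry Sl (W.y m ω) ^ 2) := by
            refine Finset.sum_le_sum fun m hm => ?_
            unfold powMask
            split_ifs with hl
            · rw [one_pow, one_mul]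
              exact Sl.pow_qv_ψ hS W hW i _ (hreg m ω) t (hdiff m (Finset.mem_range.mp hm) hl)
            · have : 0 ≤ Real.exp 4 * t ^ 2 * (Sl.qy W m ω / Slice.ry Sl (W.y m ω) ^ 2) := by
                unfold qy; positivity
              simpa using this
        _ = Real.exp 4 * t ^ 2 * ∑ m ∈ Finset.range n, Sl.qy W m ω / Slice.ry Sl (W.y m ω) ^ 2 := by
            rw [Finset.mul_sum]
        _ ≤ _ := mul_le_mul_of_nonneg_left hclock (by positivity)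
  refine Rare.mono Sl (Rare.iUnion Sl hone) fun L W => ?_
  rintro ω ⟨n, -, h1, h2, i, hi⟩
  exact Set.mem_iUnion.mpr ⟨i, n, h1, h2, hi⟩

/-- the same for `𝓡^{-1} dH_i⁰ = 𝓡^{-1} (X_i · e_{ψ_i}) dψ_i`; the extra coefficient costs `e^{2 L^σ + C}` -/
theorem late_supports (σ ε : ℝ) (hσ : 0 < σ) (hε : 0 < ε) :
    Sl.Rare fun L W => {ω | ∃ n, Sl.Upto W L n ω ∧ (∀ m, m < n → Sl.geo (W.y m ω) ≤ L ^ σ) ∧
      (∀ m, m < n → Sl.Late W (L ^ (σ + ε)) m ω → Sl.DiffLe (Real.exp (-(L ^ (σ + ε / 3) / 32))) (W.y m ω)) ∧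
      ∑ m ∈ Finset.range n, Sl.qy W m ω / Sl.ry (W.y m ω) ^ 2 ≤ L ^ 2 ∧
      ∃ i : Fin Sl.N, Real.exp (-(L ^ (σ + ε / 3) / 64)) ≤ ‖Sl.Sinc W (L ^ (σ + ε)) i n ω‖} := by
  have ha : 0 < σ + ε / 3 := by positivity
  have hone : ∀ i : Fin Sl.N, Sl.Rare fun L W => {ω | ∃ n, (∀ m, m < n → Sl.geo (W.y m ω) ≤ L ^ σ) ∧
      (∀ m, m < n → Sl.Late W (L ^ (σ + ε)) m ω → Sl.DiffLe (Real.exp (-(L ^ (σ + ε / 3) / 32))) (W.y m ω)) ∧
      ∑ m ∈ Finset.range n, Sl.qy W m ω / Sl.ry (W.y m ω) ^ 2 ≤ L ^ 2 ∧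
      Real.exp (-(L ^ (σ + ε / 3) / 64)) ≤ ‖Sl.Sinc W (L ^ (σ + ε)) i n ω‖} := by
    intro i
    obtain ⟨L1, hL1⟩ := Filter.eventually_atTop.mp
      ((pow_sq_le_exp (σ + ε / 3) (1 / 256) ha (by norm_num)).and (ini_rpow_dom σ (σ + ε / 3) 512 (by linarith)))
    refine Sl.rare_of_le (fun L => 4 * Real.exp 8 * Real.exp (-(1 / 128 * L ^ (σ + ε / 3)))) ?_
      ⟨max 1 L1, fun L hL => ⟨1, one_pos, fun W hW => ?_⟩⟩
    · simpa using (ini_tendsto_exp_neg_rpow (σ + ε / 3) (1 / 128) ha (by norm_num)).const_mul (4 * Real.exp 8)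
    · obtain ⟨hd1, hd2⟩ := hL1 L ((le_max_right _ _).trans hL)
      set A : ℝ := L ^ (σ + ε / 3) with hA
      set r : ℝ := L ^ σ with hr
      set t : ℝ := Real.exp (-(A / 32)) with ht
      have hreg : ∀ n ω, W.y n ω ∈ Sl.reg := fun n ω => hW.dom ▸ W.y_mem n ω
      have hdH : DifferentiableOn ℂ (Sl.Hs ⟪i⟫) W.U := by rw [hW.dom]; exact Sl.Hs_diff hS i
      have b1 := W.pha_l2 (Sl.Hs ⟪i⟫) hdH _ (Sl.pow_maskR_proc hS W hW.dom (L ^ (σ + ε)))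
        (4 * Real.exp (2 * r + 8) * t ^ 2 * L ^ 2) (Real.exp (-(A / 64))) (by positivity) (Real.exp_pos _)
      have e1 : 4 * Real.exp (2 * r + 8) * t ^ 2 * L ^ 2 / Real.exp (-(A / 64)) ^ 2
          ≤ 4 * Real.exp 8 * Real.exp (-(1 / 128 * A)) := by
        have e2 : t ^ 2 / Real.exp (-(A / 64)) ^ 2 = Real.exp (-(1 / 32 * A)) := by
          rw [ht, ← Real.exp_nat_mul, ← Real.exp_nat_mul, ← Real.exp_sub]
          congr 1; push_cast; ring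
        have e3 : Real.exp (2 * r + 8) ≤ Real.exp 8 * Real.exp (1 / 256 * A) := by
          rw [← Real.exp_add]
          exact Real.exp_le_exp.mpr (by linarith)
        calc 4 * Real.exp (2 * r + 8) * t ^ 2 * L ^ 2 / Real.exp (-(A / 64)) ^ 2
            = 4 * (Real.exp (2 * r + 8) * (t ^ 2 / Real.exp (-(A / 64)) ^ 2 * L ^ 2)) := by ring
          _ ≤ 4 * (Real.exp 8 * Real.exp (1 / 256 * A) * (Real.exp (-(1 / 32 * A)) * Real.exp (1 / 256 * A))) := by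
              rw [e2]; gcongr
          _ = 4 * Real.exp 8 * Real.exp (1 / 256 * A + (-(1 / 32 * A) + 1 / 256 * A)) := by
              rw [Real.exp_add, Real.exp_add]; ring
          _ ≤ _ := by
              have hA0 : 0 < A := Real.rpow_pos_of_pos (by linarith [(le_max_left (1 : ℝ) L1).trans hL]) _
              gcongr
              linarith
      refine (measureReal_mono ?_ (measure_ne_top _ _)).trans (b1.trans e1)
      rintro ω ⟨n, hgeo, hdiff, hclock, hlam⟩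
      refine ⟨n, ?_, by rwa [Sl.pow_Sinc_eq] at hlam⟩
      calc ∑ m ∈ Finset.range n, Sl.powMaskR W (L ^ (σ + ε)) m ω ^ 2 * W.qv (Sl.Hs ⟪i⟫) (W.y m ω)
          ≤ ∑ m ∈ Finset.range n, 4 * Real.exp (2 * r + 8) * t ^ 2 * (Sl.qy W m ω / Slice.ry Sl (W.y m ω) ^ 2) := by
            refine Finset.sum_le_sum fun m hm => ?_
            have hm' := Finset.mem_range.mp hm
            unfold powMaskR
            split_ifs with hl
            · have hR1 := Sl.ini_one_le_Rrun W m ω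
              have hψ : ‖Sl.ψ ⟪i⟫ (W.y m ω)‖ ≤ r := by
                have h1 := (Sl.clk_geo1_le (W.y m ω) i).trans (hgeo m hm')
                unfold geo1 at h1
                have h3 : 0 ≤ Real.log (1 + ‖Sl.X ⟪i⟫ (W.y m ω)‖) :=
                  Real.log_nonneg (by linarith [norm_nonneg (Sl.X ⟪i⟫ (W.y m ω))])
                have h4 := abs_nonneg (Real.log ‖Sl.sd ⟪i⟫ (W.y m ω)‖)
                have h5 := abs_nonneg (Real.log ‖Sl.ℓ ⟪i⟫ (W.y m ω)‖)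
                linarith
              have h1 := Sl.pow_qv_Hs hS W hW i _ (hreg m ω) t r (Sl.Rrun W m ω) (Real.exp_pos _).le (hdiff m hm' hl) hψ
                (by linarith [Sl.ini_le_Rrun W m ω, Sl.ini_X_le_maxX (W.y m ω) i])
              calc (Sl.Rrun W m ω)⁻¹ ^ 2 * W.qv (Sl.Hs ⟪i⟫) (W.y m ω)
                  ≤ (Sl.Rrun W m ω)⁻¹ ^ 2 * (Sl.Rrun W m ω ^ 2 * (4 * Real.exp (2 * r + 8)) * t ^ 2 *
                      (W.r (W.y m ω) ^ 2 / Slice.ry Sl (W.y m ω) ^ 2)) := mul_le_mul_of_nonneg_left h1 (by positivity)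
                _ = _ := by
                    unfold qy Walk.rad
                    field_simp
            · have : 0 ≤ 4 * Real.exp (2 * r + 8) * t ^ 2 * (Sl.qy W m ω / Slice.ry Sl (W.y m ω) ^ 2) := by
                unfold qy; positivity
              simpa using this
        _ = 4 * Real.exp (2 * r + 8) * t ^ 2 * ∑ m ∈ Finset.range n, Sl.qy W m ω / Slice.ry Sl (W.y m ω) ^ 2 := by
            rw [Finset.mul_sum]
        _ ≤ _ := mul_le_mul_of_nonneg_left hclock (by positivity)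
  refine Rare.mono Sl (Rare.iUnion Sl hone) fun L W => ?_
  rintro ω ⟨n, -, h0, h1, h2, i, hi⟩
  exact Set.mem_iUnion.mpr ⟨i, n, h0, h1, h2, hi⟩

/-! ### LF-S10e-4: the deterministic conclusion on the good event -/

omit hS in
theorem _root_.Claimed.Agent.R269.pow_sin_sub_le (a b : ℂ) (M : ℝ) (ha : |a.im| ≤ M) (hb : |b.im| ≤ M) :
    ‖Complex.sin a - Complex.sin b‖ ≤ Real.exp M * ‖a - b‖ := by
  have hs : Convex ℝ ({c : ℂ | c.im ≤ M} ∩ {c : ℂ | -M ≤ c.im}) :=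
    (convex_halfSpace_im_le M).inter (convex_halfSpace_im_ge (-M))
  refine hs.norm_image_sub_le_of_norm_deriv_le (f := Complex.sin) (fun x _ => Complex.differentiableAt_sin)
    (fun x hx => ?_) ⟨(abs_le.mp hb).2, (abs_le.mp hb).1⟩ ⟨(abs_le.mp ha).2, (abs_le.mp ha).1⟩
  rw [Complex.deriv_sin]
  exact (clk_norm_cos_le x).trans (Real.exp_le_exp.mpr (abs_le.mpr ⟨hx.2, hx.1⟩))

omit hS in
theorem pow_geo_parts (y : ℂ) (B : ℝ) (h : Sl.geo y ≤ B) (i : Fin Sl.N) :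
    ‖Sl.ψ ⟪i⟫ y‖ ≤ B ∧ Real.log (1 + ‖Sl.X ⟪i⟫ y‖) ≤ B ∧ |Real.log ‖Sl.sd ⟪i⟫ y‖| ≤ B ∧
      |Real.log ‖Sl.ℓ ⟪i⟫ y‖| ≤ B := by
  have h1 := (Sl.clk_geo1_le y i).trans h
  unfold geo1 at h1
  have h2 : 0 ≤ ‖Sl.ψ ⟪i⟫ y‖ := norm_nonneg _
  have h3 : 0 ≤ Real.log (1 + ‖Sl.X ⟪i⟫ y‖) := Real.log_nonneg (by linarith [norm_nonneg (Sl.X ⟪i⟫ y)])
  have h4 := abs_nonneg (Real.log ‖Sl.sd ⟪i⟫ y‖)
  have h5 := abs_nonneg (Real.log ‖Sl.ℓ ⟪i⟫ y‖)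
  refine ⟨?_, ?_, ?_, ?_⟩ <;> linarith

omit hS in
theorem pow_Rrun_le (W : Walk) (n : ℕ) (ω : Om ℝ) (K : ℝ) (h : ∀ m, m ≤ n → 1 + Sl.maxX (W.y m ω) ≤ K) :
    Sl.Rrun W n ω ≤ K := by
  induction n with
  | zero => exact h 0 le_rfl
  | succ n ih => exact max_le (ih fun m hm => h m (by omega)) (h (n + 1) le_rfl)

omit hS in
theorem pow_maxX_of_geo (y : ℂ) (B : ℝ) (h : Sl.geo y ≤ B) : 1 + Sl.maxX y ≤ Real.exp B := by
  have : Sl.maxX y ≤ Real.exp B - 1 := Sl.ini_maxX_le y _ fun i => by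
    have h1 := (Sl.pow_geo_parts y B h i).2.1
    have h2 := (Real.log_le_iff_le_exp (by linarith [norm_nonneg (Sl.X ⟪i⟫ y)])).mp h1
    linarith
  linarith

omit hS in
theorem pow_Ainc_sub (W : Walk) (H₀ : ℝ) (i : Fin Sl.N) (a m : ℕ) (ω : Om ℝ) (ham : a ≤ m)
    (hl : ∀ l, a ≤ l → l < m → Sl.Late W H₀ l ω) :
    Sl.Ainc W H₀ i m ω - Sl.Ainc W H₀ i a ω = Sl.ψ ⟪i⟫ (W.y m ω) - Sl.ψ ⟪i⟫ (W.y a ω) := by
  unfold Ainc
  rw [← Finset.sum_Ico_eq_sub _ ham, ← Finset.sum_Ico_sub (fun l => Sl.ψ ⟪i⟫ (W.y l ω)) ham]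
  refine Finset.sum_congr rfl fun l hl' => ?_
  rw [Finset.mem_Ico] at hl'
  rw [if_pos (hl l hl'.1 hl'.2)]

omit hS in
/-- Abel summation after `τ_{H₀}` -/
theorem pow_Hs_sub_le (W : Walk) (H₀ ε : ℝ) (i : Fin Sl.N) (a m : ℕ) (ω : Om ℝ) (ham : a < m)
    (hl : ∀ l, a ≤ l → l < m → Sl.Late W H₀ l ω) (hT : ∀ l, l ≤ m → ‖Sl.Sinc W H₀ i l ω‖ ≤ ε) :
    ‖Sl.Hs ⟪i⟫ (W.y m ω) - Sl.Hs ⟪i⟫ (W.y a ω)‖ ≤ 4 * ε * Sl.Rrun W (m - 1) ω := by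
  classical
  have h1 := abel_bound (fun n => Sl.Rrun W n ω) (Sl.ini_Rrun_mono W ω)
    (fun n => zero_le_one.trans (Sl.ini_one_le_Rrun W n ω))
    (fun l => if Sl.Late W H₀ l ω then
      ((Sl.Rrun W l ω)⁻¹ : ℂ) * (Sl.Hs ⟪i⟫ (W.y (l + 1) ω) - Sl.Hs ⟪i⟫ (W.y l ω)) else 0) a m ham (2 * ε)
    (fun k hak hkm => by
      have e : ∑ l ∈ Finset.Ico a k, (if Sl.Late W H₀ l ω then
          ((Sl.Rrun W l ω)⁻¹ : ℂ) * (Sl.Hs ⟪i⟫ (W.y (l + 1) ω) - Sl.Hs ⟪i⟫ (W.y l ω)) else 0) =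
          Sl.Sinc W H₀ i k ω - Sl.Sinc W H₀ i a ω := by
        unfold Sinc
        rw [Finset.sum_Ico_eq_sub _ hak]
      rw [e]
      exact (norm_sub_le _ _).trans (by linarith [hT k hkm, hT a ham.le]))
  have h2 : ∑ l ∈ Finset.Ico a m, ((Sl.Rrun W l ω : ℝ) : ℂ) * (if Sl.Late W H₀ l ω then
      ((Sl.Rrun W l ω)⁻¹ : ℂ) * (Sl.Hs ⟪i⟫ (W.y (l + 1) ω) - Sl.Hs ⟪i⟫ (W.y l ω)) else 0) =
      Sl.Hs ⟪i⟫ (W.y m ω) - Sl.Hs ⟪i⟫ (W.y a ω) := by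
    rw [← Finset.sum_Ico_sub (fun l => Sl.Hs ⟪i⟫ (W.y l ω)) ham.le]
    refine Finset.sum_congr rfl fun l hl' => ?_
    rw [Finset.mem_Ico] at hl'
    rw [if_pos (hl l hl'.1 hl'.2), ← mul_assoc, mul_inv_cancel₀, one_mul]
    have := Sl.ini_one_le_Rrun W l ω
    exact_mod_cast (by linarith : Sl.Rrun W l ω ≠ 0)
  rw [h2] at h1
  linarith

omit hS in
/-- the last time `≤ n` before the level `H₀` is passed -/
theorem pow_exists_tau (W : Walk) (H₀ : ℝ) (n : ℕ) (ω : Om ℝ) :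
    ∃ τ, τ ≤ n ∧ Sl.Upto W H₀ τ ω ∧ ∀ l, τ ≤ l → l < n → Sl.Late W H₀ l ω := by
  classical
  by_cases h : Sl.Upto W H₀ n ω
  · exact ⟨n, le_rfl, h, fun l h1 h2 => absurd h2 (by omega)⟩
  · have hex : ∃ m, m < n ∧ ¬ Sl.cutL W H₀ m ω := by
      unfold Upto Alive at h
      push Not at h
      exact h
    refine ⟨Nat.find hex, (Nat.find_spec hex).1.le, fun m hm => ?_, fun l h1 _ hU => ?_⟩
    · by_contra hc
      exact Nat.find_min hex hm ⟨hm.trans (Nat.find_spec hex).1, hc⟩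
    · exact (Nat.find_spec hex).2 (hU _ (by omega))

/-- angles and sines after a small change of the angles -/
theorem pow_late_AS : ∃ C : ℝ, 0 < C ∧ ∀ y ∈ Sl.reg, ∀ yτ ∈ Sl.reg, ∀ B e' : ℝ, 1 ≤ B → 0 ≤ e' → 2 * e' ≤ 1 →
    Sl.geo yτ ≤ B → (∀ i : Fin Sl.N, ‖Sl.ψ ⟪i⟫ y - Sl.ψ ⟪i⟫ yτ‖ ≤ 2 * e') → Real.exp (C * B) * e' ≤ 1 →
    Sl.AS (C * B) y := by
  obtain ⟨Cθ, hCθ, hθ⟩ := Sl.θ_le hS
  obtain ⟨Csd, hCsd, hsdu⟩ := Sl.ini_sd_upper hS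
  have hN : (0 : ℝ) < Sl.N := by
    have := Sl.N_ge
    exact_mod_cast (by omega : 0 < Sl.N)
  refine ⟨2 * ((Sl.N : ℝ) + 1) + 3 * Cθ + 1 + 2 + 3 * Csd, by positivity,
    fun y hy yτ hyτ B e' hB1 he0 he1 hgeo hψd hsm => ?_⟩
  have hB0 : 0 < B := by linarith
  have f0 : 0 < Csd * B := by positivity
  have f1 : 0 < Cθ * B := by positivity
  have f2 : 0 < (Sl.N : ℝ) * B := by positivity
  have f3 : (Sl.N : ℝ) ≤ (Sl.N : ℝ) * B := by nlinarith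
  have f4 : Cθ ≤ Cθ * B := by nlinarith
  have f5 : Csd ≤ Csd * B := by nlinarith
  have eC : (2 * ((Sl.N : ℝ) + 1) + 3 * Cθ + 1 + 2 + 3 * Csd) * B =
      2 * ((Sl.N : ℝ) * B) + 5 * B + 3 * (Cθ * B) + 3 * (Csd * B) := by ring
  rw [eC] at hsm ⊢
  have hψτ : ∀ i : Fin Sl.N, ‖Sl.ψ ⟪i⟫ yτ‖ ≤ 2 * B := fun i => by linarith [(Sl.pow_geo_parts yτ B hgeo i).1]
  have hψ : ∀ i : Fin Sl.N, ‖Sl.ψ ⟪i⟫ y‖ ≤ 2 * B := by
    intro i
    have h3 := (Sl.pow_geo_parts yτ B hgeo i).1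
    have h4 : ‖Sl.ψ ⟪i⟫ y‖ ≤ ‖Sl.ψ ⟪i⟫ yτ‖ + ‖Sl.ψ ⟪i⟫ y - Sl.ψ ⟪i⟫ yτ‖ := by
      have := norm_add_le (Sl.ψ ⟪i⟫ yτ) (Sl.ψ ⟪i⟫ y - Sl.ψ ⟪i⟫ yτ)
      rwa [add_sub_cancel] at this
    linarith [hψd i]
  intro i
  have hup := hsdu y hy (2 * B) hψ i
  have eup : Csd * (1 + 2 * B) = Csd + 2 * (Csd * B) := by ring
  refine ⟨(hψ i).trans (by linarith), abs_le.mpr ⟨?_, hup.trans (by linarith)⟩⟩
  have hdm := (hθ y hy.1 (2 * B) hψ i).2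
  have hdτ := (hθ yτ hyτ.1 (2 * B) hψτ i).2
  have hdd := (Sl.d_sub_le hS y yτ hy.1 hyτ.1 (2 * e') hψd i).1
  have hsin := pow_sin_sub_le (Sl.d ⟪i⟫ y) (Sl.d ⟪i⟫ yτ) (Cθ * (1 + 2 * B))
    ((Complex.abs_im_le_norm _).trans hdm) ((Complex.abs_im_le_norm _).trans hdτ)
  have hlow : Real.exp (-B) ≤ ‖Sl.sd ⟪i⟫ yτ‖ := by
    have h3 := (abs_le.mp (Sl.pow_geo_parts yτ B hgeo i).2.2.1).1
    have h4 := Real.exp_le_exp.mpr h3
    rwa [Real.exp_log (norm_pos_iff.mpr (hyτ.2.1 i).2.1)] at h4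
  have hdiff : ‖Sl.sd ⟪i⟫ y - Sl.sd ⟪i⟫ yτ‖ ≤ Real.exp (-B) / 2 := by
    refine hsin.trans ?_
    have h5 : 4 * ((Sl.N : ℝ) + 1) ≤ Real.exp (2 * ((Sl.N : ℝ) + 1)) := by
      have h6 := Real.quadratic_le_exp_of_nonneg (by positivity : 0 ≤ 2 * ((Sl.N : ℝ) + 1))
      nlinarith
    have h7 : Real.exp (2 * ((Sl.N : ℝ) + 1) + Cθ * (1 + 2 * B) + B) * e' ≤ 1 := by
      refine le_trans (mul_le_mul_of_nonneg_right (Real.exp_le_exp.mpr ?_) he0) hsm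
      have : Cθ * (1 + 2 * B) = Cθ + 2 * (Cθ * B) := by ring
      linarith
    rw [Real.exp_add, Real.exp_add] at h7
    have hEB := Real.exp_pos B
    calc Real.exp (Cθ * (1 + 2 * B)) * ‖Sl.d ⟪i⟫ y - Sl.d ⟪i⟫ yτ‖
        ≤ Real.exp (Cθ * (1 + 2 * B)) * (((Sl.N : ℝ) + 1) * (2 * e')) := by gcongr
      _ = (4 * ((Sl.N : ℝ) + 1) * Real.exp (Cθ * (1 + 2 * B)) * Real.exp B * e') * (Real.exp (-B) / 2) := by
          rw [Real.exp_neg]; field_simp; ring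
      _ ≤ (Real.exp (2 * ((Sl.N : ℝ) + 1)) * Real.exp (Cθ * (1 + 2 * B)) * Real.exp B * e') *
          (Real.exp (-B) / 2) := by gcongr
      _ ≤ 1 * (Real.exp (-B) / 2) := by gcongr
      _ = _ := one_mul _
  have hge : Real.exp (-B) / 2 ≤ ‖Sl.sd ⟪i⟫ y‖ := by
    have h9 : ‖Sl.sd ⟪i⟫ yτ‖ ≤ ‖Sl.sd ⟪i⟫ y‖ + ‖Sl.sd ⟪i⟫ y - Sl.sd ⟪i⟫ yτ‖ := by
      have := norm_sub_le (Sl.sd ⟪i⟫ y) (Sl.sd ⟪i⟫ y - Sl.sd ⟪i⟫ yτ)
      rwa [sub_sub_cancel] at this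
    linarith
  have hlg := Real.log_le_log (by positivity) hge
  rw [Real.log_div (Real.exp_pos _).ne' two_ne_zero, Real.log_exp] at hlg
  have hl2 : Real.log 2 ≤ 1 := by linarith [Real.log_two_lt_d9]
  linarith

/-- positions after `τ_{H₀}` -/
theorem pow_late_R : ∃ C : ℝ, 0 < C ∧ ∀ (W : Walk) (ω : Om ℝ) (H₀ B r e' : ℝ) (τ n : ℕ), W.U = Sl.reg → 1 ≤ B → B ≤ r →
    0 < e' → τ ≤ n → (∀ m, m ≤ τ → Sl.geo (W.y m ω) ≤ B) → (∀ l, τ ≤ l → l < n → Sl.Late W H₀ l ω) →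
    (∀ m, τ ≤ m → m ≤ n → Sl.AS r (W.y m ω)) → (∀ m, m ≤ n → ∀ i : Fin Sl.N, ‖Sl.Sinc W H₀ i m ω‖ ≤ e') →
    Real.exp (C * r) * e' ≤ 1 → Real.log (Sl.Rrun W n ω) ≤ C * r := by
  obtain ⟨Cr, hCr, hrec⟩ := Sl.reconstruction hS
  refine ⟨8 + 2 * Cr, by positivity, fun W ω H₀ B r e' τ n hU hB1 hBr he'0 hτn hgτ hlate hAS hSi hsm => ?_⟩
  have hreg : ∀ m, W.y m ω ∈ Sl.reg := fun m => hU ▸ W.y_mem m ω
  have hr1 : 1 ≤ r := hB1.trans hBr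
  have hr0 : 0 ≤ r := by linarith
  have g1 : Cr ≤ Cr * r := by nlinarith
  have eC : (8 + 2 * Cr) * r = 8 * r + 2 * (Cr * r) := by ring
  have eR : Cr * (1 + r) = Cr + Cr * r := by ring
  set Er : ℝ := Real.exp (Cr * (1 + r)) with hEr
  have hEr1 : 1 ≤ Er := Real.one_le_exp (by positivity)
  set P : ℝ := Real.exp (2 * B) with hP
  have hP1 : 1 ≤ P := Real.one_le_exp (by positivity)
  have hPB : Real.exp B * Real.exp B = P := by rw [hP, ← Real.exp_add]; ring_nf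
  have hsm2 : 4 * Er * e' ≤ 1 / 2 := by
    have h1 : Real.exp (8 + Cr * (1 + r)) * e' ≤ 1 :=
      le_trans (mul_le_mul_of_nonneg_right (Real.exp_le_exp.mpr (by linarith)) he'0.le) hsm
    rw [Real.exp_add] at h1
    have h2 : (8 : ℝ) ≤ Real.exp 8 := by linarith [Real.add_one_le_exp (8 : ℝ)]
    have h3 : 8 * (Er * e') ≤ Real.exp 8 * (Er * e') := mul_le_mul_of_nonneg_right h2 (by positivity)
    linarith
  have hXτ : ∀ i : Fin Sl.N, ‖Sl.X ⟪i⟫ (W.y τ ω)‖ ≤ Real.exp B := fun i => by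
    linarith [Sl.pow_maxX_of_geo _ B (hgτ τ le_rfl), Sl.ini_X_le_maxX (W.y τ ω) i]
  have hHsτ : ∀ i : Fin Sl.N, ‖Sl.Hs ⟪i⟫ (W.y τ ω)‖ ≤ 2 * P := by
    intro i
    unfold Hs
    refine (ini_dot_nvec_le _ _).trans ?_
    have h1 : Real.exp |(Sl.ψ ⟪i⟫ (W.y τ ω)).im| ≤ Real.exp B :=
      Real.exp_le_exp.mpr ((Complex.abs_im_le_norm _).trans (Sl.pow_geo_parts _ B (hgτ τ le_rfl) i).1)
    calc 2 * ‖Sl.X ⟪i⟫ (W.y τ ω)‖ * Real.exp |(Sl.ψ ⟪i⟫ (W.y τ ω)).im| ≤ 2 * Real.exp B * Real.exp B :=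
          mul_le_mul (by linarith [hXτ i]) h1 (Real.exp_pos _).le (by positivity)
      _ = _ := by rw [mul_assoc, hPB]
  have hEP : 1 ≤ Er * P := by nlinarith
  have key : ∀ m, τ ≤ m → m ≤ n → Sl.Rrun W m ω ≤ 2 * (1 + Er * (2 * P)) := by
    intro m hτm
    induction m, hτm using Nat.le_induction with
    | base =>
      intro _
      have h1 : Sl.Rrun W τ ω ≤ Real.exp B := Sl.pow_Rrun_le W τ ω _ fun m hm => Sl.pow_maxX_of_geo _ B (hgτ m hm)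
      have h2 : Real.exp B ≤ P := Real.exp_le_exp.mpr (by linarith)
      have h3 : P ≤ Er * P := by nlinarith
      linarith
    | succ m hτm ih =>
      intro hm1
      have ihm := ih (by omega)
      have hRm0 : 0 ≤ Sl.Rrun W m ω := zero_le_one.trans (Sl.ini_one_le_Rrun W m ω)
      show max (Sl.Rrun W m ω) (1 + Sl.maxX (W.y (m + 1) ω)) ≤ 2 * (1 + Er * (2 * P))
      refine max_le ihm ?_
      have hHs : ∀ i : Fin Sl.N, ‖Sl.Hs ⟪i⟫ (W.y (m + 1) ω)‖ ≤ 2 * P + 4 * e' * Sl.Rrun W m ω := by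
        intro i
        have h1 := Sl.pow_Hs_sub_le W H₀ e' i τ (m + 1) ω (by omega) (fun l a b => hlate l a (by omega))
          (fun l hl => hSi l (by omega) i)
        rw [Nat.add_sub_cancel] at h1
        have h3 : ‖Sl.Hs ⟪i⟫ (W.y (m + 1) ω)‖ ≤
            ‖Sl.Hs ⟪i⟫ (W.y τ ω)‖ + ‖Sl.Hs ⟪i⟫ (W.y (m + 1) ω) - Sl.Hs ⟪i⟫ (W.y τ ω)‖ := by
          have := norm_add_le (Sl.Hs ⟪i⟫ (W.y τ ω)) (Sl.Hs ⟪i⟫ (W.y (m + 1) ω) - Sl.Hs ⟪i⟫ (W.y τ ω))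
          rwa [add_sub_cancel] at this
        linarith [hHsτ i]
      have hXb := hrec _ (hreg (m + 1)) r _ hr0 (hAS (m + 1) (by omega) hm1) hHs
      have h5 : Sl.maxX (W.y (m + 1) ω) ≤ Er * (2 * P + 4 * e' * Sl.Rrun W m ω) := Sl.ini_maxX_le _ _ hXb
      have h6 : 4 * Er * e' * Sl.Rrun W m ω ≤ 1 / 2 * (2 * (1 + Er * (2 * P))) :=
        mul_le_mul hsm2 ihm hRm0 (by norm_num)
      have h7 : Er * (2 * P + 4 * e' * Sl.Rrun W m ω) = Er * (2 * P) + 4 * Er * e' * Sl.Rrun W m ω := by ring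
      linarith
  have hRn := key n hτn le_rfl
  have hK : 2 * (1 + Er * (2 * P)) ≤ Real.exp 3 * (Er * P) := by
    have h1 : (6 : ℝ) ≤ Real.exp 3 := by
      have := Real.quadratic_le_exp_of_nonneg (by norm_num : (0 : ℝ) ≤ 3)
      linarith
    have h2 : 6 * (Er * P) ≤ Real.exp 3 * (Er * P) := mul_le_mul_of_nonneg_right h1 (by positivity)
    linarith
  have hlog := Real.log_le_log (by linarith [Sl.ini_one_le_Rrun W n ω]) (hRn.trans hK)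
  rw [Real.log_mul (Real.exp_pos _).ne' (by positivity), Real.log_mul (by positivity) (by positivity), Real.log_exp, hEr,
    Real.log_exp, hP, Real.log_exp] at hlog
  linarith

/-- angles, sines and positions cost `O(H₀^σ)` through `τ_L`.  (`τ = τ_{H₀}`; `Ainc n = ψ(y_n) - ψ(y_τ)`; `d_sub_le`, `|sin a - sin b| ≤ |a-b| e^{max|Im|}`;
`abel_bound`; `reconstruction` with `B = H₀^σ + 1`; absorb.) -/
theorem late_geometry (σ ε : ℝ) (hσ : 0 < σ) (hσ1 : σ < 1) (hε : 0 < ε) (hσε : σ + ε < 1) :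
    ∃ C L0 : ℝ, 0 < C ∧ ∀ L, L0 ≤ L → ∀ (W : Walk) (κ : ℝ), κ ≤ 1 → Sl.Fine W κ → ∀ (ω : Om ℝ) (n : ℕ),
      Sl.Upto W L n ω → (∀ m, m ≤ n → Sl.geo (W.y m ω) ≤ L ^ σ) →
      (∀ m, m ≤ n → Sl.Upto W (L ^ (σ + ε)) m ω → Sl.geo (W.y m ω) ≤ (L ^ (σ + ε)) ^ σ) →
      (∀ m, m ≤ n → ∀ i : Fin Sl.N, ‖Sl.Ainc W (L ^ (σ + ε)) i m ω‖ ≤ Real.exp (-(L ^ (σ + ε / 3) / 64))) →
      (∀ m, m ≤ n → ∀ i : Fin Sl.N, ‖Sl.Sinc W (L ^ (σ + ε)) i m ω‖ ≤ Real.exp (-(L ^ (σ + ε / 3) / 64))) →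
      Sl.AS (C * L ^ (σ * (σ + ε))) (W.y n ω) ∧ Real.log (Sl.Rrun W n ω) ≤ C * L ^ (σ * (σ + ε)) := by
  obtain ⟨C1, hC1, hASl⟩ := Sl.pow_late_AS hS
  obtain ⟨C2, hC2, hRl⟩ := Sl.pow_late_R hS
  have hexp : σ * (σ + ε) < σ + ε / 3 := by nlinarith
  have ha : 0 < σ + ε / 3 := by positivity
  obtain ⟨L1, hL1⟩ := Filter.eventually_atTop.mp
    ((ini_const_dom (σ + ε / 3) 64 ha).and
      (ini_rpow_dom (σ * (σ + ε)) (σ + ε / 3) (64 * (C1 + 1 + C2 * (C1 + 1))) hexp))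
  refine ⟨C1 + 1 + C2 * (C1 + 1), max 1 L1, by positivity, fun L hL W κ hκ hW ω n hn _ hgeo2 hA hSi => ?_⟩
  have hLone : 1 ≤ L := (le_max_left _ _).trans hL
  have hL0 : 0 < L := by linarith
  obtain ⟨d1, d2⟩ := hL1 L ((le_max_right _ _).trans hL)
  have hreg : ∀ m, W.y m ω ∈ Sl.reg := fun m => hW.dom ▸ W.y_mem m ω
  have hBeq : (L ^ (σ + ε)) ^ σ = L ^ (σ * (σ + ε)) := by rw [← Real.rpow_mul hL0.le]; ring_nf
  rw [hBeq] at hgeo2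
  have hB1 : 1 ≤ L ^ (σ * (σ + ε)) := Real.one_le_rpow hLone (by positivity)
  generalize L ^ (σ * (σ + ε)) = B at *
  generalize L ^ (σ + ε / 3) = A at *
  generalize L ^ (σ + ε) = H₀ at *
  have hB0 : 0 < B := by linarith
  have he'0 : 0 < Real.exp (-(A / 64)) := Real.exp_pos _
  have hsmall : ∀ x : ℝ, x ≤ A / 64 → Real.exp x * Real.exp (-(A / 64)) ≤ 1 := by
    intro x hx
    rw [← Real.exp_add, ← Real.exp_zero]
    exact Real.exp_le_exp.mpr (by linarith)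
  have p1 : 0 < C1 * B := by positivity
  have p2 : 0 < C2 * (C1 * B) := by positivity
  have p3 : 0 < C2 * B := by positivity
  have eD : 64 * (C1 + 1 + C2 * (C1 + 1)) * B = 64 * (C1 * B + B + C2 * (C1 * B) + C2 * B) := by ring
  rw [eD] at d2
  have he'half : 2 * Real.exp (-(A / 64)) ≤ 1 := by
    have h1 := hsmall 1 (by linarith)
    have h2 : 2 ≤ Real.exp 1 := by linarith [Real.add_one_le_exp (1 : ℝ)]
    nlinarith
  obtain ⟨τ, hτn, hUτ, hlate⟩ := Sl.pow_exists_tau W H₀ n ω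
  have hgτ : ∀ m, m ≤ τ → Sl.geo (W.y m ω) ≤ B := fun m hm => hgeo2 m (hm.trans hτn) (Upto.of_le Sl hUτ hm)
  have hψd : ∀ m, τ ≤ m → m ≤ n → ∀ i : Fin Sl.N,
      ‖Sl.ψ ⟪i⟫ (W.y m ω) - Sl.ψ ⟪i⟫ (W.y τ ω)‖ ≤ 2 * Real.exp (-(A / 64)) := by
    intro m h1 h2 i
    rw [← Sl.pow_Ainc_sub W H₀ i τ m ω h1 fun l a b => hlate l a (by omega)]
    exact (norm_sub_le _ _).trans (by linarith [hA m h2 i, hA τ hτn i])
  have hAS : ∀ m, τ ≤ m → m ≤ n → Sl.AS (C1 * B) (W.y m ω) := fun m h1 h2 =>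
    hASl _ (hreg m) _ (hreg τ) B _ hB1 he'0.le he'half (hgτ τ le_rfl) (hψd m h1 h2) (hsmall _ (by linarith))
  have hAS' : ∀ m, τ ≤ m → m ≤ n → Sl.AS ((C1 + 1) * B) (W.y m ω) := fun m h1 h2 i =>
    ⟨((hAS m h1 h2) i).1.trans (by nlinarith), ((hAS m h1 h2) i).2.trans (by nlinarith)⟩
  have hR := hRl W ω H₀ B ((C1 + 1) * B) _ τ n hW.dom hB1 (by nlinarith) he'0 hτn hgτ hlate hAS' hSi
    (hsmall _ (by nlinarith))
  have eF : (C1 + 1 + C2 * (C1 + 1)) * B = C1 * B + B + C2 * (C1 * B) + C2 * B := by ring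
  rw [eF]
  refine ⟨fun i => ⟨((hAS n hτn le_rfl) i).1.trans (by linarith), ((hAS n hτn le_rfl) i).2.trans (by linarith)⟩, ?_⟩
  refine hR.trans (le_of_eq (by ring) |>.trans (by linarith : C2 * (C1 * B) + C2 * B ≤ _))

/-! ### LF-S10e-5: assembly -/

omit hS in
theorem pow_X_le_maxX (y : ℂ) (i : Fin Sl.N) : ‖Sl.X ⟪i⟫ y‖ ≤ Sl.maxX y :=
  le_ciSup (f := fun i : Fin Sl.N => ‖Sl.X ⟪i⟫ y‖) (Set.finite_range _).bddAbove i

omit hS in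
theorem pow_maxX_le_Rrun (W : Walk) (n : ℕ) (ω : Om ℝ) : 1 + Sl.maxX (W.y n ω) ≤ Sl.Rrun W n ω := by
  cases n with
  | zero => exact le_rfl
  | succ n => exact le_max_right _ _

omit hS in
theorem pow_maxX_nonneg (y : ℂ) : 0 ≤ Sl.maxX y :=
  le_trans (norm_nonneg _) (Sl.pow_X_le_maxX y 0)

omit hS in
theorem GeoRare.mono {σ σ' : ℝ} (h : Sl.GeoRare σ) (hσ : σ ≤ σ') : Sl.GeoRare σ' := by
  refine Rare.mono' Sl h ⟨1, fun L hL => ⟨1, one_pos, fun W _ => ?_⟩⟩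
  rintro ω ⟨n, hn, hg⟩
  exact ⟨n, hn, lt_of_le_of_lt (Real.rpow_le_rpow_of_exponent_le hL hσ) hg⟩

theorem improve_asx (σ ε : ℝ) (hσ : 0 < σ) (hσ1 : σ < 1) (hε : 0 < ε) (hσε : σ + ε < 1) (h : Sl.GeoRare σ) :
    ∃ C : ℝ, 0 < C ∧ Sl.Rare fun L W => {ω | ∃ n, Sl.Upto W L n ω ∧
      ¬ (Sl.AS (C * L ^ (σ * (σ + ε))) (W.y n ω) ∧ Real.log (Sl.Rrun W n ω) ≤ C * L ^ (σ * (σ + ε)))} := by
  obtain ⟨C, Lg, hC, hlg⟩ := Sl.late_geometry hS σ ε hσ hσ1 hε hσε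
  obtain ⟨Cb, hCb, hbad⟩ := Sl.badInv_rare hS
  obtain ⟨Ld, hld⟩ := Sl.late_diff hS Cb σ ε hCb hσ hε hσε
  refine ⟨C, hC, ?_⟩
  have hη : 0 < Sl.mη ε := by unfold mη; positivity
  have hξ : ∀ m : ℕ, 0 < Sl.mξ σ ε m := fun m => by unfold mξ; positivity
  have G1 := h
  have G2 : Sl.Rare fun L W => {ω | ∃ n, Sl.Upto W (L ^ (σ + ε)) n ω ∧ (L ^ (σ + ε)) ^ σ < Sl.geo (W.y n ω)} :=
    Rare.comp Sl h (fun L => L ^ (σ + ε)) (tendsto_rpow_atTop (by positivity))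
  have G3 := Sl.retreat hS
  have G4 : Sl.Rare fun L W => ⋃ m : Fin (Sl.N + 1), Sl.BadInv Cb (Sl.mξ σ ε m) (Sl.mη ε) L W :=
    Rare.iUnion Sl fun m => hbad _ _ (hξ m) hη
  have G5 := Sl.phase_clock hS
  have G6 := Sl.late_angles hS σ ε hσ hε
  have G7 := Sl.late_supports hS σ ε hσ hε
  have GU := Rare.union Sl G1 (Rare.union Sl G2 (Rare.union Sl G3 (Rare.union Sl G4 (Rare.union Sl G5 (Rare.union Sl G6 G7)))))
  refine Rare.mono' Sl GU ⟨max Lg Ld, fun L hL => ⟨1, one_pos, fun W hW => ?_⟩⟩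
  have hLg : Lg ≤ L := le_trans (le_max_left _ _) hL
  have hLd : Ld ≤ L := le_trans (le_max_right _ _) hL
  rintro ω ⟨n, hn, hnot⟩
  by_contra hcon
  simp only [mem_union, not_or] at hcon
  obtain ⟨g1, g2, g3, g4, g5, g6, g7⟩ := hcon
  apply hnot
  have hup : ∀ m, m ≤ n → Sl.Upto W L m ω := fun m hm => Upto.of_le Sl hn hm
  have hgeo : ∀ m, m ≤ n → Sl.geo (W.y m ω) ≤ L ^ σ := by
    intro m hm
    by_contra hc
    exact g1 ⟨m, hup m hm, not_le.1 hc⟩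
  have hgeo2 : ∀ m, m ≤ n → Sl.Upto W (L ^ (σ + ε)) m ω → Sl.geo (W.y m ω) ≤ (L ^ (σ + ε)) ^ σ := by
    intro m _ hm2
    by_contra hc
    exact g2 ⟨m, hm2, not_le.1 hc⟩
  have hret : ∀ m, m ≤ n → ∀ m', m' ≤ m → ∀ i : Fin Sl.N, Sl.k ⟪i⟫ (W.y m' ω) - 3 * Real.log L ≤ Sl.k ⟪i⟫ (W.y m ω) := by
    intro m hm m' hm' i
    by_contra hc
    exact g3 ⟨m', m, hm', hup m hm, i, not_le.1 hc⟩
  have hinv : ∀ m, m ≤ Sl.N → ω ∉ Sl.BadInv Cb (Sl.mξ σ ε m) (Sl.mη ε) L W := by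
    intro m hm hc
    exact g4 (mem_iUnion.2 ⟨⟨m, by omega⟩, hc⟩)
  have hdiff : ∀ m, m ≤ n → Sl.Late W (L ^ (σ + ε)) m ω → Sl.DiffLe (Real.exp (-(L ^ (σ + ε / 3) / 32))) (W.y m ω) := by
    intro m hm hlate
    exact hld L hLd W 1 le_rfl hW ω m (hup m hm) hlate (fun m' hm' => hgeo m' (le_trans hm' hm)) (hret m hm) hinv
  have hclock : ∀ m, m ≤ n → ∑ m' ∈ Finset.range m, Sl.qy W m' ω / Sl.ry (W.y m' ω) ^ 2 ≤ L ^ 2 := by
    intro m hm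
    by_contra hc
    exact g5 ⟨m, hup m hm, not_le.1 hc⟩
  have hA : ∀ m, m ≤ n → ∀ i : Fin Sl.N, ‖Sl.Ainc W (L ^ (σ + ε)) i m ω‖ ≤ Real.exp (-(L ^ (σ + ε / 3) / 64)) := by
    intro m hm i
    by_contra hc
    exact g6 ⟨m, hup m hm, fun m' hm' => hdiff m' (le_trans hm'.le hm), hclock m hm, i, (not_le.1 hc).le⟩
  have hSi : ∀ m, m ≤ n → ∀ i : Fin Sl.N, ‖Sl.Sinc W (L ^ (σ + ε)) i m ω‖ ≤ Real.exp (-(L ^ (σ + ε / 3) / 64)) := by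
    intro m hm i
    by_contra hc
    exact g7 ⟨m, hup m hm, fun m' hm' => hgeo m' (le_trans hm'.le hm), fun m' hm' => hdiff m' (le_trans hm'.le hm),
      hclock m hm, i, (not_le.1 hc).le⟩
  exact hlg L hLg W 1 le_rfl hW ω n hn hgeo hgeo2 hA hSi

theorem improve (σ : ℝ) (hσ : 0 < σ) (hσ1 : σ < 1) (h : Sl.GeoRare σ) : Sl.GeoRare ((σ + σ ^ 2) / 2) := by
  set ε : ℝ := (1 - σ) / 4 with hε
  have hεp : 0 < ε := by rw [hε]; linarith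
  have hσε : σ + ε < 1 := by rw [hε]; linarith
  set e₁ : ℝ := σ * (σ + ε) with he₁
  set τ : ℝ := (σ + σ ^ 2) / 2 with hτ
  have he₁τ : e₁ < τ := by rw [he₁, hτ, hε]; nlinarith
  have he₁p : 0 < e₁ := by rw [he₁]; positivity
  set e₂ : ℝ := (e₁ + τ) / 2 with he₂
  have h12 : e₁ < e₂ := by rw [he₂]; linarith
  have h2τ : e₂ < τ := by rw [he₂]; linarith
  have he₂p : 0 < e₂ := by linarith
  obtain ⟨C, hC, hE1⟩ := Sl.improve_asx hS σ ε hσ hσ1 hεp hσε h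
  obtain ⟨Cl, hCl, hlup⟩ := Sl.ℓ_upper hS
  obtain ⟨C0, hC0, hreal⟩ := Sl.real_bounds hS
  -- the upper bound of log |ℓ|
  set B0 : ℝ → ℝ := fun L => (C + Cl * C) * L ^ e₁ + (Cl + C0) with hB0
  -- the deficit events
  have hE2 : Sl.Rare fun L W => ⋃ i : Fin Sl.N, {ω | ∃ n, Alive (Sl.cutL W L) n ω ∧
      (∀ m, m < n → Real.log ‖Sl.ℓ ⟪i⟫ (W.y m ω)‖ ≤ B0 L) ∧ Real.log ‖Sl.ℓ ⟪i⟫ (W.y n ω)‖ ≤ -L ^ e₂} := by
    refine Rare.iUnion Sl fun i => ?_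
    refine Sl.rare_of_le (fun L => (C + Cl * C) * L ^ (-(e₂ - e₁)) + (Cl + 2 * C0 + 1) * L ^ (-e₂)) ?_
      ⟨1, fun L hL => ⟨1, one_pos, fun W hW => ?_⟩⟩
    · have t1 : Tendsto (fun L : ℝ => L ^ (-(e₂ - e₁))) atTop (𝓝 0) := tendsto_rpow_neg_atTop (by linarith)
      have t2 : Tendsto (fun L : ℝ => L ^ (-e₂)) atTop (𝓝 0) := tendsto_rpow_neg_atTop he₂p
      have := (t1.const_mul (C + Cl * C)).add (t2.const_mul (Cl + 2 * C0 + 1))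
      simpa using this
    · have hLp : 0 < L := by linarith
      have hp1 : 0 < L ^ e₁ := Real.rpow_pos_of_pos hLp _
      have hp2 : 0 < L ^ e₂ := Real.rpow_pos_of_pos hLp _
      have hB0C : C0 ≤ B0 L := by
        simp only [hB0]
        have : 0 ≤ (C + Cl * C) * L ^ e₁ := by positivity
        linarith
      have hld := Sl.slice_logdef hS W 1 zero_le_one hW (Sl.ℓ ⟪i⟫) (Sl.ℓ_diff hS i) (fun z hz => (hz.2.1 i).2.2)
        (fun z hz w hw => hW.ℓ z hz w hw i) C0 (B0 L) (L ^ e₂) (fun x hx => (hreal x hx i).2.2.2.2.2.2.1) hB0C hp2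
        (Sl.cutL W L) (Sl.cut_cutL W hW.dom hS L)
      refine le_trans hld ?_
      have hB0p : 0 ≤ B0 L := le_trans hC0.le hB0C
      calc (B0 L + 1 + C0) / (B0 L + 1 + L ^ e₂) ≤ (B0 L + 1 + C0) / L ^ e₂ :=
            div_le_div_of_nonneg_left (by positivity) hp2 (by linarith)
        _ = (C + Cl * C) * (L ^ e₁ / L ^ e₂) + (Cl + 2 * C0 + 1) * (L ^ e₂)⁻¹ := by
            simp only [hB0]; field_simp; ring
        _ = _ := by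
            rw [← Real.rpow_sub hLp, ← Real.rpow_neg hLp.le]
            congr 3; ring
  -- thresholds
  set A : ℝ := 3 * C + (C + Cl * C) + (Cl + C0) + 1 with hA
  have hAp : 0 < A := by positivity
  have t3 : ∀ᶠ L : ℝ in atTop, A ≤ L ^ (τ - e₂) := (tendsto_rpow_atTop (by linarith)).eventually_ge_atTop _
  obtain ⟨L1, hL1⟩ := eventually_atTop.1 (t3.and (eventually_ge_atTop (1 : ℝ)))
  refine Rare.mono' Sl (Rare.union Sl hE1 hE2) ⟨L1, fun L hL => ⟨1, one_pos, fun W hW => ?_⟩⟩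
  obtain ⟨hLA, hL1'⟩ := hL1 L hL
  have hLp : 0 < L := by linarith
  rintro ω ⟨n, hn, hgeo⟩
  by_contra hcon
  simp only [mem_union, not_or] at hcon
  obtain ⟨g1, g2⟩ := hcon
  have hreg : ∀ m, W.y m ω ∈ Sl.reg := fun m => hW.dom ▸ W.y_mem m ω
  have hgood : ∀ m, m ≤ n → Sl.AS (C * L ^ e₁) (W.y m ω) ∧ Real.log (Sl.Rrun W m ω) ≤ C * L ^ e₁ := by
    intro m hm
    by_contra hc
    exact g1 ⟨m, Upto.of_le Sl hn hm, hc⟩
  have hp1 : 0 < L ^ e₁ := Real.rpow_pos_of_pos hLp _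
  have hp2 : 0 < L ^ e₂ := Real.rpow_pos_of_pos hLp _
  have hlogX : ∀ m, m ≤ n → Real.log (1 + Sl.maxX (W.y m ω)) ≤ C * L ^ e₁ := by
    intro m hm
    refine le_trans (Real.log_le_log ?_ (Sl.pow_maxX_le_Rrun W m ω)) (hgood m hm).2
    have := Sl.pow_maxX_nonneg (W.y m ω); linarith
  have hlu : ∀ m, m ≤ n → ∀ i : Fin Sl.N, Real.log ‖Sl.ℓ ⟪i⟫ (W.y m ω)‖ ≤ B0 L := by
    intro m hm i
    have := hlup (W.y m ω) (hreg m) (C * L ^ e₁) (by positivity) (fun i => ((hgood m hm).1 i).1) i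
    have h2 := hlogX m hm
    simp only [hB0]
    nlinarith
  have hll : ∀ i : Fin Sl.N, -L ^ e₂ < Real.log ‖Sl.ℓ ⟪i⟫ (W.y n ω)‖ := by
    intro i
    by_contra hc
    exact g2 (mem_iUnion.2 ⟨i, n, hn, fun m hm => hlu m hm.le i, not_lt.1 hc⟩)
  have h12' : L ^ e₁ ≤ L ^ e₂ := Real.rpow_le_rpow_of_exponent_le hL1' h12.le
  have h1e2 : 1 ≤ L ^ e₂ := Real.one_le_rpow hL1' he₂p.le
  have hfin : Sl.geo (W.y n ω) ≤ L ^ τ := by
    refine ciSup_le fun i => ?_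
    unfold geo1
    have a1 := ((hgood n le_rfl).1 i).1
    have a2 := ((hgood n le_rfl).1 i).2
    have a3 : Real.log (1 + ‖Sl.X ⟪i⟫ (W.y n ω)‖) ≤ C * L ^ e₁ := by
      refine le_trans (Real.log_le_log (by positivity) ?_) (hlogX n le_rfl)
      have := Sl.pow_X_le_maxX (W.y n ω) i; linarith
    have a4 : |Real.log ‖Sl.ℓ ⟪i⟫ (W.y n ω)‖| ≤ B0 L + L ^ e₂ := by
      rw [abs_le]
      have hB0p : 0 ≤ B0 L := by simp only [hB0]; positivity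
      exact ⟨by linarith [hll i], by linarith [hlu n le_rfl i]⟩
    have a5 : L ^ τ = L ^ e₂ * L ^ (τ - e₂) := by
      rw [← Real.rpow_add hLp]; congr 1; ring
    have a6 : A * L ^ e₂ ≤ L ^ τ := by
      rw [a5, mul_comm]; exact mul_le_mul_of_nonneg_left hLA hp2.le
    have a7 : 3 * (C * L ^ e₁) + (B0 L + L ^ e₂) ≤ A * L ^ e₂ := by
      simp only [hB0, hA]
      have b1 : 3 * (C * L ^ e₁) ≤ 3 * C * L ^ e₂ := by nlinarith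
      have b2 : (C + Cl * C) * L ^ e₁ ≤ (C + Cl * C) * L ^ e₂ := mul_le_mul_of_nonneg_left h12' (by positivity)
      have b3 : (Cl + C0) ≤ (Cl + C0) * L ^ e₂ := le_mul_of_one_le_right (by positivity) h1e2
      nlinarith
    linarith
  exact absurd hgeo (not_lt.2 hfin)

theorem stopped_geometry (σ : ℝ) (hσ : 0 < σ) : Sl.GeoRare σ := by
  obtain ⟨σ₁, h0, h1, hG⟩ := Sl.initial_geometry hS
  set q : ℝ := (1 + σ₁) / 2 with hq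
  have hq0 : 0 < q := by rw [hq]; linarith
  have hq1 : q < 1 := by rw [hq]; linarith
  have key : ∀ n : ℕ, ∃ s : ℝ, 0 < s ∧ s ≤ σ₁ * q ^ n ∧ s ≤ σ₁ ∧ Sl.GeoRare s := by
    intro n
    induction n with
    | zero => exact ⟨σ₁, h0, by simp, le_rfl, hG⟩
    | succ n ih =>
      obtain ⟨s, hs0, hs1, hs2, hsG⟩ := ih
      refine ⟨(s + s ^ 2) / 2, by positivity, ?_, ?_, Sl.improve hS s hs0 (by linarith) hsG⟩
      · have : (s + s ^ 2) / 2 = s * ((1 + s) / 2) := by ring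
        rw [this, pow_succ, ← mul_assoc]
        exact mul_le_mul hs1 (by rw [hq]; linarith) (by positivity) (by positivity)
      · nlinarith
  obtain ⟨n, hn⟩ := exists_pow_lt_of_lt_one (show 0 < σ / σ₁ by positivity) hq1
  obtain ⟨s, _, hs1, _, hsG⟩ := key n
  refine GeoRare.mono Sl hsG (le_trans hs1 ?_)
  rw [lt_div_iff₀ h0] at hn
  linarith

end Slice

end Claimed.Agent.R269
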